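import Vale.Agent.P146.Chaos.Fam

/-! # P146: the residual of the operators is the averaged site residual -/

namespace Vale.Agent.P146.Chaos

open Finset MeasureTheory ProbabilityTheory
open Vale.Agent.P150 Vale.Agent.P150.Slow

set_option linter.unusedSectionVars false

attribute [local irreducible] chi ovl asite ymat site

variable {n : ℕ} (β r0 ρ r : ℝ) (x : Fin 3 × Ed n → ℝ) (kS kT : Fin 3 → ℝ) (i : Fin n) (p q : Ed n)

/-- two fresh rows and four noises -/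
abbrev Lay (n : ℕ) := ((Fin n → ℝ) × (Fin n → ℝ)) ×
  (((Ed n → ℝ) × (Ed n → ℝ)) × ((Ed n → ℝ) × (Ed n → ℝ)))

/-- the site bracket in split coordinates -/
noncomputable def sterm (v : ℝ × Lay n) : ℝ :=
  w β (fam r0 x kS v.2.2.1.1) p * w β (fam r0 x kT v.2.2.1.2) q *
    (β ^ 2 * (ovl β (fam r0 x kS v.2.2.1.1) (fam r0 x kT v.2.2.1.2) *
      chi β i (rmix i v.1 (fam r0 x kS v.2.2.1.1) v.2.1.1) (ref ρ x v.2.2.2.1) *
      chi β i (rmix i v.1 (fam r0 x kT v.2.2.1.2) v.2.1.2) (ref ρ x v.2.2.2.2)) -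
    r⁻¹ * (ovl β (fam r0 x kS v.2.2.1.1) (ref ρ x v.2.2.2.1) *
      ovl β (fam r0 x kT v.2.2.1.2) (ref ρ x v.2.2.2.2) *
      asite β i (fam r0 x kS v.2.2.1.1) (fam r0 x kT v.2.2.1.2)))

/-- product of weights -/
noncomputable def wt (c : ℝ) (a b : Ed n → ℝ) : ℝ :=
  w β (fam r0 x kS a) p * w β (fam r0 x kT b) q * c

/-- susceptibility term -/
noncomputable def tX (k : Fin n × ℝ) (a b : Ed n → ℝ) : ℝ :=
  wt β r0 x kS kT p q (ovl β (fam r0 x kS a) (fam r0 x kT b) *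
    (xref β r0 ρ x kS (k, a) * xref β r0 ρ x kT (k, b))) a b

/-- overlap term of one site -/
noncomputable def tD (a b : Ed n → ℝ) : ℝ :=
  wt β r0 x kS kT p q (asite β i (fam r0 x kS a) (fam r0 x kT b) *
    (dref β r0 ρ x kS a * dref β r0 ρ x kT b)) a b

lemma bc_sterm : BC (sterm β r0 ρ r x kS kT i p q) := by
  have cg := cont_fam r0 x kS
  have ch := cont_fam r0 x kT
  have cr := cont_ref ρ x
  have c1 : Continuous fun v : ℝ × Lay n => fam r0 x kS v.2.2.1.1 := cg.comp (by fun_prop)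
  have c2 : Continuous fun v : ℝ × Lay n => fam r0 x kT v.2.2.1.2 := ch.comp (by fun_prop)
  have c3 : Continuous fun v : ℝ × Lay n => ref ρ x v.2.2.2.1 := cr.comp (by fun_prop)
  have c4 : Continuous fun v : ℝ × Lay n => ref ρ x v.2.2.2.2 := cr.comp (by fun_prop)
  refine ⟨(((continuous_apply p).comp (cont_w β c1)).mul
    ((continuous_apply q).comp (cont_w β c2))).mul
    ((continuous_const.mul (((cont_ovl β c1 c2).mul (cont_chi β i (cont_rmix i continuous_fst c1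
      (by fun_prop)) c3)).mul (cont_chi β i (cont_rmix i continuous_fst c2 (by fun_prop)) c4))).sub
    (continuous_const.mul (((cont_ovl β c1 c3).mul (cont_ovl β c2 c4)).mul
      (cont_asite β i c1 c2)))), β ^ 2 + |r⁻¹|, fun v => ?_⟩
  rw [sterm, abs_mul, abs_mul (w β _ p)]
  refine (mul_le_of_le_one_left (abs_nonneg _) (mul_le_one₀ (abs_w_le_one β _ p) (abs_nonneg _)
    (abs_w_le_one β _ q))).trans ((abs_sub _ _).trans (add_le_add ?_ ?_))
  · rw [abs_mul, abs_of_nonneg (sq_nonneg β), abs_mul, abs_mul]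
    exact mul_le_of_le_one_right (sq_nonneg β) (mul_le_one₀ (mul_le_one₀ (abs_ovl_le β _ _)
      (abs_nonneg _) (abs_chi_le β i _ _)) (abs_nonneg _) (abs_chi_le β i _ _))
  · rw [abs_mul, abs_mul, abs_mul]
    exact mul_le_of_le_one_right (abs_nonneg _) (mul_le_one₀ (mul_le_one₀ (abs_ovl_le β _ _)
      (abs_nonneg _) (abs_ovl_le β _ _)) (abs_nonneg _) (abs_asite_le β i _ _))

lemma abs_xref_le (k : Fin 3 → ℝ) (v : (Fin n × ℝ) × (Ed n → ℝ)) : |xref β r0 ρ x k v| ≤ 1 :=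
  abs_le.2 ⟨by linarith [(xref_mem β r0 ρ x k v).1], (xref_mem β r0 ρ x k v).2⟩

lemma abs_dref_le (k : Fin 3 → ℝ) (v : Ed n → ℝ) : |dref β r0 ρ x k v| ≤ 1 :=
  abs_le.2 ⟨by linarith [(dref_mem β r0 ρ x k v).1], (dref_mem β r0 ρ x k v).2⟩

lemma abs_wt_le {c : ℝ} (hc : |c| ≤ 1) (a b : Ed n → ℝ) : |wt β r0 x kS kT p q c a b| ≤ 1 := by
  rw [wt, abs_mul, abs_mul]
  exact mul_le_one₀ (mul_le_one₀ (abs_w_le_one β _ p) (abs_nonneg _) (abs_w_le_one β _ q))
    (abs_nonneg _) hc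

lemma bc_tX : BC fun z : (Fin n × ℝ) × (Ed n → ℝ) × (Ed n → ℝ) =>
    tX β r0 ρ x kS kT p q z.1 z.2.1 z.2.2 := by
  refine ⟨?_, 1, fun z => abs_wt_le β r0 x kS kT p q ?_ _ _⟩
  · have c1 : Continuous fun z : (Fin n × ℝ) × (Ed n → ℝ) × (Ed n → ℝ) => fam r0 x kS z.2.1 :=
      (cont_fam r0 x kS).comp (by fun_prop)
    have c2 : Continuous fun z : (Fin n × ℝ) × (Ed n → ℝ) × (Ed n → ℝ) => fam r0 x kT z.2.2 :=
      (cont_fam r0 x kT).comp (by fun_prop)
    exact (((continuous_apply p).comp (cont_w β c1)).mul ((continuous_apply q).comp (cont_w β c2))).mul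
      ((cont_ovl β c1 c2).mul (((bc_xref β r0 ρ x kS).1.comp (by fun_prop)).mul
        ((bc_xref β r0 ρ x kT).1.comp (by fun_prop))))
  · rw [abs_mul, abs_mul]
    exact mul_le_one₀ (abs_ovl_le β _ _) (by positivity)
      (mul_le_one₀ (abs_xref_le β r0 ρ x kS _) (abs_nonneg _) (abs_xref_le β r0 ρ x kT _))

lemma bc_tD : BC fun z : (Ed n → ℝ) × (Ed n → ℝ) => tD β r0 ρ x kS kT i p q z.1 z.2 := by
  refine ⟨?_, 1, fun z => abs_wt_le β r0 x kS kT p q ?_ _ _⟩
  · have c1 : Continuous fun z : (Ed n → ℝ) × (Ed n → ℝ) => fam r0 x kS z.1 :=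
      (cont_fam r0 x kS).comp continuous_fst
    have c2 : Continuous fun z : (Ed n → ℝ) × (Ed n → ℝ) => fam r0 x kT z.2 :=
      (cont_fam r0 x kT).comp continuous_snd
    exact (((continuous_apply p).comp (cont_w β c1)).mul ((continuous_apply q).comp (cont_w β c2))).mul
      ((cont_asite β i c1 c2).mul (((cont_dref β r0 ρ x kS).comp continuous_fst).mul
        ((cont_dref β r0 ρ x kT).comp continuous_snd)))
  · rw [abs_mul, abs_mul]
    exact mul_le_one₀ (abs_asite_le β i _ _) (by positivity)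
      (mul_le_one₀ (abs_dref_le β r0 ρ x kS _) (abs_nonneg _) (abs_dref_le β r0 ρ x kT _))

/-- integrating the fresh rows and the references out -/
lemma sterm_fresh (s : ℝ) (a c : Ed n → ℝ) :
    ∫ u, ∫ d, sterm β r0 ρ r x kS kT i p q (s, (d, ((a, c), u)))
        ∂(stdPi (Fin n)).prod (stdPi (Fin n)) ∂(stdPi (Ed n)).prod (stdPi (Ed n)) =
      β ^ 2 * tX β r0 ρ x kS kT p q (i, s) a c - r⁻¹ * tD β r0 ρ x kS kT i p q a c := by
  set g := fam r0 x kS a with hg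
  set h := fam r0 x kT c with hh
  set K1 := w β g p * w β h q * β ^ 2 * ovl β g h with hK1
  set K2 := w β g p * w β h q * r⁻¹ * asite β i g h with hK2
  set f1 := fun (d : Fin n → ℝ) (u : Ed n → ℝ) => chi β i (rmix i s g d) (ref ρ x u)
  set f2 := fun (d : Fin n → ℝ) (u : Ed n → ℝ) => chi β i (rmix i s h d) (ref ρ x u)
  set o1 := fun u => ovl β g (ref ρ x u)
  set o2 := fun u => ovl β h (ref ρ x u)
  have eG : ∀ d u, sterm β r0 ρ r x kS kT i p q (s, (d, ((a, c), u))) =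
      K1 * (f1 d.1 u.1 * f2 d.2 u.2) - K2 * (o1 u.1 * o2 u.2) := fun d u => by
    simp only [sterm, hK1, hK2, f1, f2, o1, o2, ← hg, ← hh]; ring
  have cr := cont_ref ρ x
  have cf1 : Continuous fun v : (Fin n → ℝ) × (Ed n → ℝ) => f1 v.1 v.2 :=
    cont_chi β i (cont_rmix i continuous_const continuous_const continuous_fst)
      (cr.comp continuous_snd)
  have cf2 : Continuous fun v : (Fin n → ℝ) × (Ed n → ℝ) => f2 v.1 v.2 :=
    cont_chi β i (cont_rmix i continuous_const continuous_const continuous_fst)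
      (cr.comp continuous_snd)
  have i1 : ∀ u : (Ed n → ℝ) × (Ed n → ℝ), Integrable
      (fun d : (Fin n → ℝ) × (Fin n → ℝ) => f1 d.1 u.1 * f2 d.2 u.2)
      ((stdPi (Fin n)).prod (stdPi (Fin n))) := fun u => by
    refine integrable_bdd2 ((cf1.comp (continuous_fst.prodMk continuous_const)).mul
      (cf2.comp (continuous_snd.prodMk continuous_const))) (B := 1) fun d => ?_
    show |f1 d.1 u.1 * f2 d.2 u.2| ≤ 1
    rw [abs_mul]
    exact mul_le_one₀ (abs_chi_le β i _ _) (abs_nonneg _) (abs_chi_le β i _ _)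
  simp only [eG, fun u => integral_sub ((i1 u).const_mul K1) (integrable_const (K2 * (o1 u.1 * o2 u.2))),
    integral_const_mul, fun u : (Ed n → ℝ) × (Ed n → ℝ) =>
      integral_prod_mul (μ := stdPi (Fin n)) (ν := stdPi (Fin n)) (fun d => f1 d u.1)
        (fun d => f2 d u.2), integral_const, probReal_univ, one_smul]
  have b1 : BC fun v : (Ed n → ℝ) × (Fin n → ℝ) => f1 v.2 v.1 :=
    ⟨cf1.comp (continuous_snd.prodMk continuous_fst), 1, fun v => abs_chi_le β i _ _⟩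
  have b2 : BC fun v : (Ed n → ℝ) × (Fin n → ℝ) => f2 v.2 v.1 :=
    ⟨cf2.comp (continuous_snd.prodMk continuous_fst), 1, fun v => abs_chi_le β i _ _⟩
  have i2 : Integrable (fun u : (Ed n → ℝ) × (Ed n → ℝ) =>
      K1 * ((∫ d, f1 d u.1 ∂stdPi (Fin n)) * ∫ d, f2 d u.2 ∂stdPi (Fin n)))
      ((stdPi (Ed n)).prod (stdPi (Ed n))) :=
    ((BC.int b1).integrable.mul_prod (BC.int b2).integrable).const_mul _
  have co : ∀ g : Ed n → ℝ, Continuous fun u => ovl β g (ref ρ x u) := fun g =>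
    cont_ovl β continuous_const cr
  have i3 : Integrable (fun u : (Ed n → ℝ) × (Ed n → ℝ) => K2 * (o1 u.1 * o2 u.2))
      ((stdPi (Ed n)).prod (stdPi (Ed n))) :=
    ((integrable_bdd (B := 1) (co g) fun u => abs_ovl_le β _ _).mul_prod
      (integrable_bdd (B := 1) (co h) fun u => abs_ovl_le β _ _)).const_mul _
  rw [integral_sub i2 i3, integral_const_mul, integral_const_mul,
    integral_prod_mul (fun u => ∫ d, f1 d u ∂stdPi (Fin n)) (fun u => ∫ d, f2 d u ∂stdPi (Fin n)),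
    integral_prod_mul o1 o2, BC.swap (f := fun u d => f1 d u) b1,
    BC.swap (f := fun u d => f2 d u) b2]
  simp only [tX, tD, wt, dref_eq, xref, hK1, hK2, f1, f2, o1, o2, ← hg, ← hh]
  ring

/-- the site residual in split coordinates -/
lemma vsite_conf : vsite β r (conf r0 ρ kS kT) i x (p, q) =
    β ^ 2 * ∫ s, ∫ a, ∫ c, tX β r0 ρ x kS kT p q (i, s) a c ∂stdPi (Ed n) ∂stdPi (Ed n) ∂unitI -
      r⁻¹ * ∫ a, ∫ c, tD β r0 ρ x kS kT i p q a c ∂stdPi (Ed n) ∂stdPi (Ed n) := by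
  set G := sterm β r0 ρ r x kS kT i p q with hG
  have bG : BC G := bc_sterm β r0 ρ r x kS kT i p q
  set ν2 := (stdPi (Ed n)).prod (stdPi (Ed n))
  set δ2 := (stdPi (Fin n)).prod (stdPi (Fin n))
  have e1 : ∀ o, ∫ z, ymat β r i o (sysv (conf r0 ρ kS kT).k (conf r0 ρ kS kT).rr x z) (p, q)
      ∂stdPi (Fin 4 × Ed n) =
      ∫ u, G (o.1, ((fun l => o.2 (0, l), fun l => o.2 (1, l)), u)) ∂ν2.prod ν2 := by
    intro o
    rw [← integral_of_mp mp_four (bG.comp (g := fun u => (o.1,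
      ((fun l => o.2 (0, l), fun l => o.2 (1, l)), u))) (by fun_prop)).1]
    refine integral_congr_ae (ae_of_all _ fun z => ?_)
    obtain ⟨h0, h1, h2, h3⟩ := blk_conf r0 ρ x kS kT z
    simp only [ymat, site, h0, h1, h2, h3, hG, sterm, four]
  have bE : BC fun u : ℝ × ((Fin n → ℝ) × (Fin n → ℝ)) => ∫ v, G (u.1, (u.2, v)) ∂ν2.prod ν2 :=
    BC.int (f := fun u : (ℝ × ((Fin n → ℝ) × (Fin n → ℝ))) × (((Ed n → ℝ) × (Ed n → ℝ)) ×
      ((Ed n → ℝ) × (Ed n → ℝ))) => G (u.1.1, (u.1.2, u.2))) (bG.comp (by fun_prop))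
  have e2 : ∀ s, ∫ d, ∫ u, G (s, ((fun l => d (0, l), fun l => d (1, l)), u))
      ∂ν2.prod ν2 ∂stdPi (Fin 2 × Fin n) = ∫ d, ∫ u, G (s, (d, u)) ∂ν2.prod ν2 ∂δ2 := fun s =>
    integral_of_mp mp_two (bE.comp (g := fun d => (s, d)) (by fun_prop)).1
  have e3 : ∀ s, ∫ d, ∫ u, G (s, (d, u)) ∂ν2.prod ν2 ∂δ2 =
      β ^ 2 * (∫ a, ∫ c, tX β r0 ρ x kS kT p q (i, s) a c ∂stdPi (Ed n) ∂stdPi (Ed n)) -
        r⁻¹ * ∫ a, ∫ c, tD β r0 ρ x kS kT i p q a c ∂stdPi (Ed n) ∂stdPi (Ed n) := by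
    intro s
    have bs : BC fun v : Lay n => G (s, v) := bG.comp (by fun_prop)
    rw [BC.swap (f := fun d u => G (s, (d, u))) bs, BC.prod_eq (BC.int
      (f := fun v : (((Ed n → ℝ) × (Ed n → ℝ)) × ((Ed n → ℝ) × (Ed n → ℝ))) ×
        ((Fin n → ℝ) × (Fin n → ℝ)) => G (s, (v.2, v.1))) (bG.comp (by fun_prop)))]
    have bv : BC fun v : (Ed n → ℝ) × (Ed n → ℝ) => ∫ u, ∫ d, G (s, (d, (v, u))) ∂δ2 ∂ν2 := by
      refine BC.int (f := fun v : ((Ed n → ℝ) × (Ed n → ℝ)) × ((Ed n → ℝ) × (Ed n → ℝ)) =>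
        ∫ d, G (s, (d, (v.1, v.2))) ∂δ2) ?_
      exact BC.int (f := fun v : (((Ed n → ℝ) × (Ed n → ℝ)) × ((Ed n → ℝ) × (Ed n → ℝ))) ×
        ((Fin n → ℝ) × (Fin n → ℝ)) => G (s, (v.2, (v.1.1, v.1.2)))) (bG.comp (by fun_prop))
    rw [BC.prod_eq bv]
    simp only [hG, ν2, δ2, sterm_fresh]
    have j1 : BC fun z : (Ed n → ℝ) × (Ed n → ℝ) => tX β r0 ρ x kS kT p q (i, s) z.1 z.2 :=
      (bc_tX β r0 ρ x kS kT p q).comp (g := fun z => ((i, s), z)) (by fun_prop)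
    have j3 := bc_tD β r0 ρ x kS kT i p q
    simp only [fun a => integral_sub
      ((j1.comp (g := fun c => (a, c)) (by fun_prop)).integrable.const_mul (β ^ 2) (μ := stdPi (Ed n)))
      ((j3.comp (g := fun c => (a, c)) (by fun_prop)).integrable.const_mul r⁻¹ (μ := stdPi (Ed n))),
      integral_const_mul]
    rw [integral_sub ((BC.int j1).integrable.const_mul _) ((BC.int j3).integrable.const_mul _),
      integral_const_mul, integral_const_mul]
  unfold vsite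
  simp only [e1]
  rw [aux, BC.prod_eq (bE.comp (g := fun o : ℝ × (Fin 2 × Fin n → ℝ) =>
    (o.1, (fun l => o.2 (0, l), fun l => o.2 (1, l)))) (by fun_prop))]
  simp only [e2, e3]
  have j1 : BC fun s => ∫ a, ∫ c, tX β r0 ρ x kS kT p q (i, s) a c ∂stdPi (Ed n) ∂stdPi (Ed n) :=
    BC.int (f := fun z : ℝ × (Ed n → ℝ) =>
      ∫ c, tX β r0 ρ x kS kT p q (i, z.1) z.2 c ∂stdPi (Ed n)) (BC.int
      (f := fun z : (ℝ × (Ed n → ℝ)) × (Ed n → ℝ) => tX β r0 ρ x kS kT p q (i, z.1.1) z.1.2 z.2)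
      ((bc_tX β r0 ρ x kS kT p q).comp
        (g := fun z : (ℝ × (Ed n → ℝ)) × (Ed n → ℝ) => ((i, z.1.1), z.1.2, z.2)) (by fun_prop)))
  rw [integral_sub (j1.integrable.const_mul _) (integrable_const _), integral_const_mul,
    integral_const, probReal_univ, one_smul]

variable [NeZero n]

/-- **The residual of the operator identity is the averaged site residual.** -/
theorem resid_conf :
    resid (siteLaw n) (Am β r0 ρ x kS) (Am β r0 ρ x kT) r⁻¹ (Wm β r0 ρ x kS) (Wm β r0 ρ x kT) p q =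
      vres β r (conf r0 ρ kS kT) x (p, q) := by
  have hn : 0 < n := NeZero.pos n
  set ν := stdPi (Ed n)
  have cw := fun k => cont_w β (cont_fam r0 x k)
  have bw : ∀ (k : Fin 3 → ℝ) a p, |w β (fam r0 x k a) p| ≤ 1 := fun k a p => abs_w_le_one β _ p
  have eA : ∀ k, (Am β r0 ρ x kS k * Am β r0 ρ x kT k) p q =
      β ^ 2 * ∫ a, ∫ c, tX β r0 ρ x kS kT p q k a c ∂ν ∂ν := by
    intro k
    rw [Am, Am, Matrix.smul_mul, Matrix.mul_smul, Matrix.smul_apply, Matrix.smul_apply,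
      smul_eq_mul, smul_eq_mul, mix_mul _ _
        (x := fun z => xref β r0 ρ x kS (k, z)) (y := fun z => xref β r0 ρ x kT (k, z))
        ((bc_xref β r0 ρ x kS).1.comp (continuous_const.prodMk continuous_id))
        ((bc_xref β r0 ρ x kT).1.comp (continuous_const.prodMk continuous_id)) (cw kS) (cw kT)
        (fun a => abs_xref_le β r0 ρ x kS _) (fun a => abs_xref_le β r0 ρ x kT _)
        (bw kS) (bw kT)]
    rw [← mul_assoc, ← sq]
    congr 1
    refine integral_congr_ae (ae_of_all _ fun a => integral_congr_ae (ae_of_all _ fun c => ?_))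
    simp only [tX, wt, ovl]
  have eW : (Wm β r0 ρ x kS * Wm β r0 ρ x kT) p q =
      (∑ i, ∫ a, ∫ c, tD β r0 ρ x kS kT i p q a c ∂ν ∂ν) / n := by
    rw [Wm, Wm, mix_mul _ _ (cont_dref β r0 ρ x kS) (cont_dref β r0 ρ x kT) (cw kS) (cw kT)
      (abs_dref_le β r0 ρ x kS) (abs_dref_le β r0 ρ x kT) (bw kS) (bw kT)]
    have ib : ∀ i, Integrable (fun a => ∫ c, tD β r0 ρ x kS kT i p q a c ∂ν) ν := fun i =>
      (BC.int (bc_tD β r0 ρ x kS kT i p q)).integrable
    rw [← integral_finsetSum _ fun i _ => ib i, ← integral_div]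
    refine integral_congr_ae (ae_of_all _ fun a => ?_)
    simp only
    rw [← integral_finsetSum _ fun i _ =>
      ((bc_tD β r0 ρ x kS kT i p q).comp (g := fun c => (a, c)) (by fun_prop)).integrable,
      ← integral_div]
    refine integral_congr_ae (ae_of_all _ fun c => ?_)
    simp only [tD, wt, ← mul_sum, ← sum_mul]
    have h := sum_asite β (fam r0 x kS a) (fam r0 x kT c) hn
    rw [ovl] at h
    rw [← h]
    ring
  have bk : BC fun k => β ^ 2 * ∫ a, ∫ c, tX β r0 ρ x kS kT p q k a c ∂ν ∂ν := by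
    obtain ⟨hc, B, hB⟩ := BC.int (μ := ν) (f := fun z : (Fin n × ℝ) × (Ed n → ℝ) =>
      ∫ c, tX β r0 ρ x kS kT p q z.1 z.2 c ∂ν) (BC.int
      (f := fun z : ((Fin n × ℝ) × (Ed n → ℝ)) × (Ed n → ℝ) =>
        tX β r0 ρ x kS kT p q z.1.1 z.1.2 z.2)
      ((bc_tX β r0 ρ x kS kT p q).comp
        (g := fun z : ((Fin n × ℝ) × (Ed n → ℝ)) × (Ed n → ℝ) => (z.1.1, z.1.2, z.2)) (by fun_prop)))
    refine ⟨continuous_const.mul hc, β ^ 2 * B, fun k => ?_⟩
    rw [abs_mul, abs_of_nonneg (sq_nonneg β)]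
    exact mul_le_mul_of_nonneg_left (hB k) (sq_nonneg β)
  simp only [resid, eA, eW, vres, vsite_conf]
  rw [integral_siteLaw bk, sum_sub_distrib, sub_div]
  simp only [integral_const_mul, ← mul_sum, mul_div_assoc]
  rfl

end Vale.Agent.P146.Chaos
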