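import Vale.Agent.P146.Chaos.Site

/-! # P146: the variance of the log partition function by Gaussian interpolation -/

namespace Vale.Agent.P146.Chaos

open Finset MeasureTheory ProbabilityTheory Filter
open Vale.Agent.P150 Vale.Agent.P150.Slow
open scoped Topology

variable {n : ℕ}

/-- overlap at correlation `u` -/
noncomputable def phiC (β : ℝ) (n : ℕ) (u : ℝ) : ℝ :=
  ∫ q, ovl β q.1 (rot u q.1 q.2) ∂(stdPi (Ed n)).prod (stdPi (Ed n))

/-- correlations averaged over the noise -/
noncomputable def meanW (β : ℝ) (r : ℝ) (a : Ed n → ℝ) : Ed n → ℝ :=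
  fun p => ∫ z, w β (sys r a z) p ∂stdPi (Ed n)

section Cor

variable {ι : Type*} [Fintype ι] [DecidableEq ι]

/-- Correlation of a bounded function with itself, by two systems over a common base. -/
lemma cor_self_eq {f : (ι → ℝ) → ℝ} (hf : Continuous f) {B : ℝ} (hB : ∀ x, |f x| ≤ B) {r : ℝ}
    (h0 : 0 ≤ r) (h1 : r ≤ 1) :
    cor f f r = ∫ a, (∫ z, f (sys r a z) ∂stdPi ι) ^ 2 ∂stdPi ι := by
  have hc : Continuous fun p : (ι → ℝ) × (ι → ℝ) => f p.1 * f p.2 :=
    (hf.comp continuous_fst).mul (hf.comp continuous_snd)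
  rw [cor, ← integral_sys_pair h0 h1 hc]
  have hi : Integrable (fun q : (ι → ℝ) × ((ι → ℝ) × (ι → ℝ)) =>
      f (sys r q.1 q.2.1) * f (sys r q.1 q.2.2)) ((stdPi ι).prod ((stdPi ι).prod (stdPi ι))) :=
    integrable_bdd ((hf.comp ((continuous_sys r).comp
      (continuous_fst.prodMk (continuous_fst.comp continuous_snd)))).mul
      (hf.comp ((continuous_sys r).comp
      (continuous_fst.prodMk (continuous_snd.comp continuous_snd))))) (B := B * B) fun q => by
        rw [abs_mul]
        exact mul_le_mul (hB _) (hB _) (abs_nonneg _) ((abs_nonneg _).trans (hB 0))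
  rw [integral_prod _ hi]
  refine integral_congr_ae (ae_of_all _ fun a => ?_)
  show ∫ q : (ι → ℝ) × (ι → ℝ), f (sys r a q.1) * f (sys r a q.2) ∂_ = _
  rw [integral_prod_mul (μ := stdPi ι) (ν := stdPi ι) (fun z => f (sys r a z))
    (fun z => f (sys r a z))]
  exact (sq _).symm

lemma cor_self_nonneg {f : (ι → ℝ) → ℝ} (hf : Continuous f) {B : ℝ} (hB : ∀ x, |f x| ≤ B) {r : ℝ}
    (h0 : 0 ≤ r) (h1 : r ≤ 1) : 0 ≤ cor f f r := by
  rw [cor_self_eq hf hB h0 h1]
  exact integral_nonneg fun a => sq_nonneg _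

lemma cor_self_mono {f : (ι → ℝ) → ℝ} (hf : Nice f) {u v : ℝ} (h0 : 0 ≤ u) (huv : u ≤ v)
    (h1 : v ≤ 1) : cor f f u ≤ cor f f v := by
  obtain ⟨B, hB⟩ := hf.bdd
  have hu := cor_sub hf hf h0 (huv.trans h1)
  have hv := cor_sub hf hf (h0.trans huv) h1
  have hc := continuous_dcor hf hf
  have hi := intervalIntegral.integral_interval_sub_left (μ := volume)
    (hc.intervalIntegrable 0 v) (hc.intervalIntegrable 0 u)
  have hp : 0 ≤ ∫ x in u..v, dcor f f x :=
    intervalIntegral.integral_nonneg huv fun x hx => sum_nonneg fun e _ =>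
      cor_self_nonneg (continuous_pd hf e) (fun y => abs_pd_le (fun y => (hB y).2) y e)
        (h0.trans hx.1) (hx.2.trans h1)
  linarith

/-- The derivative is bounded by the coordinate derivatives. -/
lemma norm_fderiv_le {F : (ι → ℝ) → ℝ} (x : ι → ℝ) : ‖fderiv ℝ F x‖ ≤ ∑ e, |pd F x e| := by
  refine ContinuousLinearMap.opNorm_le_bound _ (sum_nonneg fun e _ => abs_nonneg _) fun v => ?_
  conv_lhs => rw [pi_eq_sum_univ' v]
  rw [map_sum, sum_mul]
  refine (norm_sum_le _ _).trans (sum_le_sum fun e _ => ?_)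
  rw [map_smul, norm_smul, mul_comm]
  exact mul_le_mul le_rfl (norm_le_pi_norm v e) (norm_nonneg _) (abs_nonneg _)

end Cor

lemma phiC_eq_sum (β : ℝ) (u : ℝ) :
    phiC β n u = ∑ p : Ed n, cor (fun g => w β g p) (fun g => w β g p) u := by
  have hi : ∀ p, Integrable (fun q : (Ed n → ℝ) × (Ed n → ℝ) =>
      w β q.1 p * w β (rot u q.1 q.2) p) ((stdPi (Ed n)).prod (stdPi (Ed n))) := fun p =>
    integrable_bdd (((nice_w β p).continuous.comp continuous_fst).mul
      ((nice_w β p).continuous.comp (by unfold rot; fun_prop))) (B := (n : ℝ)⁻¹ * (n : ℝ)⁻¹)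
      fun q => by
        rw [abs_mul]
        exact mul_le_mul (abs_w_le β _ p) (abs_w_le β _ p) (abs_nonneg _) (by positivity)
  simp only [phiC, cor, ovl, ip]
  exact integral_finsetSum _ fun p _ => hi p

theorem phiC_eq (β : ℝ) {r : ℝ} (h0 : 0 ≤ r) (h1 : r ≤ 1) :
    phiC β n r = ∫ a, ip (meanW β r a) (meanW β r a) ∂stdPi (Ed n) := by
  have hc : ∀ p : Ed n, Continuous fun a => meanW β r a p := fun p =>
    continuous_of_dominated (bound := fun _ => (n : ℝ)⁻¹)
      (fun a => ((nice_w β p).continuous.comp ((continuous_sys r).comp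
        (continuous_const.prodMk continuous_id))).aestronglyMeasurable)
      (fun a => ae_of_all _ fun z => abs_w_le β _ p) (integrable_const _)
      (ae_of_all _ fun z => (nice_w β p).continuous.comp ((continuous_sys r).comp
        (continuous_id.prodMk continuous_const)))
  have hb : ∀ (p : Ed n) a, |meanW β r a p| ≤ (n : ℝ)⁻¹ := fun p a => by
    have h := norm_integral_le_of_norm_le_const (μ := stdPi (Ed n))
      (f := fun z => w β (sys r a z) p) (C := (n : ℝ)⁻¹) (ae_of_all _ fun z => abs_w_le β _ p)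
    simpa [meanW] using h
  rw [phiC_eq_sum]
  simp only [ip, ← sq]
  have hi : ∀ p, Integrable (fun a => meanW β r a p ^ 2) (stdPi (Ed n)) := fun p =>
    integrable_bdd ((hc p).pow 2) (B := (n : ℝ)⁻¹ ^ 2)
      fun a => by rw [abs_pow]; exact pow_le_pow_left₀ (abs_nonneg _) (hb p a) 2
  rw [integral_finsetSum _ fun p _ => hi p]
  exact sum_congr rfl fun p _ =>
    cor_self_eq (nice_w β p).continuous (fun g => abs_w_le β g p) h0 h1

theorem phiC_mono (β : ℝ) {u v : ℝ} (h0 : 0 ≤ u) (huv : u ≤ v) (h1 : v ≤ 1) :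
    phiC β n u ≤ phiC β n v := by
  rw [phiC_eq_sum, phiC_eq_sum]
  exact sum_le_sum fun p _ => cor_self_mono (nice_w β p) h0 huv h1

lemma continuous_phiC (β : ℝ) : Continuous (phiC β n) := by
  rw [show phiC β n = fun u => ∑ p : Ed n, cor (fun g => w β g p) (fun g => w β g p) u from
    funext fun u => phiC_eq_sum β u]
  exact continuous_finsetSum _ fun p _ => continuous_cor (nice_w β p).continuous
    (nice_w β p).continuous (fun g => abs_w_le β g p) (fun g => abs_w_le β g p)

lemma phiC_nonneg (β : ℝ) (u : ℝ) : 0 ≤ phiC β n u :=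
  integral_nonneg fun _ => ovl_nonneg β _ _

lemma phiC_le_one (β : ℝ) (u : ℝ) : phiC β n u ≤ 1 := by
  have h := norm_integral_le_of_norm_le_const (μ := (stdPi (Ed n)).prod (stdPi (Ed n)))
    (f := fun q => ovl β q.1 (rot u q.1 q.2)) (C := 1) (ae_of_all _ fun q => abs_ovl_le β _ _)
  simp only [probReal_univ, mul_one] at h
  exact (le_abs_self _).trans h

/-! ### the truncated log partition function -/

lemma contDiff_lg (β : ℝ) : ContDiff ℝ 1 (lg (cpl n β)) := by
  unfold lg en
  exact ContDiff.log (by fun_prop) fun g => (part_pos (cpl n β) g).ne'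

lemma pd_lg (β : ℝ) (g : Ed n → ℝ) (e : Ed n) :
    pd (lg (cpl n β)) g e = if e ∈ pairs n then β / √n * (n * w β g e) else 0 := by
  have h1 := hasDerivAt_update_pd ((contDiff_lg β).differentiable one_ne_zero) g e (g e)
  have h2 := P146.hasDeriv_lg (cpl n β) e g (g e)
  rw [Function.update_eq_self] at h1 h2
  rw [h1.unique h2]
  split_ifs with he
  · have hn : (n : ℝ) ≠ 0 := Nat.cast_ne_zero.2 (e.1.pos.ne')
    have hc : cpl n β e = fun x => β / √n * (sp x e.1 * sp x e.2) := by
      funext x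
      simp [cpl, he, X, sp]
    show avg β g (cpl n β e) = _
    rw [hc, avg_const_mul, w]
    field_simp
  · have hc : cpl n β e = fun _ => 0 := by
      funext x
      simp [cpl, he]
    show avg β g (cpl n β e) = _
    rw [hc, avg_const]

lemma abs_pd_lg_le (β : ℝ) (g : Ed n → ℝ) (e : Ed n) :
    |pd (lg (cpl n β)) g e| ≤ |β / √n| := by
  rw [pd_lg]
  split_ifs
  · rw [abs_mul, abs_mul, Nat.abs_cast]
    refine mul_le_of_le_one_right (abs_nonneg _) ?_
    have hn : (n : ℝ) ≠ 0 := Nat.cast_ne_zero.2 (e.1.pos.ne')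
    exact (mul_le_mul_of_nonneg_left (abs_w_le β g e) (Nat.cast_nonneg n)).trans
      (le_of_eq (mul_inv_cancel₀ hn))
  · simp

/-- A pair of disorders gives at most half the squared overlap. -/
lemma sum_pd_lg_le (β : ℝ) (g h : Ed n → ℝ) {c : ℝ} (h0 : 0 ≤ c) (h1 : c ≤ 1) :
    c * ∑ e, pd (lg (cpl n β)) g e * pd (lg (cpl n β)) h e ≤ β ^ 2 * n / 2 * ovl β g h := by
  set f : Ed n → ℝ := fun e => w β g e * w β h e with hf
  have hsymm : ∀ e : Ed n, f e.swap = f e := fun e => by
    simp only [hf, w, Prod.fst_swap, Prod.snd_swap, mul_comm (sp _ e.2)]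
  have hdiag : ∀ a : Fin n, 0 ≤ f (a, a) := fun a => by
    have hw : ∀ g, w β g (a, a) = (n : ℝ)⁻¹ := fun g => by
      simp [w, sp_sq, avg_const]
    simp only [hf, hw]
    positivity
  have hhalf : 2 * ∑ e, (if e ∈ pairs n then f e else 0) ≤ ovl β g h := by
    have hsw : ∑ e, (if e ∈ pairs n then f e else 0) =
        ∑ e : Ed n, (if e.swap ∈ pairs n then f e else 0) := by
      refine Fintype.sum_equiv (Equiv.prodComm _ _) _ _ fun e => ?_
      simp [hsymm]
    rw [two_mul]
    nth_rewrite 2 [hsw]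
    rw [← sum_add_distrib, ovl, ip]
    refine sum_le_sum fun e _ => ?_
    obtain ⟨a, b⟩ := e
    rcases lt_trichotomy a b with hab | rfl | hab
    · simp [pairs, hab, hab.not_gt, hf]
    · simpa [pairs, hf] using hdiag a
    · simp [pairs, hab, hab.not_gt, hf]
  have hterm : ∀ e, pd (lg (cpl n β)) g e * pd (lg (cpl n β)) h e =
      β ^ 2 * n * (if e ∈ pairs n then f e else 0) := fun e => by
    rw [pd_lg, pd_lg]
    split_ifs
    · have hn : (0 : ℝ) < n := by exact_mod_cast e.1.pos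
      simp only [hf]
      field_simp
      rw [Real.sq_sqrt hn.le]
    · simp
  rw [sum_congr rfl fun e _ => hterm e, ← mul_sum]
  have ho := ovl_nonneg β g h
  have hk : 0 ≤ β ^ 2 * n / 2 := by positivity
  have h2 : c * (2 * ∑ e, if e ∈ pairs n then f e else 0) ≤ ovl β g h :=
    (mul_le_mul_of_nonneg_left hhalf h0).trans (mul_le_of_le_one_left ho h1)
  calc c * (β ^ 2 * n * ∑ e, if e ∈ pairs n then f e else 0)
      = β ^ 2 * n / 2 * (c * (2 * ∑ e, if e ∈ pairs n then f e else 0)) := by ring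
    _ ≤ _ := mul_le_mul_of_nonneg_left h2 hk

/-- bounded version of the log partition function -/
noncomputable def tlg (β : ℝ) (R : ℝ) (g : Ed n → ℝ) : ℝ :=
  R * Real.arctan (lg (cpl n β) g / R)

lemma pd_tlg (β : ℝ) {R : ℝ} (hR : 0 < R) (g : Ed n → ℝ) (e : Ed n) :
    pd (tlg β R) g e = (1 + (lg (cpl n β) g / R) ^ 2)⁻¹ * pd (lg (cpl n β)) g e := by
  have hd : Differentiable ℝ (tlg (n := n) β R) :=
    ((Real.contDiff_arctan.comp ((contDiff_lg β).div_const R)).differentiable
      one_ne_zero).const_mul R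
  have h1 := hasDerivAt_update_pd hd g e (g e)
  have h2 := (((hasDerivAt_update_pd ((contDiff_lg β).differentiable one_ne_zero) g e
    (g e)).div_const R).arctan).const_mul R
  rw [Function.update_eq_self] at h1 h2
  rw [h1.unique h2]
  field_simp

lemma weight_bounds (x : ℝ) : 0 ≤ (1 + x ^ 2)⁻¹ ∧ (1 + x ^ 2)⁻¹ ≤ 1 :=
  ⟨by positivity, inv_le_one_of_one_le₀ (by linarith [sq_nonneg x])⟩

lemma nice_tlg (β : ℝ) {R : ℝ} (hR : 0 < R) : Nice (tlg (n := n) β R) := by
  refine ⟨contDiff_const.mul (Real.contDiff_arctan.comp ((contDiff_lg β).div_const R)),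
    max (R * (Real.pi / 2)) (∑ _e : Ed n, |β / √n|), fun g => ⟨?_, ?_⟩⟩
  · refine le_trans ?_ (le_max_left _ _)
    rw [tlg, abs_mul, abs_of_pos hR]
    exact mul_le_mul_of_nonneg_left (abs_le.2 ⟨(Real.neg_pi_div_two_lt_arctan _).le,
      (Real.arctan_lt_pi_div_two _).le⟩) hR.le
  · refine le_trans ?_ (le_max_right _ _)
    refine (norm_fderiv_le g).trans (sum_le_sum fun e _ => ?_)
    rw [pd_tlg β hR, abs_mul, abs_of_nonneg (weight_bounds _).1]
    exact (mul_le_of_le_one_left (abs_nonneg _) (weight_bounds _).2).trans (abs_pd_lg_le β g e)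

lemma dcor_tlg_le (β : ℝ) {R : ℝ} (hR : 0 < R) (u : ℝ) :
    dcor (tlg (n := n) β R) (tlg β R) u ≤ β ^ 2 * n / 2 * phiC β n u := by
  have hN := nice_tlg (n := n) β hR
  obtain ⟨B, hB⟩ := hN.bdd
  have hr : Continuous fun q : (Ed n → ℝ) × (Ed n → ℝ) => rot u q.1 q.2 := by
    unfold rot; fun_prop
  have hi : ∀ e, Integrable (fun q : (Ed n → ℝ) × (Ed n → ℝ) =>
      pd (tlg β R) q.1 e * pd (tlg β R) (rot u q.1 q.2) e)
      ((stdPi (Ed n)).prod (stdPi (Ed n))) := fun e =>
    integrable_bdd (((continuous_pd hN e).comp continuous_fst).mul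
      ((continuous_pd hN e).comp hr)) (B := B * B) fun q => by
        rw [abs_mul]
        exact mul_le_mul (abs_pd_le (fun x => (hB x).2) _ e) (abs_pd_le (fun x => (hB x).2) _ e)
          (abs_nonneg _) ((abs_nonneg _).trans (hB 0).1)
  have ho : Integrable (fun q : (Ed n → ℝ) × (Ed n → ℝ) => ovl β q.1 (rot u q.1 q.2))
      ((stdPi (Ed n)).prod (stdPi (Ed n))) :=
    integrable_bdd (cont_ovl β continuous_fst hr) fun q => abs_ovl_le β _ _
  rw [phiC, ← integral_const_mul]
  simp only [dcor, cor]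
  rw [← integral_finsetSum _ fun e _ => hi e]
  refine integral_mono (integrable_finsetSum _ fun e _ => hi e) (ho.const_mul _) fun q => ?_
  have ha := weight_bounds (lg (cpl n β) q.1 / R)
  have hb := weight_bounds (lg (cpl n β) (rot u q.1 q.2) / R)
  refine le_trans (le_of_eq ?_) (sum_pd_lg_le β q.1 (rot u q.1 q.2)
    (mul_nonneg ha.1 hb.1) (mul_le_one₀ ha.2 hb.1 hb.2))
  rw [mul_sum]
  refine sum_congr rfl fun e _ => ?_
  rw [pd_tlg β hR, pd_tlg β hR]
  ring

lemma var_tlg_le (β : ℝ) {R : ℝ} (hR : 0 < R) {t : ℝ} (h0 : 0 ≤ t) (h1 : t ≤ 1) :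
    ∫ g, tlg β R g ^ 2 ∂stdPi (Ed n) - (∫ g, tlg β R g ∂stdPi (Ed n)) ^ 2 ≤
      β ^ 2 * n / 2 * (phiC β n (1 - t) + t) := by
  have hN := nice_tlg (n := n) β hR
  have e1 : cor (tlg (n := n) β R) (tlg β R) 1 = ∫ g, tlg β R g ^ 2 ∂stdPi (Ed n) := by
    simp only [cor, rot_one, ← sq]
    simp [integral_fun_fst (fun y : Ed n → ℝ => tlg β R y ^ 2)]
  have e0 : cor (tlg (n := n) β R) (tlg β R) 0 = (∫ g, tlg β R g ∂stdPi (Ed n)) ^ 2 := by
    simp only [cor, rot_zero]
    rw [integral_prod_mul, sq]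
  have hc := continuous_phiC (n := n) β
  rw [← e1, ← e0, cor_sub hN hN zero_le_one le_rfl]
  refine (intervalIntegral.integral_mono_on zero_le_one
    ((continuous_dcor hN hN).intervalIntegrable _ _)
    ((hc.intervalIntegrable _ _).const_mul _) fun u _ => dcor_tlg_le β hR u).trans ?_
  rw [intervalIntegral.integral_const_mul]
  refine mul_le_mul_of_nonneg_left ?_ (by positivity)
  rw [← intervalIntegral.integral_add_adjacent_intervals (b := 1 - t)
    (hc.intervalIntegrable _ _) (hc.intervalIntegrable _ _)]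
  have ha := intervalIntegral.integral_mono_on (show (0 : ℝ) ≤ 1 - t by linarith)
    (hc.intervalIntegrable (μ := volume) 0 (1 - t)) intervalIntegrable_const
    fun u hu => phiC_mono β hu.1 hu.2 (by linarith)
  have hb := intervalIntegral.integral_mono_on (show 1 - t ≤ (1 : ℝ) by linarith)
    (hc.intervalIntegrable (μ := volume) (1 - t) 1) intervalIntegrable_const
    fun u _ => phiC_le_one (n := n) β u
  simp only [intervalIntegral.integral_const, smul_eq_mul, mul_one] at ha hb
  have := mul_nonneg h0 (phiC_nonneg (n := n) β (1 - t))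
  linarith

lemma abs_arctan_le_abs (x : ℝ) : |Real.arctan x| ≤ |x| := by
  have h := lipschitzWith_of_nnnorm_deriv_le (C := 1) Real.differentiable_arctan fun y => by
    rw [← NNReal.coe_le_coe, coe_nnnorm, NNReal.coe_one, (Real.hasDerivAt_arctan' y).deriv,
      Real.norm_eq_abs, abs_of_nonneg (weight_bounds y).1]
    exact (weight_bounds y).2
  simpa [Real.dist_eq] using h.dist_le_mul x 0

lemma tendsto_tlg (β : ℝ) (g : Ed n → ℝ) :
    Tendsto (fun k : ℕ => tlg β ((k : ℝ) + 1) g) atTop (𝓝 (lg (cpl n β) g)) := by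
  have hd : HasDerivAt (fun t => Real.arctan (lg (cpl n β) g * t)) (lg (cpl n β) g) 0 := by
    have h := ((hasDerivAt_id (0 : ℝ)).const_mul (lg (cpl n β) g)).arctan
    simpa using h
  have ht : Tendsto (fun k : ℕ => (1 : ℝ) / ((k : ℝ) + 1)) atTop (𝓝[≠] 0) :=
    tendsto_nhdsWithin_iff.2 ⟨tendsto_one_div_add_atTop_nhds_zero_nat,
      Eventually.of_forall fun k => by
        have : (0 : ℝ) < 1 / ((k : ℝ) + 1) := by positivity
        exact this.ne'⟩
  refine (hd.tendsto_slope_zero.comp ht).congr fun k => ?_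
  simp [tlg, div_eq_mul_inv]

theorem var_lg_le (β : ℝ) (n : ℕ) {t : ℝ} (h0 : 0 ≤ t) (h1 : t ≤ 1) :
    Var[lg (cpl n β); stdPi (Ed n)] ≤ β ^ 2 * n / 2 * (phiC β n (1 - t) + t) := by
  have hL : MemLp (lg (cpl n β)) 2 (stdPi (Ed n)) := (P146.lip_lg_cpl n β).memLp
  have hb : ∀ (k : ℕ) g, |tlg (n := n) β ((k : ℝ) + 1) g| ≤ |lg (cpl n β) g| := fun k g => by
    have hR : (0 : ℝ) < (k : ℝ) + 1 := by positivity
    rw [tlg, abs_mul, abs_of_pos hR]
    refine (mul_le_mul_of_nonneg_left (abs_arctan_le_abs _) hR.le).trans (le_of_eq ?_)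
    rw [abs_div, abs_of_pos hR, mul_div_cancel₀ _ hR.ne']
  have hc : ∀ k : ℕ, Continuous (tlg (n := n) β ((k : ℝ) + 1)) := fun k =>
    (nice_tlg β (by positivity)).continuous
  have t1 := tendsto_integral_of_dominated_convergence (μ := stdPi (Ed n))
    (fun g => |lg (cpl n β) g|) (fun k => (hc k).aestronglyMeasurable)
    (hL.integrable one_le_two).abs (fun k => ae_of_all _ fun g => hb k g)
    (ae_of_all _ fun g => tendsto_tlg β g)
  have t2 := tendsto_integral_of_dominated_convergence (μ := stdPi (Ed n))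
    (fun g => lg (cpl n β) g ^ 2) (fun k => ((hc k).pow 2).aestronglyMeasurable)
    hL.integrable_sq (fun k => ae_of_all _ fun g => by
      rw [Real.norm_eq_abs, Pi.pow_apply, abs_pow, ← sq_abs (lg (cpl n β) g)]
      exact pow_le_pow_left₀ (abs_nonneg _) (hb k g) 2)
    (ae_of_all _ fun g => (tendsto_tlg β g).pow 2)
  rw [variance_eq_sub hL]
  exact le_of_tendsto (t2.sub (t1.pow 2))
    (Eventually.of_forall fun k => var_tlg_le β (by positivity) h0 h1)

end Vale.Agent.P146.Chaos
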