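import Vale.Agent.P146.Chaos.Fam
import Vale.Agent.P146.Chaos.VarBound

/-! # P146: the trace of the product of two base matrices is bounded below -/

namespace Vale.Agent.P146.Chaos

open Finset MeasureTheory ProbabilityTheory
open Vale.Agent.P150 Vale.Agent.P150.Slow

/-- three blocks -/
def three {ι : Type*} (g : Fin 3 × ι → ℝ) : (ι → ℝ) × ((ι → ℝ) × (ι → ℝ)) :=
  (fun e => g (0, e), (fun e => g (1, e), fun e => g (2, e)))

lemma mp_three {ι : Type*} [Fintype ι] [DecidableEq ι] :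
    MeasurePreserving (three (ι := ι)) (stdPi (Fin 3 × ι))
      ((stdPi ι).prod ((stdPi ι).prod (stdPi ι))) :=
  ((mp_reindex (Equiv.uniqueProd ι (Fin 1)).symm).prod mp_two).comp
    ((mp_split (A := Fin 1) (B := Fin 2)).comp
      (mp_reindex (finSumFinEquiv.prodCongr (Equiv.refl ι))))

lemma pow_four_integral_le {α : Type*} [TopologicalSpace α] [MeasurableSpace α]
    [OpensMeasurableSpace α] {μ : Measure α} [IsProbabilityMeasure μ] {f : α → ℝ}
    (hf : Continuous f) {B : ℝ} (hB : ∀ a, |f a| ≤ B) : (∫ a, f a ∂μ) ^ 4 ≤ ∫ a, f a ^ 4 ∂μ := by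
  have hp : ∀ m : ℕ, Integrable (fun a => f a ^ m) μ := fun m =>
    integrable_bdd (hf.pow m) (B := B ^ m) fun a => by
      rw [abs_pow]; exact pow_le_pow_left₀ (abs_nonneg _) (hB a) m
  have h1 := sq_integral_le (by simpa using hp 1) (hp 2)
  have h2 := sq_integral_le (f := fun a => f a ^ 2) (hp 2)
    (by simpa only [← pow_mul] using hp 4)
  simp only [← pow_mul] at h2
  calc (∫ a, f a ∂μ) ^ 4 = ((∫ a, f a ∂μ) ^ 2) ^ 2 := by ring
    _ ≤ (∫ a, f a ^ 2 ∂μ) ^ 2 := pow_le_pow_left₀ (sq_nonneg _) h1 2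
    _ ≤ _ := h2

variable {n : ℕ}

/-- an entry of the base matrix, as a function of the disorder -/
noncomputable def ent (β ρ : ℝ) (a : Ed n → ℝ) (p q : Ed n) (u : Ed n → ℝ) : ℝ :=
  ip (meanW β ρ a) (w β u) * (w β u p * w β u q)

lemma cont_meanW (β ρ : ℝ) : Continuous (meanW (n := n) β ρ) :=
  continuous_pi fun p => cont_int
    (F := fun q : (Ed n → ℝ) × (Ed n → ℝ) => w β (sys ρ q.1 q.2) p)
    ((continuous_apply p).comp (cont_w β (continuous_sys ρ))) fun _ => abs_w_le β _ p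

lemma abs_meanW_le (β ρ : ℝ) (a : Ed n → ℝ) (p : Ed n) : |meanW β ρ a p| ≤ 1 :=
  BC.abs_integral_le fun _ => abs_w_le_one β _ p

lemma ip_meanW_nonneg (β ρ : ℝ) (a g : Ed n → ℝ) : 0 ≤ ip (meanW β ρ a) (w β g) := by
  have hi : ∀ p, Integrable (fun z => w β (sys ρ a z) p) (stdPi (Ed n)) := fun p =>
    integrable_bdd ((continuous_apply p).comp (cont_w β ((continuous_sys ρ).comp
      (continuous_const.prodMk continuous_id)))) fun z => abs_w_le β _ p
  have e : ip (meanW β ρ a) (w β g) = ∫ z, ovl β g (sys ρ a z) ∂stdPi (Ed n) := by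
    simp only [ip, meanW, ovl, ← integral_mul_const]
    rw [← integral_finsetSum _ fun p _ => (hi p).mul_const _]
    exact integral_congr_ae (ae_of_all _ fun z => sum_congr rfl fun p _ => mul_comm _ _)
  rw [e]
  exact integral_nonneg fun z => ovl_nonneg β _ _

lemma abs_ent_le (β ρ : ℝ) (a : Ed n → ℝ) (p q : Ed n) (u : Ed n → ℝ) :
    |ent β ρ a p q u| ≤ (Fintype.card (Ed n) : ℝ) := by
  rw [ent, abs_mul, abs_mul]
  refine (mul_le_of_le_one_right (abs_nonneg _) (mul_le_one₀ (abs_w_le_one β u p) (abs_nonneg _)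
    (abs_w_le_one β u q))).trans ?_
  calc |ip (meanW β ρ a) (w β u)| ≤ ∑ _e : Ed n, (1 : ℝ) :=
        (abs_sum_le_sum_abs _ _).trans (sum_le_sum fun e _ => by
          rw [abs_mul]
          exact mul_le_one₀ (abs_meanW_le β ρ a e) (abs_nonneg _) (abs_w_le_one β u e))
    _ = _ := by simp

lemma cont_ent (β ρ : ℝ) (p q : Ed n) :
    Continuous fun x : (Ed n → ℝ) × (Ed n → ℝ) => ent β ρ x.1 p q x.2 :=
  (cont_ip ((cont_meanW β ρ).comp continuous_fst) (cont_w β continuous_snd)).mul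
    (((continuous_apply p).comp (cont_w β continuous_snd)).mul
      ((continuous_apply q).comp (cont_w β continuous_snd)))

/-- The base matrix averaged over one private source. -/
lemma integral_fam_merge {r0 r1 : ℝ} (h0 : 0 ≤ r0) (h0' : r0 ≤ 1) (h1 : 0 ≤ r1) (h1' : r1 ≤ 1)
    (a : Ed n → ℝ) {H : (Ed n → ℝ) → ℝ} (hH : Continuous H) {B : ℝ} (hB : ∀ u, |H u| ≤ B) :
    ∫ c, ∫ z, H (sys r0 (√r1 • a + √(1 - r1) • c) z) ∂stdPi (Ed n) ∂stdPi (Ed n) =
      ∫ z, H (sys (r0 * r1) a z) ∂stdPi (Ed n) := by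
  have hρ : r0 * r1 ≤ 1 := mul_le_one₀ h0' h1 h1'
  have hg : (√(1 - r0 * r1)) ^ 2 = (√r0 * √(1 - r1)) ^ 2 + √(1 - r0) ^ 2 := by
    rw [mul_pow, Real.sq_sqrt (by linarith), Real.sq_sqrt h0, Real.sq_sqrt (by linarith),
      Real.sq_sqrt (by linarith)]
    ring
  have hm := integral_merge (ι := Ed n) (√r0 * √(1 - r1)) (√(1 - r0)) (√(1 - r0 * r1)) hg
    (F := fun v => H (√(r0 * r1) • a + v)) (hH.comp (by fun_prop))
  refine Eq.trans ?_ hm
  have hi : Integrable (fun q : (Ed n → ℝ) × (Ed n → ℝ) =>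
      H (√(r0 * r1) • a + ((√r0 * √(1 - r1)) • q.1 + √(1 - r0) • q.2)))
      ((stdPi (Ed n)).prod (stdPi (Ed n))) :=
    integrable_bdd2 (hH.comp (by fun_prop)) fun q => hB _
  rw [integral_prod _ hi]
  refine integral_congr_ae (ae_of_all _ fun c => integral_congr_ae (ae_of_all _ fun z => ?_))
  refine congrArg H (funext fun e => ?_)
  simp only [sys, Pi.add_apply, Pi.smul_apply, smul_eq_mul, Real.sqrt_mul h0]
  ring

/-- an entry of the base matrix of one family -/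
noncomputable def blkF (β r0 r1 : ℝ) (p q : Ed n) (t : (Ed n → ℝ) × (Ed n → ℝ)) : ℝ :=
  ∫ z, ent β (r0 * r1) t.1 p q (sys r0 (√r1 • t.1 + √(1 - r1) • t.2) z) ∂stdPi (Ed n)

/-- the averaged base matrix -/
noncomputable def avgX (β ρ : ℝ) (a : Ed n → ℝ) : Matrix (Ed n) (Ed n) ℝ :=
  mix (stdPi (Ed n)) (fun z => ip (meanW β ρ a) (w β (sys ρ a z))) (fun z => w β (sys ρ a z))

lemma bc_blkF (β r0 r1 : ℝ) (p q : Ed n) : BC (blkF β r0 r1 p q) := by
  have h : Continuous fun t : ((Ed n → ℝ) × (Ed n → ℝ)) × (Ed n → ℝ) =>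
      √r1 • t.1.1 + √(1 - r1) • t.1.2 := by fun_prop
  exact BC.int (f := fun t : ((Ed n → ℝ) × (Ed n → ℝ)) × (Ed n → ℝ) =>
      ent β (r0 * r1) t.1.1 p q (sys r0 (√r1 • t.1.1 + √(1 - r1) • t.1.2) t.2))
    ⟨(cont_ent β (r0 * r1) p q).comp ((continuous_fst.comp continuous_fst).prodMk
      ((continuous_sys r0).comp (h.prodMk continuous_snd))), _,
      fun t => abs_ent_le β (r0 * r1) _ p q _⟩

lemma Wm_kG (β r0 r1 : ℝ) (x : Fin 3 × Ed n → ℝ) (p q : Ed n) :
    Wm β r0 (r0 * r1) x (kG r1) p q = blkF β r0 r1 p q ((three x).1, (three x).2.1) := by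
  have hb : (fun e => ∑ j, kG r1 j * x (j, e)) =
      √r1 • (three x).1 + √(1 - r1) • (three x).2.1 := by
    funext e; simp [kG, three, Fin.sum_univ_three]
  simp only [Wm, mix, dref, fam, hb]
  rfl

lemma Wm_kH (β r0 r1 : ℝ) (x : Fin 3 × Ed n → ℝ) (p q : Ed n) :
    Wm β r0 (r0 * r1) x (kH r1) p q = blkF β r0 r1 p q ((three x).1, (three x).2.2) := by
  have hb : (fun e => ∑ j, kH r1 j * x (j, e)) =
      √r1 • (three x).1 + √(1 - r1) • (three x).2.2 := by
    funext e; simp [kH, three, Fin.sum_univ_three]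
  simp only [Wm, mix, dref, fam, hb]
  rfl

lemma integral_blkF {r0 r1 : ℝ} (β : ℝ) (h0 : 0 ≤ r0) (h0' : r0 ≤ 1) (h1 : 0 ≤ r1) (h1' : r1 ≤ 1)
    (p q : Ed n) (a : Ed n → ℝ) :
    ∫ c, blkF β r0 r1 p q (a, c) ∂stdPi (Ed n) = avgX β (r0 * r1) a p q := by
  have hc : Continuous (ent β (r0 * r1) a p q) :=
    (cont_ent β (r0 * r1) p q).comp (f := fun u : Ed n → ℝ => (a, u))
      (continuous_const.prodMk continuous_id)
  have h := integral_fam_merge h0 h0' h1 h1' a hc (abs_ent_le β (r0 * r1) a p q)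
  simp only [blkF, avgX, mix]
  rw [h]
  simp only [ent]

lemma avgX_symm (β ρ : ℝ) (a : Ed n → ℝ) (p q : Ed n) : avgX β ρ a q p = avgX β ρ a p q :=
  integral_congr_ae (ae_of_all _ fun z => by ring)

lemma integrable_avgX_sq (β ρ : ℝ) (p q : Ed n) :
    Integrable (fun a => avgX β ρ a p q ^ 2) (stdPi (Ed n)) := by
  have hb : BC fun a => avgX (n := n) β ρ a p q :=
    BC.int (f := fun t : (Ed n → ℝ) × (Ed n → ℝ) => ent β ρ t.1 p q (sys ρ t.1 t.2))
      ⟨(cont_ent β ρ p q).comp (continuous_fst.prodMk (continuous_sys ρ)), _,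
        fun t => abs_ent_le β ρ _ p q _⟩
  obtain ⟨hc, A, hA⟩ := hb
  exact integrable_bdd (hc.pow 2) (B := A ^ 2) fun a => by
    rw [abs_pow]; exact pow_le_pow_left₀ (abs_nonneg _) (hA a) 2

section Trace

attribute [local irreducible] blkF avgX

lemma trace_eq {r0 r1 : ℝ} (β : ℝ) (h0 : 0 ≤ r0) (h0' : r0 ≤ 1) (h1 : 0 ≤ r1) (h1' : r1 ≤ 1) :
    ∫ x, (Wm β r0 (r0 * r1) x (kG r1) * Wm β r0 (r0 * r1) x (kH r1)).trace
        ∂stdPi (Fin 3 × Ed n) = ∫ a, frob (avgX β (r0 * r1) a) ^ 2 ∂stdPi (Ed n) := by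
  set G := fun (p q : Ed n) (t : (Ed n → ℝ) × ((Ed n → ℝ) × (Ed n → ℝ))) =>
    blkF β r0 r1 p q (t.1, t.2.1) * blkF β r0 r1 q p (t.1, t.2.2) with hG
  have bG : ∀ p q, BC (G p q) := fun p q => by
    obtain ⟨hc, A, hA⟩ := bc_blkF β r0 r1 p q
    obtain ⟨hc', A', hA'⟩ := bc_blkF β r0 r1 q p
    exact ⟨(hc.comp (continuous_fst.prodMk (continuous_fst.comp continuous_snd))).mul
      (hc'.comp (continuous_fst.prodMk (continuous_snd.comp continuous_snd))), A * A', fun t => by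
        rw [abs_mul]
        exact mul_le_mul (hA _) (hA' _) (abs_nonneg _) ((abs_nonneg _).trans (hA (0, 0)))⟩
  have hsum : ∀ x, (Wm β r0 (r0 * r1) x (kG r1) * Wm β r0 (r0 * r1) x (kH r1)).trace =
      ∑ p, ∑ q, G p q (three x) := fun x => by
    simp only [Matrix.trace, Matrix.diag, Matrix.mul_apply, Wm_kG, Wm_kH]
    rfl
  have hpq : ∀ p q, ∫ t, G p q t ∂(stdPi (Ed n)).prod ((stdPi (Ed n)).prod (stdPi (Ed n))) =
      ∫ a, avgX β (r0 * r1) a p q ^ 2 ∂stdPi (Ed n) := by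
    intro p q
    rw [BC.prod_eq (bG p q)]
    refine integral_congr_ae (ae_of_all _ fun a => ?_)
    show ∫ t : (Ed n → ℝ) × (Ed n → ℝ), blkF β r0 r1 p q (a, t.1) * blkF β r0 r1 q p (a, t.2)
      ∂(stdPi (Ed n)).prod (stdPi (Ed n)) = _
    rw [integral_prod_mul (μ := stdPi (Ed n)) (ν := stdPi (Ed n))
      (fun c => blkF β r0 r1 p q (a, c)) (fun c => blkF β r0 r1 q p (a, c)),
      integral_blkF β h0 h0' h1 h1', integral_blkF β h0 h0' h1 h1',
      avgX_symm β (r0 * r1) a p q]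
    exact (sq _).symm
  have hX2 := fun p q : Ed n => integrable_avgX_sq β (r0 * r1) p q
  simp only [hsum, frob_sq]
  rw [integral_of_mp mp_three (F := fun t => ∑ p, ∑ q, G p q t)
    (continuous_finsetSum _ fun p _ => continuous_finsetSum _ fun q _ => (bG p q).1),
    integral_finsetSum _ fun p _ => integrable_finsetSum _ fun q _ => (bG p q).integrable,
    integral_finsetSum _ fun p _ => integrable_finsetSum _ fun q _ => hX2 p q]
  refine sum_congr rfl fun p _ => ?_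
  rw [integral_finsetSum _ fun q _ => (bG p q).integrable,
    integral_finsetSum _ fun q _ => hX2 p q]
  exact sum_congr rfl fun q _ => hpq p q

end Trace

/-- **The trace is bounded below.** -/
theorem trace_low [NeZero n] (β : ℝ) {r0 r1 : ℝ} (h0 : 0 ≤ r0) (h0' : r0 ≤ 1) (h1 : 0 ≤ r1)
    (h1' : r1 ≤ 1) :
    phiC β n (r0 * r1) ^ 4 ≤
      ∫ x, (Wm β r0 (r0 * r1) x (kG r1) * Wm β r0 (r0 * r1) x (kH r1)).trace
        ∂stdPi (Fin 3 × Ed n) := by
  rw [trace_eq β h0 h0' h1 h1', phiC_eq β (mul_nonneg h0 h1) (mul_le_one₀ h0' h1 h1')]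
  set ρ := r0 * r1
  set f := fun a : Ed n → ℝ => ip (meanW β ρ a) (meanW β ρ a) with hf
  have hfc : Continuous f := cont_ip (cont_meanW β ρ) (cont_meanW β ρ)
  have hfb : ∀ a, |f a| ≤ (Fintype.card (Ed n) : ℝ) := fun a =>
    (abs_sum_le_sum_abs _ _).trans ((sum_le_sum (g := fun _ => (1 : ℝ)) fun e _ => by
      rw [abs_mul]
      exact mul_le_one₀ (abs_meanW_le β ρ a e) (abs_nonneg _) (abs_meanW_le β ρ a e)).trans
      (by simp))
  have hle : ∀ a : Ed n → ℝ, f a ^ 4 ≤ frob (avgX β ρ a) ^ 2 := fun a =>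
    end_bound (ν := stdPi (Ed n)) (v := fun z => w β (sys ρ a z))
      (cont_w β ((continuous_sys ρ).comp (continuous_const.prodMk continuous_id)))
      (fun z => ip_w_self_le β _) fun z => ip_meanW_nonneg β ρ a _
  refine (pow_four_integral_le hfc hfb).trans (integral_mono
    (integrable_bdd (hfc.pow 4) (B := (Fintype.card (Ed n) : ℝ) ^ 4) fun a => by
      rw [abs_pow]; exact pow_le_pow_left₀ (abs_nonneg _) (hfb a) 4) ?_ hle)
  simp only [frob_sq]
  exact integrable_finsetSum _ fun p _ => integrable_finsetSum _ fun q _ =>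
    integrable_avgX_sq β ρ p q

end Vale.Agent.P146.Chaos
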