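import Vale.Agent.P146.Chaos.Fam

/-! # P146: the susceptibility weights rarely exceed the base weight -/

namespace Vale.Agent.P146.Chaos

open Finset MeasureTheory ProbabilityTheory
open Vale.Agent.P150 Vale.Agent.P150.Slow

set_option linter.unusedSectionVars false

variable {n : ℕ}

/-- upper bound on the excess, for given systems and fresh row -/
noncomputable def gap (β : ℝ) (i : Fin n) (s : ℝ) (g o : Ed n → ℝ) (d : Fin n → ℝ) : ℝ :=
  |ip (wq β i (ins i o 0)) (wq β i (rmix i s g d)) - ovl β g o|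

lemma gap_nonneg (β : ℝ) (i : Fin n) (s : ℝ) (g o : Ed n → ℝ) (d : Fin n → ℝ) :
    0 ≤ gap β i s g o d := abs_nonneg _

lemma abs_gap_le (β : ℝ) (i : Fin n) (s : ℝ) (g o : Ed n → ℝ) (d : Fin n → ℝ) :
    |gap β i s g o d| ≤ 2 := by
  rw [gap, abs_abs]
  refine (abs_sub _ _).trans ?_
  linarith [abs_ip_le_one (ip_wq_self_le β (ins i o 0) i) (ip_wq_self_le β (rmix i s g d) i),
    abs_ovl_le β g o]

lemma cont_gap (β : ℝ) {α : Type*} [TopologicalSpace α] {i : α → Fin n} {s : α → ℝ}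
    {g o : α → Ed n → ℝ} {d : α → Fin n → ℝ} (hi : Continuous i) (hs : Continuous s)
    (hg : Continuous g) (ho : Continuous o) (hd : Continuous d) :
    Continuous fun a => gap β (i a) (s a) (g a) (o a) (d a) := by
  have h : Continuous fun q : Fin n × (ℝ × (Ed n → ℝ) × (Ed n → ℝ) × (Fin n → ℝ)) =>
      gap β q.1 q.2.1 q.2.2.1 q.2.2.2.1 q.2.2.2.2 :=
    continuous_prod_of_discrete_left.2 fun j => by
      have c1 : Continuous fun q : ℝ × (Ed n → ℝ) × (Ed n → ℝ) × (Fin n → ℝ) => q.2.1 := by fun_prop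
      have c2 : Continuous fun q : ℝ × (Ed n → ℝ) × (Ed n → ℝ) × (Fin n → ℝ) => q.2.2.1 := by fun_prop
      have c3 : Continuous fun q : ℝ × (Ed n → ℝ) × (Ed n → ℝ) × (Fin n → ℝ) => q.2.2.2 := by fun_prop
      exact ((cont_ip (cont_wq β j (cont_ins j c2 continuous_const))
        (cont_wq β j (cont_rmix j continuous_fst c1 c3))).sub (cont_ovl β c1 c2)).abs
  exact h.comp (hi.prodMk (hs.prodMk (hg.prodMk (ho.prodMk hd))))

variable (β r0 ρ : ℝ) (k : Fin 3 → ℝ)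

/-- the gap averaged over all private randomness -/
noncomputable def gapI (p : (Fin 3 × Ed n → ℝ) × (Fin n × ℝ)) : ℝ :=
  ∫ z, ∫ d, ∫ u, gap β p.2.1 p.2.2 (fam r0 p.1 k z) (ref ρ p.1 u) d ∂stdPi (Ed n) ∂stdPi (Fin n)
    ∂stdPi (Ed n)

lemma bc_gap_parts :
    BC fun p : ((((Fin 3 × Ed n → ℝ) × (Fin n × ℝ)) × (Ed n → ℝ)) × (Fin n → ℝ)) × (Ed n → ℝ) =>
      gap β p.1.1.1.2.1 p.1.1.1.2.2 (fam r0 p.1.1.1.1 k p.1.1.2) (ref ρ p.1.1.1.1 p.2) p.1.2 := by
  refine ⟨cont_gap β (by fun_prop) (by fun_prop) ?_ ?_ (by fun_prop), 2,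
    fun p => abs_gap_le β _ _ _ _ _⟩
  · unfold fam sys; fun_prop
  · unfold ref sys; fun_prop

lemma bc_gapI : BC (gapI (n := n) β r0 ρ k) :=
  BC.int (f := fun p : ((Fin 3 × Ed n → ℝ) × (Fin n × ℝ)) × (Ed n → ℝ) =>
    ∫ d, ∫ u, gap β p.1.2.1 p.1.2.2 (fam r0 p.1.1 k p.2) (ref ρ p.1.1 u) d ∂stdPi (Ed n)
      ∂stdPi (Fin n))
    (BC.int (f := fun p : (((Fin 3 × Ed n → ℝ) × (Fin n × ℝ)) × (Ed n → ℝ)) × (Fin n → ℝ) =>
      ∫ u, gap β p.1.1.2.1 p.1.1.2.2 (fam r0 p.1.1.1 k p.1.2) (ref ρ p.1.1.1 u) p.2 ∂stdPi (Ed n))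
      (BC.int (bc_gap_parts β r0 ρ k)))

lemma max_le_gap (x : Fin 3 × Ed n → ℝ) (j : Fin n × ℝ) (z : Ed n → ℝ) :
    max (xref β r0 ρ x k (j, z) - dref β r0 ρ x k z) 0 ≤
      ∫ d, ∫ u, gap β j.1 j.2 (fam r0 x k z) (ref ρ x u) d ∂stdPi (Ed n) ∂stdPi (Fin n) := by
  refine max_le ?_ (integral_nonneg fun d => integral_nonneg fun u => gap_nonneg β _ _ _ _ _)
  set g := fam r0 x k z
  have cg : ∀ d, Continuous fun u => gap β j.1 j.2 g (ref ρ x u) d := fun d =>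
    cont_gap β continuous_const continuous_const continuous_const (cont_ref ρ x) continuous_const
  have hc : Continuous fun p : (Fin n → ℝ) × (Ed n → ℝ) =>
      chi β j.1 (rmix j.1 j.2 g p.1) (ref ρ x p.2) :=
    cont_chi β j.1 (cont_rmix j.1 continuous_const continuous_const continuous_fst)
      ((cont_ref ρ x).comp continuous_snd)
  have bchi : BC fun p : (Fin n → ℝ) × (Ed n → ℝ) =>
      chi β j.1 (rmix j.1 j.2 g p.1) (ref ρ x p.2) := ⟨hc, 1, fun p => abs_chi_le β _ _ _⟩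
  have bgap : BC fun p : (Fin n → ℝ) × (Ed n → ℝ) => gap β j.1 j.2 g (ref ρ x p.2) p.1 :=
    ⟨cont_gap β continuous_const continuous_const continuous_const
      ((cont_ref ρ x).comp continuous_snd) continuous_fst, 2, fun p => abs_gap_le β _ _ _ _ _⟩
  have iovl : Integrable (fun u => ovl β g (ref ρ x u)) (stdPi (Ed n)) :=
    integrable_bdd (cont_ovl β continuous_const (cont_ref ρ x)) fun u => abs_ovl_le β _ _
  have key : ∀ d, ∫ u, chi β j.1 (rmix j.1 j.2 g d) (ref ρ x u) ∂stdPi (Ed n) ≤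
      ∫ u, gap β j.1 j.2 g (ref ρ x u) d ∂stdPi (Ed n) +
        ∫ u, ovl β g (ref ρ x u) ∂stdPi (Ed n) := fun d => by
    have ig : Integrable (fun u => gap β j.1 j.2 g (ref ρ x u) d) (stdPi (Ed n)) :=
      integrable_bdd (cg d) fun u => abs_gap_le β _ _ _ _ _
    rw [← integral_add ig iovl]
    refine integral_mono (bchi.comp (g := fun u => (d, u)) (by fun_prop)).integrable
      (ig.add iovl) fun u => ?_
    simp only [gap]
    have h1 := chi_le β j.1 (rmix j.1 j.2 g d) (ref ρ x u)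
    have h2 := le_abs_self (ip (wq β j.1 (ins j.1 (ref ρ x u) 0))
      (wq β j.1 (rmix j.1 j.2 g d)) - ovl β g (ref ρ x u))
    linarith
  have h : xref β r0 ρ x k (j, z) ≤
      ∫ d, (∫ u, gap β j.1 j.2 g (ref ρ x u) d ∂stdPi (Ed n) +
        ∫ u, ovl β g (ref ρ x u) ∂stdPi (Ed n)) ∂stdPi (Fin n) :=
    integral_mono (BC.int bchi).integrable
      ((BC.int bgap).integrable.fun_add (integrable_const _)) key
  rw [integral_add (BC.int bgap).integrable (integrable_const _), integral_const, probReal_univ,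
    one_smul] at h
  rw [dref_eq]
  linarith

lemma exc_le_gapI [NeZero n] (x : Fin 3 × Ed n → ℝ) :
    exc (siteLaw n) (stdPi (Ed n)) (xref β r0 ρ x k) (dref β r0 ρ x k) ≤
      (∑ i, ∫ s, gapI β r0 ρ k (x, (i, s)) ∂unitI) / n := by
  rw [← integral_siteLaw ((bc_gapI β r0 ρ k).comp (g := fun j => (x, j)) (by fun_prop))]
  refine integral_mono_of_nonneg (ae_of_all _ fun j => integral_nonneg fun z => le_max_right _ _)
    ((bc_gapI β r0 ρ k).comp (g := fun j => (x, j)) (by fun_prop)).integrable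
    (ae_of_all _ fun j => ?_)
  refine integral_mono_of_nonneg (ae_of_all _ fun z => le_max_right _ _) ?_
    (ae_of_all _ fun z => max_le_gap β r0 ρ k x j z)
  exact ((BC.int (BC.int (bc_gap_parts β r0 ρ k))).comp (g := fun z => ((x, j), z))
    (by fun_prop)).integrable

/-- both families as four systems -/
lemma gapI_eq (x : Fin 3 × Ed n → ℝ) (i : Fin n) (s : ℝ) :
    gapI β r0 ρ k (x, (i, s)) = ∫ d, ∫ z, gap β i s
      (blk 0 (sysv (conf r0 ρ k k).k (conf r0 ρ k k).rr x z))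
      (blk 2 (sysv (conf r0 ρ k k).k (conf r0 ρ k k).rr x z)) (fun l => d (0, l))
      ∂stdPi (Fin 4 × Ed n) ∂stdPi (Fin 2 × Fin n) := by
  have md : MeasurePreserving (fun d : Fin 2 × Fin n → ℝ => fun l => d (0, l))
      (stdPi (Fin 2 × Fin n)) (stdPi (Fin n)) :=
    measurePreserving_fst.comp mp_two
  have mz : MeasurePreserving
      (fun z : Fin 4 × Ed n → ℝ => ((fun e => z (0, e), fun e => z (2, e)) :
        (Ed n → ℝ) × (Ed n → ℝ))) (stdPi (Fin 4 × Ed n))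
      ((stdPi (Ed n)).prod (stdPi (Ed n))) :=
    (measurePreserving_fst.prod measurePreserving_fst).comp mp_four
  have hF : BC fun p : ((Ed n → ℝ) × (Ed n → ℝ)) × (Fin n → ℝ) =>
      gap β i s (fam r0 x k p.1.1) (ref ρ x p.1.2) p.2 :=
    ⟨cont_gap β continuous_const continuous_const ((cont_fam r0 x k).comp (by fun_prop))
      ((cont_ref ρ x).comp (by fun_prop)) continuous_snd, 2, fun p => abs_gap_le β _ _ _ _ _⟩
  have e1 : ∀ d : Fin 2 × Fin n → ℝ, ∫ z, gap β i s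
      (blk 0 (sysv (conf r0 ρ k k).k (conf r0 ρ k k).rr x z))
      (blk 2 (sysv (conf r0 ρ k k).k (conf r0 ρ k k).rr x z)) (fun l => d (0, l))
      ∂stdPi (Fin 4 × Ed n) =
      ∫ q, gap β i s (fam r0 x k q.1) (ref ρ x q.2) (fun l => d (0, l))
        ∂(stdPi (Ed n)).prod (stdPi (Ed n)) := fun d => by
    rw [← integral_of_mp mz (F := fun q => gap β i s (fam r0 x k q.1) (ref ρ x q.2)
      (fun l => d (0, l))) (hF.1.comp (f := fun q => (q, fun l => d (0, l))) (by fun_prop))]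
    refine integral_congr_ae (ae_of_all _ fun z => ?_)
    obtain ⟨h0, -, h2, -⟩ := blk_conf r0 ρ x k k z
    simp only [h0, h2]
  have hG : BC fun d : Fin n → ℝ => ∫ q, gap β i s (fam r0 x k q.1) (ref ρ x q.2) d
      ∂(stdPi (Ed n)).prod (stdPi (Ed n)) :=
    BC.int (f := fun p : (Fin n → ℝ) × ((Ed n → ℝ) × (Ed n → ℝ)) =>
      gap β i s (fam r0 x k p.2.1) (ref ρ x p.2.2) p.1)
      (hF.comp (g := fun p : (Fin n → ℝ) × ((Ed n → ℝ) × (Ed n → ℝ)) => (p.2, p.1)) (by fun_prop))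
  simp only [e1]
  rw [integral_of_mp md hG.1]
  have e2 : ∀ d : Fin n → ℝ, ∫ q, gap β i s (fam r0 x k q.1) (ref ρ x q.2) d
      ∂(stdPi (Ed n)).prod (stdPi (Ed n)) =
      ∫ z, ∫ u, gap β i s (fam r0 x k z) (ref ρ x u) d ∂stdPi (Ed n) ∂stdPi (Ed n) := fun d =>
    BC.prod_eq (hF.comp (g := fun q => (q, d)) (by fun_prop))
  simp only [e2, gapI]
  exact BC.swap (f := fun z d => ∫ u, gap β i s (fam r0 x k z) (ref ρ x u) d ∂stdPi (Ed n))
    (BC.int (f := fun p : ((Ed n → ℝ) × (Fin n → ℝ)) × (Ed n → ℝ) =>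
      gap β i s (fam r0 x k p.1.1) (ref ρ x p.2) p.1.2)
      (hF.comp (g := fun p : ((Ed n → ℝ) × (Fin n → ℝ)) × (Ed n → ℝ) => ((p.1.1, p.2), p.1.2))
        (by fun_prop)))

/-- the rows of the systems and of a smoothed system are standard -/
lemma rows_mp (P : Conf) (hk : ∀ S, ∑ j, P.k S j ^ 2 = 1) (h0 : ∀ S, 0 ≤ P.rr S)
    (h1 : ∀ S, P.rr S ≤ 1) {s : ℝ} (hs : s ∈ Set.Icc (0 : ℝ) 1) :
    (∀ S, MeasurePreserving (rowY P S) (rowLaw n) (stdPi (Fin n))) ∧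
    MeasurePreserving (fun θ => rowYs P 0 (s, θ)) (rowLaw n) (stdPi (Fin n)) := by
  have hsq : ∀ S, ∑ m, rowC P S m ^ 2 = 1 := fun S => by
    have h := rowC_dot P S S
    simp only [← sq, if_true, hk] at h
    rw [h, Real.sq_sqrt (h0 S), Real.sq_sqrt (by linarith [h1 S]), mul_one]
    ring
  have hsq' : ∑ m, rowCs P s 0 m ^ 2 = 1 := by
    have e1 := Real.sq_sqrt hs.1
    have e2 := Real.sq_sqrt (show (0 : ℝ) ≤ 1 - s by linarith [hs.2])
    have hh := hsq 0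
    simp [rowC, Fintype.sum_sum_type, mul_pow] at hh
    simp [rowCs, rowC, Fintype.sum_sum_type, mul_pow, e1, e2, ← mul_sum]
    rw [← mul_sum] at hh
    linear_combination s * hh
  refine ⟨fun S => mp_of_integral (cont_rowY P S) fun F hF => ?_,
    mp_of_integral ((cont_rowYs P 0).comp (continuous_const.prodMk continuous_id))
      fun F hF => ?_⟩
  · rw [← integral_of_mp mp_rowT (F := fun θ => F (rowY P S θ)) (hF.comp (cont_rowY P S))]
    simp only [rowY_eq]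
    exact integral_of_mp (mp_comb_eval (fun (_ : Unit) => rowC P S) () (hsq S)) hF
  · rw [← integral_of_mp mp_rowT (F := fun θ => F (rowYs P 0 (s, θ)))
      (hF.comp ((cont_rowYs P 0).comp (continuous_const.prodMk continuous_id)))]
    simp only [rowYs_eq]
    exact integral_of_mp (mp_comb_eval (fun (_ : Unit) => rowCs P s 0) () hsq') hF

variable {β r0 ρ k}

/-- the gap of one site, with the row split off -/
lemma gap_row {ε : ℝ} (hβ : 0 < β) (hε : 0 < ε) (P : Conf) (hk : ∀ S, ∑ j, P.k S j ^ 2 = 1)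
    (h0 : ∀ S, 0 ≤ P.rr S) (h1 : ∀ S, P.rr S ≤ 1 - ε) (i : Fin n) {s : ℝ}
    (hs : s ∈ Set.Icc (0 : ℝ) 1) (x : Fin 3 × Ed n → ℝ) :
    ∫ q : RowSp n × (Fin 4 × Ed n → ℝ), gap β i s (gS i (comb P.k x 0) (P.rr 0) 0 (rowY P 0) q)
      (gS i (comb P.k x 2) (P.rr 2) 2 (rowY P 2) q) (fun l => q.1.2.1 (0, l))
      ∂(rowLaw n).prod (stdPi (Fin 4 × Ed n)) ≤ 3 * (kap β n ε + √(2 / n)) := by
  obtain ⟨hmp, hmps⟩ := rows_mp (n := n) P hk h0 (fun S => by linarith [h1 S]) hs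
  set μ := (rowLaw n).prod (stdPi (Fin 4 × Ed n))
  set ys : RowSp n → Fin n → ℝ := fun θ => rowYs P 0 (s, θ) with hys
  have hysc : Continuous ys := (cont_rowYs P 0).comp (continuous_const.prodMk continuous_id)
  set a := fun q : RowSp n × (Fin 4 × Ed n → ℝ) => wq β i (g0 i (comb P.k x 2) (P.rr 2) 2 q.2) with ha
  have hac : Continuous a := cont_wq β i ((cont_g0 i (comb P.k x 2) (P.rr 2) 2).comp continuous_snd)
  have hab : ∀ q, ip (a q) (a q) ≤ 1 := fun q => ip_wq_self_le β _ i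
  have h1' := repl_wq (rowLaw n) hβ i (comb P.k x 0) (h0 0) hε (h1 0) (0 : Fin 4) hysc hmps hac hab
    (fun θ z v => by simp only [ha, g0_upd_ne i _ _ (show (2 : Fin 4) ≠ 0 by decide)])
  have h2' := two_ovl (rowLaw n) hβ i (fun S => comb P.k x S) P.rr hε h0 h1 (rowY P) (cont_rowY P)
    hmp (show (0 : Fin 4) ≠ 2 by decide)
  set f1 := fun q => |ip (a q) (wq β i (gS i (comb P.k x 0) (P.rr 0) 0 ys q)) -
    ip (a q) (wq β i (g0 i (comb P.k x 0) (P.rr 0) 0 q.2))| with hf1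
  set f2 := fun q => |ovl β (gS i (comb P.k x 0) (P.rr 0) 0 (rowY P 0) q)
    (gS i (comb P.k x 2) (P.rr 2) 2 (rowY P 2) q) -
    ip (wq β i (g0 i (comb P.k x 0) (P.rr 0) 0 q.2)) (a q)| with hf2
  have i1 : Integrable f1 μ := by
    refine integrable_bdd2 ((cont_ip hac (cont_wq β i (cont_gS i _ 0 hysc))).sub
      (cont_ip hac (cont_wq β i ((cont_g0 i _ _ 0).comp continuous_snd)))).abs (B := 2) fun q => ?_
    rw [hf1, abs_abs]
    refine (abs_sub _ _).trans ?_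
    linarith [abs_ip_le_one (hab q)
        (ip_wq_self_le β (gS i (comb P.k x 0) (P.rr 0) 0 ys q) i),
      abs_ip_le_one (hab q) (ip_wq_self_le β (g0 i (comb P.k x 0) (P.rr 0) 0 q.2) i)]
  have i2 : Integrable f2 μ := by
    refine integrable_bdd2 ((cont_ovl β (cont_gS i _ 0 (cont_rowY P 0))
      (cont_gS i _ 2 (cont_rowY P 2))).sub
      (cont_ip (cont_wq β i ((cont_g0 i _ _ 0).comp continuous_snd)) hac)).abs (B := 2) fun q => ?_
    rw [hf2, abs_abs]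
    refine (abs_sub _ _).trans ?_
    linarith [abs_ovl_le β (gS i (comb P.k x 0) (P.rr 0) 0 (rowY P 0) q)
        (gS i (comb P.k x 2) (P.rr 2) 2 (rowY P 2) q),
      abs_ip_le_one (ip_wq_self_le β (g0 i (comb P.k x 0) (P.rr 0) 0 q.2) i) (hab q)]
  refine (integral_mono_of_nonneg (ae_of_all _ fun q => gap_nonneg β _ _ _ _ _) (i1.add i2)
    (ae_of_all _ fun q => ?_)).trans ?_
  · have em : rmix i s (gS i (comb P.k x 0) (P.rr 0) 0 (rowY P 0) q) (fun l => q.1.2.1 (0, l)) =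
        gS i (comb P.k x 0) (P.rr 0) 0 ys q := by
      simp only [gS, rmix_ins, hys, rowYs]
      rfl
    have e0 : ins i (gS i (comb P.k x 2) (P.rr 2) 2 (rowY P 2) q) 0 =
        g0 i (comb P.k x 2) (P.rr 2) 2 q.2 := by rw [gS, g0, ins_ins]
    simp only [gap, em, e0, Pi.add_apply, hf1, hf2, ha]
    rw [ip_comm (wq β i (g0 i (comb P.k x 0) (P.rr 0) 0 q.2)), abs_sub_comm (ovl β _ _)]
    exact abs_sub_le _ _ _
  · simp only [Pi.add_apply]
    rw [integral_add i1 i2]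
    have hk0 : 0 ≤ √(2 / (n : ℝ)) := Real.sqrt_nonneg _
    have b1 : ∫ q, f1 q ∂μ ≤ kap β n ε := h1'
    have b2 : ∫ q, f2 q ∂μ ≤ 2 * (kap β n ε + √(2 / n)) := h2'
    linarith

/-- splitting one row off the sources and the systems -/
lemma gapI_mean {ε : ℝ} (hβ : 0 < β) (hε : 0 < ε) (h0 : 0 ≤ r0) (h0' : r0 ≤ 1 - ε) (hρ : 0 ≤ ρ)
    (hρ' : ρ ≤ 1 - ε) (hk : ∑ j, k j ^ 2 = 1) (i : Fin n) {s : ℝ} (hs : s ∈ Set.Icc (0 : ℝ) 1) :
    ∫ x, gapI β r0 ρ k (x, (i, s)) ∂stdPi (Fin 3 × Ed n) ≤ 3 * (kap β n ε + √(2 / n)) := by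
  set P := conf r0 ρ k k with hP
  have hkP : ∀ S, ∑ j, P.k S j ^ 2 = 1 := fun S => by
    fin_cases S <;> simp [hP, conf, hk, kA, Fin.sum_univ_three]
  have hP0 : ∀ S, 0 ≤ P.rr S := fun S => by fin_cases S <;> simp [hP, conf, h0, hρ]
  have hP1 : ∀ S, P.rr S ≤ 1 - ε := fun S => by fin_cases S <;> simp [hP, conf, h0', hρ']
  set Φ := fun (x : Fin 3 × Ed n → ℝ) (d : Fin 2 × Fin n → ℝ) (z : Fin 4 × Ed n → ℝ) =>
    gap β i s (blk 0 (sysv P.k P.rr x z)) (blk 2 (sysv P.k P.rr x z)) (fun l => d (0, l)) with hΦ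
  have bΦ : BC fun p : (Fin 3 × Ed n → ℝ) × (Fin 2 × Fin n → ℝ) × (Fin 4 × Ed n → ℝ) =>
      Φ p.1 p.2.1 p.2.2 := by
    have hu : Continuous fun p : (Fin 3 × Ed n → ℝ) × (Fin 2 × Fin n → ℝ) × (Fin 4 × Ed n → ℝ) =>
        sysv P.k P.rr p.1 p.2.2 :=
      cont_sysv P continuous_fst (continuous_snd.comp continuous_snd)
    exact ⟨cont_gap β continuous_const continuous_const ((cont_blk 0).comp hu)
      ((cont_blk 2).comp hu) (by fun_prop), 2, fun p => abs_gap_le β _ _ _ _ _⟩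
  have bH : BC fun p : (Fin 3 × Ed n → ℝ) × (Fin 2 × Fin n → ℝ) =>
      ∫ z, Φ p.1 p.2 z ∂stdPi (Fin 4 × Ed n) :=
    BC.int (f := fun p : ((Fin 3 × Ed n → ℝ) × (Fin 2 × Fin n → ℝ)) × (Fin 4 × Ed n → ℝ) =>
      Φ p.1.1 p.1.2 p.2)
      (bΦ.comp (g := fun p : ((Fin 3 × Ed n → ℝ) × (Fin 2 × Fin n → ℝ)) × (Fin 4 × Ed n → ℝ) =>
        (p.1.1, p.1.2, p.2)) (by fun_prop))
  have bI : BC fun x => ∫ d, ∫ z, Φ x d z ∂stdPi (Fin 4 × Ed n) ∂stdPi (Fin 2 × Fin n) :=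
    BC.int (f := fun p : (Fin 3 × Ed n → ℝ) × (Fin 2 × Fin n → ℝ) =>
      ∫ z, Φ p.1 p.2 z ∂stdPi (Fin 4 × Ed n)) bH
  simp only [gapI_eq]
  show ∫ x, ∫ d, ∫ z, Φ x d z ∂stdPi (Fin 4 × Ed n) ∂stdPi (Fin 2 × Fin n)
    ∂stdPi (Fin 3 × Ed n) ≤ _
  rw [← integral_ovr (rows3_injective i) bI.1,
    BC.prod_eq (bI.comp (continuous_ovr (rows3_injective i)))]
  refine (integral_mono_of_nonneg (ae_of_all _ fun x => integral_nonneg fun y =>
    integral_nonneg fun d => integral_nonneg fun z => gap_nonneg β _ _ _ _ _)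
    (integrable_const (3 * (kap β n ε + √(2 / n)))) (ae_of_all _ fun x => ?_)).trans (by simp)
  refine le_trans (le_of_eq ?_) (gap_row hβ hε P hkP hP0 hP1 i hs x)
  set G := fun q : RowSp n × (Fin 4 × Ed n → ℝ) =>
    Φ (ovr (rows3 i) x q.1.1) q.1.2.1 (ovr (rows4 i) q.2 q.1.2.2) with hG
  have hpt : ∀ q, G q = gap β i s (gS i (comb P.k x 0) (P.rr 0) 0 (rowY P 0) q)
      (gS i (comb P.k x 2) (P.rr 2) 2 (rowY P 2) q) (fun l => q.1.2.1 (0, l)) := by
    rintro ⟨⟨y, d, y'⟩, z⟩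
    simp only [hG, hΦ, blk_sysv_ovr P i _ x z y d y', gS]
  have bG : BC G := bΦ.comp (g := fun q : RowSp n × (Fin 4 × Ed n → ℝ) =>
      (ovr (rows3 i) x q.1.1, q.1.2.1, ovr (rows4 i) q.2 q.1.2.2))
    (((continuous_ovr (rows3_injective i)).comp (continuous_const.prodMk
      (continuous_fst.comp continuous_fst))).prodMk
      ((continuous_fst.comp (continuous_snd.comp continuous_fst)).prodMk
        ((continuous_ovr (rows4_injective i)).comp (continuous_snd.prodMk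
          (continuous_snd.comp (continuous_snd.comp continuous_fst))))))
  simp only [← hpt]
  have bθ : BC fun θ : RowSp n => ∫ z, G (θ, z) ∂stdPi (Fin 4 × Ed n) :=
    BC.int (f := fun p : RowSp n × (Fin 4 × Ed n → ℝ) => G p) bG
  rw [BC.prod_eq bG, rowLaw, BC.prod_eq (f := fun θ : RowSp n =>
    ∫ z, G (θ, z) ∂stdPi (Fin 4 × Ed n)) bθ]
  refine integral_congr_ae (ae_of_all _ fun y => ?_)
  simp only
  rw [BC.prod_eq (f := fun t : (Fin 2 × Fin n → ℝ) × (Fin 4 × Fin n → ℝ) =>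
    ∫ z, G ((y, t), z) ∂stdPi (Fin 4 × Ed n)) (bθ.comp (g := fun t => (y, t)) (by fun_prop))]
  refine integral_congr_ae (ae_of_all _ fun d => ?_)
  simp only
  have hc : BC fun z => Φ (ovr (rows3 i) x y) d z :=
    bΦ.comp (g := fun z => (ovr (rows3 i) x y, d, z)) (by fun_prop)
  rw [← integral_ovr (rows4_injective i) hc.1,
    BC.prod_eq (hc.comp (continuous_ovr (rows4_injective i)))]
  exact BC.swap (f := fun z w => Φ (ovr (rows3 i) x y) d (ovr (rows4 i) z w))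
    (hc.comp (continuous_ovr (rows4_injective i)))

/-- **The excess is small.** -/
theorem exc_small [NeZero n] {β ε r0 ρ : ℝ} (hβ : 0 < β) (hε : 0 < ε) (h0 : 0 ≤ r0)
    (h0' : r0 ≤ 1 - ε) (hρ : 0 ≤ ρ) (hρ' : ρ ≤ 1 - ε) {k : Fin 3 → ℝ} (hk : ∑ j, k j ^ 2 = 1) :
    ∫ x, exc (siteLaw n) (stdPi (Ed n)) (xref β r0 ρ x k) (dref β r0 ρ x k)
        ∂stdPi (Fin 3 × Ed n) ≤ 3 * (kap β n ε + √(2 / n)) := by
  have hn : (0 : ℝ) < n := by exact_mod_cast Nat.pos_of_ne_zero (NeZero.ne n)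
  have bxs : ∀ i, BC fun p : (Fin 3 × Ed n → ℝ) × ℝ => gapI β r0 ρ k (p.1, (i, p.2)) := fun i =>
    (bc_gapI β r0 ρ k).comp (g := fun p : (Fin 3 × Ed n → ℝ) × ℝ => (p.1, (i, p.2))) (by fun_prop)
  have hi : ∀ i, Integrable (fun x => ∫ s, gapI β r0 ρ k (x, (i, s)) ∂unitI)
      (stdPi (Fin 3 × Ed n)) := fun i => (BC.int (bxs i)).integrable
  refine (integral_mono_of_nonneg (ae_of_all _ fun x => integral_nonneg fun j =>
    integral_nonneg fun z => le_max_right _ _) ((integrable_finsetSum _ fun i _ => hi i).div_const _)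
    (ae_of_all _ (exc_le_gapI β r0 ρ k))).trans ?_
  rw [integral_div, div_le_iff₀ hn, integral_finsetSum _ fun i _ => hi i]
  refine (sum_le_sum (g := fun _ : Fin n => 3 * (kap β n ε + √(2 / n))) fun i _ => ?_).trans
    (le_of_eq ?_)
  · rw [BC.swap (f := fun x s => gapI β r0 ρ k (x, (i, s))) (bxs i)]
    refine (integral_mono_ae (g := fun _ => 3 * (kap β n ε + √(2 / n))) (BC.int (f := fun p : ℝ × (Fin 3 × Ed n → ℝ) =>
        gapI β r0 ρ k (p.2, (i, p.1)))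
      ((bxs i).comp (g := fun p : ℝ × (Fin 3 × Ed n → ℝ) => (p.2, p.1)) (by fun_prop))).integrable
      (integrable_const _) ?_).trans (by simp)
    filter_upwards [ae_unitI] with s hs
    exact gapI_mean hβ hε h0 h0' hρ hρ' hk i ⟨hs.1.le, hs.2⟩
  · simp [mul_comm]

end Vale.Agent.P146.Chaos
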