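import Vale.Agent.P146.Chaos.OpBasic

/-! # P146: the operator lemma -/

namespace Vale.Agent.P146.Chaos

open Finset MeasureTheory Matrix

variable {P : Type*} [Fintype P] [DecidableEq P]
  {Ω K : Type*} [TopologicalSpace Ω] [MeasurableSpace Ω] [BorelSpace Ω] [SecondCountableTopology Ω]
  [TopologicalSpace K] [MeasurableSpace K] [BorelSpace K] [SecondCountableTopology K]

/-- mixture of rank one matrices -/
noncomputable def mix (ν : Measure Ω) (x : Ω → ℝ) (v : Ω → P → ℝ) : Matrix P P ℝ :=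
  fun p q => ∫ o, x o * (v o p * v o q) ∂ν

/-- the residual of the operator identity -/
noncomputable def resid (κ : Measure K) (A A' : K → Matrix P P ℝ) (f : ℝ) (W W' : Matrix P P ℝ) :
    Matrix P P ℝ := fun p q => (∫ k, (A k * A' k) p q ∂κ) - f * (W * W') p q

/-- how far the weights exceed the base weight -/
noncomputable def exc (κ : Measure K) (ν : Measure Ω) (x : K × Ω → ℝ) (D : Ω → ℝ) : ℝ :=
  ∫ k, (∫ o, max (x (k, o) - D o) 0 ∂ν) ∂κ

omit [DecidableEq P] in
lemma frob_outer (a : P → ℝ) : frob (vecMulVec a a) = ip a a := by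
  have e : ∑ p, ∑ q, (vecMulVec a a) p q ^ 2 = ip a a * ip a a := by
    simp only [ip, sum_mul_sum, vecMulVec_apply]
    exact sum_congr rfl fun p _ => sum_congr rfl fun q _ => by ring
  rw [frob, e, Real.sqrt_mul_self (ip_self_nonneg a)]

omit [DecidableEq P] in
lemma bnd_of_frob {B : Matrix P P ℝ} {c : ℝ} (hc : 0 ≤ c) (hB : frob B ≤ c) : Bnd B c := by
  intro z
  refine (pow_le_pow_iff_left₀ (len_nonneg _) (mul_nonneg hc (len_nonneg _)) two_ne_zero).1 ?_
  rw [len_sq, mul_pow, len_sq]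
  calc ip (B *ᵥ z) (B *ᵥ z) ≤ ∑ p, ip (B p) (B p) * ip z z := sum_le_sum fun p _ => by
        have := sum_mul_sq_le_sq_mul_sq univ (B p) z
        simpa only [mulVec, dotProduct, ip, ← sq] using this
    _ ≤ c ^ 2 * ip z z := by
        rw [← sum_mul]
        refine mul_le_mul_of_nonneg_right ?_ (ip_self_nonneg z)
        refine le_trans (le_of_eq ?_) (pow_le_pow_left₀ (frob_nonneg _) hB 2)
        rw [frob_sq]; simp only [ip, sq]

section Mixtures

variable {ν : Measure Ω} [IsProbabilityMeasure ν] {v : Ω → P → ℝ} {x y : Ω → ℝ}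
  (hv : Continuous v) (hvb : ∀ o, ip (v o) (v o) ≤ 1) (hx : Continuous x)
  (hxb : ∀ o, x o ∈ Set.Icc (0 : ℝ) 1)

omit [MeasurableSpace Ω] [BorelSpace Ω] [SecondCountableTopology Ω] [DecidableEq P] in
include hvb hxb in
lemma frob_rank_le (o : Ω) : frob (x o • vecMulVec (v o) (v o)) ≤ x o := by
  rw [frob_smul, abs_of_nonneg (hxb o).1]
  refine mul_le_of_le_one_right (hxb o).1 ?_
  rw [frob_outer]
  exact hvb o

omit [MeasurableSpace Ω] [BorelSpace Ω] [SecondCountableTopology Ω] [DecidableEq P] [Fintype P] in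
include hv hx in
lemma continuous_rank : Continuous fun o => x o • vecMulVec (v o) (v o) :=
  hx.smul (continuous_pi fun p => continuous_pi fun q => by
    simp only [vecMulVec_apply]
    exact ((continuous_apply p).comp hv).mul ((continuous_apply q).comp hv))

omit [TopologicalSpace Ω] [BorelSpace Ω] [SecondCountableTopology Ω] [DecidableEq P] [Fintype P] [IsProbabilityMeasure ν] in
lemma mix_eq_mint : mix ν x v = mint ν fun o => x o • vecMulVec (v o) (v o) := rfl

omit [DecidableEq P] [SecondCountableTopology Ω] in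
include hv hvb hx hxb in
lemma pr2_mix (G : Matrix P P ℝ) :
    pr2 G (mix ν x v) = ∫ o, x o * pr2 G (vecMulVec (v o) (v o)) ∂ν ∧
      Integrable (fun o => x o * pr2 G (vecMulVec (v o) (v o))) ν := by
  have h := pr2_mint ν (continuous_rank hv hx) (B := 1)
    (fun o => (frob_rank_le hvb hxb o).trans (hxb o).2) G
  rw [mix_eq_mint]
  simpa only [pr2_smul] using h

omit [DecidableEq P] [MeasurableSpace Ω] [BorelSpace Ω] [SecondCountableTopology Ω] [TopologicalSpace Ω] in
lemma pr2_vecMulVec (u z a : P → ℝ) : pr2 (vecMulVec u z) (vecMulVec a a) = ip u a * ip a z := by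
  simp only [pr2, vecMulVec_apply, ip, sum_mul_sum]
  exact sum_congr rfl fun p _ => sum_congr rfl fun q _ => by ring

omit [DecidableEq P] [SecondCountableTopology Ω] in
include hv hvb hx hxb in
lemma bil_mix (u z : P → ℝ) :
    ip u (mix ν x v *ᵥ z) = ∫ o, x o * (ip u (v o) * ip (v o) z) ∂ν ∧
      Integrable (fun o => x o * (ip u (v o) * ip (v o) z)) ν := by
  have h := pr2_mix (ν := ν) hv hvb hx hxb (vecMulVec u z)
  rw [← bil_eq_pr2] at h
  simpa only [pr2_vecMulVec] using h

omit [TopologicalSpace Ω] [BorelSpace Ω] [SecondCountableTopology Ω] [DecidableEq P] [Fintype P] [IsProbabilityMeasure ν] in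
lemma mix_symm : (mix ν x v)ᵀ = mix ν x v := by
  ext p q
  simp only [transpose_apply, mix, mul_comm (v _ q)]

omit [DecidableEq P] [SecondCountableTopology Ω] in
include hv hvb hx hxb in
lemma mix_nonneg (u : P → ℝ) : 0 ≤ ip u (mix ν x v *ᵥ u) := by
  rw [(bil_mix hv hvb hx hxb u u).1]
  refine integral_nonneg fun o => mul_nonneg (hxb o).1 ?_
  rw [show ip (v o) u = ip u (v o) from sum_congr rfl fun _ _ => mul_comm _ _]
  exact mul_self_nonneg _

omit [DecidableEq P] [SecondCountableTopology Ω] in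
include hv hvb hx hxb in
lemma mix_trace : (mix ν x v).trace ≤ 1 := by
  have hi : ∀ p, Integrable (fun o => x o * (v o p * v o p)) ν := fun p =>
    integrable_entry ν (continuous_rank hv hx) (B := 1)
      (fun o => (frob_rank_le hvb hxb o).trans (hxb o).2) p p
  simp only [Matrix.trace, diag_apply, mix]
  rw [← integral_finsetSum _ fun p _ => hi p]
  refine (integral_mono (g := fun _ => (1 : ℝ)) (integrable_finsetSum _ fun p _ => hi p)
    (integrable_const _) fun o => ?_).trans (by simp)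
  simp only [← mul_sum]
  exact mul_le_one₀ (hxb o).2 (ip_self_nonneg _) (hvb o)

omit [DecidableEq P] [SecondCountableTopology Ω] in
include hv hvb hx hxb in
lemma frob_mix_le : frob (mix ν x v) ≤ ∫ o, x o ∂ν := by
  rw [mix_eq_mint]
  exact frob_mint_le ν (continuous_rank hv hx) (B := 1)
    (fun o => (frob_rank_le hvb hxb o).trans (hxb o).2)
    (integrable_bdd hx (B := 1) fun o => by rw [abs_of_nonneg (hxb o).1]; exact (hxb o).2)
    fun o => frob_rank_le hvb hxb o

omit [DecidableEq P] [SecondCountableTopology Ω] in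
include hv hvb hx hxb in
lemma frob_mix_le_one : frob (mix ν x v) ≤ 1 :=
  (frob_mix_le hv hvb hx hxb).trans ((integral_mono (g := fun _ => (1 : ℝ))
    (integrable_bdd hx (B := 1) fun o => by rw [abs_of_nonneg (hxb o).1]; exact (hxb o).2)
    (integrable_const _) fun o => (hxb o).2).trans (by simp))

omit [DecidableEq P] [SecondCountableTopology Ω] in
include hv hvb hx hxb in
lemma mix_cs (u z : P → ℝ) :
    ip u (mix ν x v *ᵥ z) ^ 2 ≤ ip u (mix ν x v *ᵥ u) * ip z (mix ν x v *ᵥ z) := by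
  set M := mix ν x v
  have hs : ip z (M *ᵥ u) = ip u (M *ᵥ z) := by
    rw [ip_mulVec, mix_symm, ip_eq_dot, ip_eq_dot, dotProduct_comm]
  have hq : ∀ t : ℝ, 0 ≤ ip z (M *ᵥ z) * (t * t) + 2 * ip u (M *ᵥ z) * t + ip u (M *ᵥ u) := by
    intro t
    refine (mix_nonneg (ν := ν) hv hvb hx hxb (u + t • z)).trans (le_of_eq ?_)
    simp only [ip_eq_dot, mulVec_add, mulVec_smul, add_dotProduct, dotProduct_add,
      smul_dotProduct, dotProduct_smul, smul_eq_mul]
    simp only [← ip_eq_dot, hs, M]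
    ring
  have := discrim_le_zero hq
  rw [discrim] at this
  nlinarith

omit [SecondCountableTopology Ω] in
include hv hvb hx hxb in
lemma mix_shift_isUnit {η : ℝ} (hη : 0 < η) : IsUnit (mix ν x v + η • 1) := by
  rw [← mulVec_injective_iff_isUnit]
  intro a b hab
  by_contra hne
  have h0 : (mix ν x v + η • 1) *ᵥ (a - b) = 0 := by rw [mulVec_sub, hab, sub_self]
  have h1 : ip (a - b) ((mix ν x v + η • 1) *ᵥ (a - b)) = 0 := by rw [h0]; simp [ip]
  rw [add_mulVec, smul_mulVec, one_mulVec] at h1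
  have h2 := mix_nonneg (ν := ν) hv hvb hx hxb (a - b)
  have h3 : ip (a - b) (mix ν x v *ᵥ (a - b) + η • (a - b)) =
      ip (a - b) (mix ν x v *ᵥ (a - b)) + η * ip (a - b) (a - b) := by
    simp only [ip, Pi.add_apply, Pi.smul_apply, smul_eq_mul, mul_add, sum_add_distrib, mul_sum]
    congr 1
    exact sum_congr rfl fun p _ => by ring
  have h4 : 0 < ip (a - b) (a - b) := by
    obtain ⟨p, hp⟩ := Function.ne_iff.1 hne
    have : (a - b) p ≠ 0 := sub_ne_zero.2 hp
    exact lt_of_lt_of_le (mul_self_pos.2 this)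
      (single_le_sum (f := fun p => (a - b) p * (a - b) p) (fun _ _ => mul_self_nonneg _)
        (mem_univ p))
  rw [h3] at h1
  nlinarith

end Mixtures

section Resolvent

variable {W : Matrix P P ℝ} {η : ℝ} (hWs : Wᵀ = W) (hW0 : ∀ u, 0 ≤ ip u (W *ᵥ u)) (hη : 0 < η)
  (hu : IsUnit (W + η • 1))

/-- the resolvent -/
noncomputable def res (W : Matrix P P ℝ) (η : ℝ) : Matrix P P ℝ := (W + η • 1)⁻¹

include hWs in
lemma res_symm : (res W η)ᵀ = res W η := by
  rw [res, transpose_nonsing_inv, transpose_add, hWs, transpose_smul, transpose_one]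

include hu in
lemma res_apply (u : P → ℝ) : W *ᵥ (res W η *ᵥ u) + η • (res W η *ᵥ u) = u := by
  have h := mul_nonsing_inv (W + η • 1) ((isUnit_iff_isUnit_det _).1 hu)
  calc W *ᵥ (res W η *ᵥ u) + η • (res W η *ᵥ u) = (W + η • 1) *ᵥ (res W η *ᵥ u) := by
        rw [add_mulVec, smul_mulVec, one_mulVec]
    _ = u := by rw [mulVec_mulVec, res, h, one_mulVec]

include hu in
lemma res_mul : res W η * W = 1 - η • res W η := by
  have h := nonsing_inv_mul (W + η • 1) ((isUnit_iff_isUnit_det _).1 hu)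
  rw [mul_add, Matrix.mul_smul, mul_one] at h
  rw [res, eq_sub_iff_add_eq]
  exact h

include hu in
lemma mul_res : W * res W η = 1 - η • res W η := by
  have h := mul_nonsing_inv (W + η • 1) ((isUnit_iff_isUnit_det _).1 hu)
  rw [add_mul, Matrix.smul_mul, one_mul] at h
  rw [res, eq_sub_iff_add_eq]
  exact h

include hW0 hη hu in
lemma res_bounds (u : P → ℝ) :
    η * len (res W η *ᵥ u) ≤ len u ∧ len (W *ᵥ (res W η *ᵥ u)) ≤ len u ∧
      η ^ 2 * ip (res W η *ᵥ u) (W *ᵥ (res W η *ᵥ u)) ≤ η / 4 * ip u u := by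
  set y := res W η *ᵥ u with hy
  have h := res_apply hu u
  rw [← hy] at h
  have hyy := hW0 y
  have e : ip u u = ip (W *ᵥ y) (W *ᵥ y) + 2 * η * ip y (W *ᵥ y) + η ^ 2 * ip y y := by
    conv_lhs => rw [← h]
    simp only [ip, Pi.add_apply, Pi.smul_apply, smul_eq_mul, mul_sum, ← sum_add_distrib]
    exact sum_congr rfl fun p _ => by ring
  refine ⟨?_, ?_, ?_⟩
  · refine (pow_le_pow_iff_left₀ (mul_nonneg hη.le (len_nonneg _)) (len_nonneg _) two_ne_zero).1 ?_
    rw [mul_pow, len_sq, len_sq, e]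
    nlinarith [ip_self_nonneg (W *ᵥ y)]
  · refine (pow_le_pow_iff_left₀ (len_nonneg _) (len_nonneg _) two_ne_zero).1 ?_
    rw [len_sq, len_sq, e]
    nlinarith [ip_self_nonneg y]
  · have hsq : 0 ≤ ip (W *ᵥ y) (W *ᵥ y) - 2 * η * ip y (W *ᵥ y) + η ^ 2 * ip y y := by
      have := ip_self_nonneg (W *ᵥ y - η • y)
      refine this.trans (le_of_eq ?_)
      simp only [ip, Pi.sub_apply, Pi.smul_apply, smul_eq_mul, mul_sum, ← sum_sub_distrib,
        ← sum_add_distrib]
      exact sum_congr rfl fun p _ => by ring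
    rw [e]
    nlinarith

include hWs hW0 hη hu in
lemma res_mul_class : (∀ u z, |ip u ((res W η * W) *ᵥ z)| ≤ len u * len z) ∧
    frob (res W η * W) ≤ frob W / η := by
  constructor
  · intro u z
    rw [ip_mulVec, transpose_mul, hWs, res_symm hWs, ← mulVec_mulVec]
    exact (abs_ip_le_len _ _).trans
      (mul_le_mul_of_nonneg_right (res_bounds hW0 hη hu u).2.1 (len_nonneg z))
  · refine (frob_mul_le (c := 1 / η) (by positivity) (fun z => ?_) W).trans (le_of_eq (by ring))
    rw [div_mul_eq_mul_div, one_mul, le_div_iff₀ hη, mul_comm]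
    exact (res_bounds hW0 hη hu z).1

end Resolvent

section Damped

variable {ν : Measure Ω} [IsProbabilityMeasure ν] {v : Ω → P → ℝ} {D x : Ω → ℝ}
  (hv : Continuous v) (hvb : ∀ o, ip (v o) (v o) ≤ 1) (hD : Continuous D)
  (hDb : ∀ o, D o ∈ Set.Icc (0 : ℝ) 1) (hx : Continuous x) (hxb : ∀ o, x o ∈ Set.Icc (0 : ℝ) 1)

omit [SecondCountableTopology Ω] in
include hv hvb hD hDb hx hxb in
/-- the damped mixture is small -/
lemma damped_le {η : ℝ} (hη : 0 < η) :
    frob (η • res (mix ν D v) η * mix ν x v) ^ 2 ≤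
      η / 2 + 2 * ∫ o, max (x o - D o) 0 ∂ν := by
  set W := mix ν D v with hW
  set L := η • res W η with hL
  set y : Ω → ℝ := fun o => min (x o) (D o) with hy
  set z : Ω → ℝ := fun o => max (x o - D o) 0 with hz
  have hyc : Continuous y := hx.min hD
  have hzc : Continuous z := (hx.sub hD).max continuous_const
  have hyb : ∀ o, y o ∈ Set.Icc (0 : ℝ) 1 := fun o =>
    ⟨le_min (hxb o).1 (hDb o).1, (min_le_left _ _).trans (hxb o).2⟩
  have hzb : ∀ o, z o ∈ Set.Icc (0 : ℝ) 1 := fun o =>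
    ⟨le_max_right _ _, max_le (by linarith [(hxb o).2, (hDb o).1]) zero_le_one⟩
  have hWs : Wᵀ = W := mix_symm
  have hW0 : ∀ u, 0 ≤ ip u (W *ᵥ u) := mix_nonneg hv hvb hD hDb
  have hu : IsUnit (W + η • 1) := mix_shift_isUnit hv hvb hD hDb hη
  have hLs : Lᵀ = L := by rw [hL, transpose_smul, res_symm hWs]
  have hsplit : mix ν x v = mix ν y v + mix ν z v := by
    ext p q
    simp only [mix, Matrix.add_apply]
    have iy : Integrable (fun o => y o * (v o p * v o q)) ν :=
      integrable_entry ν (continuous_rank hv hyc) (B := 1)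
        (fun o => (frob_rank_le hvb hyb o).trans (hyb o).2) p q
    have iz : Integrable (fun o => z o * (v o p * v o q)) ν :=
      integrable_entry ν (continuous_rank hv hzc) (B := 1)
        (fun o => (frob_rank_le hvb hzb o).trans (hzb o).2) p q
    rw [← integral_add iy iz]
    refine integral_congr_ae (ae_of_all _ fun o => ?_)
    have : x o = y o + z o := by
      simp only [hy, hz]
      rcases le_total (x o) (D o) with h | h
      · rw [min_eq_left h, max_eq_right (by linarith)]; ring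
      · rw [min_eq_right h, max_eq_left (by linarith)]; ring
    simp only [this]; ring
  have hLbnd : Bnd L 1 := fun u => by
    rw [hL, smul_mulVec, one_mul]
    refine le_trans (le_of_eq ?_) (res_bounds hW0 hη hu u).1
    have e : ip (η • res W η *ᵥ u) (η • res W η *ᵥ u) =
        η ^ 2 * ip (res W η *ᵥ u) (res W η *ᵥ u) := by
      simp only [ip, Pi.smul_apply, smul_eq_mul, mul_sum]
      exact sum_congr rfl fun p _ => by ring
    rw [len, e, Real.sqrt_mul (sq_nonneg _), Real.sqrt_sq hη.le]; rfl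
  have hLWL : ∀ u, ip (L *ᵥ u) (W *ᵥ (L *ᵥ u)) ≤ η / 4 * ip u u := fun u => by
    refine le_trans (le_of_eq ?_) (res_bounds hW0 hη hu u).2.2
    rw [hL, smul_mulVec, mulVec_smul]
    simp only [ip, Pi.smul_apply, smul_eq_mul, mul_sum]
    exact sum_congr rfl fun p _ => by ring
  have hmain : ∀ e, ip ((L * mix ν y v) *ᵥ e) ((L * mix ν y v) *ᵥ e) ≤
      η / 4 * ip e (mix ν y v *ᵥ e) := by
    intro e
    set u := (L * mix ν y v) *ᵥ e with hu'
    have h1 : ip u u = ip (L *ᵥ u) (mix ν y v *ᵥ e) := by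
      conv_lhs => arg 2; rw [hu', ← mulVec_mulVec]
      rw [ip_mulVec, hLs]
    have h2 := mix_cs (ν := ν) hv hvb hyc hyb (L *ᵥ u) e
    rw [← h1] at h2
    have h3 : ip (L *ᵥ u) (mix ν y v *ᵥ (L *ᵥ u)) ≤ η / 4 * ip u u := by
      refine le_trans ?_ (hLWL u)
      obtain ⟨ea, ia⟩ := bil_mix (ν := ν) hv hvb hyc hyb (L *ᵥ u) (L *ᵥ u)
      obtain ⟨eb, ib⟩ := bil_mix (ν := ν) hv hvb hD hDb (L *ᵥ u) (L *ᵥ u)
      rw [ea, hW, eb]
      refine integral_mono ia ib fun o => mul_le_mul_of_nonneg_right (min_le_right _ _) ?_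
      rw [show ip (v o) (L *ᵥ u) = ip (L *ᵥ u) (v o) from sum_congr rfl fun _ _ => mul_comm _ _]
      exact mul_self_nonneg _
    have h4 := h2.trans (mul_le_mul_of_nonneg_right h3 (mix_nonneg hv hvb hyc hyb e))
    rcases (ip_self_nonneg u).eq_or_lt with h0 | h0
    · rw [← h0]; exact mul_nonneg (by linarith) (mix_nonneg hv hvb hyc hyb e)
    · refine le_of_mul_le_mul_left ?_ h0
      refine le_trans (le_of_eq (sq _).symm) (h4.trans (le_of_eq ?_))
      ring
  have hy2 : frob (L * mix ν y v) ^ 2 ≤ η / 4 := by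
    rw [frob_sq, sum_comm]
    calc ∑ q, ∑ p, (L * mix ν y v) p q ^ 2
        = ∑ q, ip ((L * mix ν y v) *ᵥ Pi.single q 1) ((L * mix ν y v) *ᵥ Pi.single q 1) := by
          refine sum_congr rfl fun q _ => sum_congr rfl fun p _ => ?_
          simp [sq]
      _ ≤ ∑ q, η / 4 * ip (Pi.single q 1) (mix ν y v *ᵥ Pi.single q 1) :=
          sum_le_sum fun q _ => hmain _
      _ = η / 4 * (mix ν y v).trace := by
          rw [← mul_sum]
          congr 1
          refine sum_congr rfl fun q _ => ?_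
          simp [ip_eq_dot]
      _ ≤ η / 4 := mul_le_of_le_one_right (by linarith) (mix_trace hv hvb hyc hyb)
  have hz2 : frob (L * mix ν z v) ^ 2 ≤ ∫ o, z o ∂ν := by
    have h1 := (frob_mul_le zero_le_one hLbnd (mix ν z v)).trans (le_of_eq (one_mul _))
    refine (pow_le_pow_left₀ (frob_nonneg _) (h1.trans (frob_mix_le hv hvb hzc hzb)) 2).trans ?_
    have hz1 : ∫ o, z o ∂ν ≤ 1 := (integral_mono (g := fun _ => (1 : ℝ))
      (integrable_bdd hzc (B := 1) fun o => by rw [abs_of_nonneg (hzb o).1]; exact (hzb o).2)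
      (integrable_const _) fun o => (hzb o).2).trans (by simp)
    have hz0 : 0 ≤ ∫ o, z o ∂ν := integral_nonneg fun o => (hzb o).1
    nlinarith
  rw [hsplit, mul_add]
  linarith [frob_add_sq (L * mix ν y v) (L * mix ν z v)]

end Damped

section Pieces

omit [DecidableEq P] [SecondCountableTopology Ω] [MeasurableSpace K] [BorelSpace K] in
lemma continuous_mix {ν : Measure Ω} [IsProbabilityMeasure ν] {v : Ω → P → ℝ} {x : K × Ω → ℝ}
    (hv : Continuous v) (hx : Continuous x) (hvb : ∀ o, ip (v o) (v o) ≤ 1)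
    (hxb : ∀ q, x q ∈ Set.Icc (0 : ℝ) 1) (β : ℝ) :
    Continuous fun k => β • mix ν (fun o => x (k, o)) v := by
  suffices h : Continuous fun k => mix ν (fun o => x (k, o)) v from h.const_smul β
  refine continuous_pi fun p => continuous_pi fun q => ?_
  simp only [mix]
  refine continuous_of_dominated (bound := fun _ => (1 : ℝ)) (fun k => ?_)
    (fun k => ae_of_all _ fun o => ?_) (integrable_const _) (ae_of_all _ fun o => ?_)
  · exact ((hx.comp (Continuous.prodMk continuous_const continuous_id)).mul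
      ((continuous_pi_iff.1 hv p).mul (continuous_pi_iff.1 hv q))).aestronglyMeasurable
  · have h := (abs_entry_le (x (k, o) • vecMulVec (v o) (v o)) p q).trans
      ((frob_rank_le (x := fun o => x (k, o)) hvb (fun o => hxb _) o).trans (hxb _).2)
    simpa [vecMulVec_apply] using h
  · exact (hx.comp (Continuous.prodMk continuous_id continuous_const)).mul continuous_const

omit [DecidableEq P] [Fintype P] in
lemma integrable_exc {κ : Measure K} {ν : Measure Ω} [IsProbabilityMeasure κ]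
    [IsProbabilityMeasure ν] {x : K × Ω → ℝ} {D : Ω → ℝ} (hx : Continuous x) (hD : Continuous D)
    (hxb : ∀ q, x q ∈ Set.Icc (0 : ℝ) 1) (hDb : ∀ o, D o ∈ Set.Icc (0 : ℝ) 1) :
    Integrable (fun k => ∫ o, max (x (k, o) - D o) 0 ∂ν) κ := by
  have hb : ∀ q : K × Ω, |max (x q - D q.2) 0| ≤ 1 := fun q => by
    rw [abs_of_nonneg (le_max_right _ _)]
    exact max_le (by linarith [(hxb q).2, (hDb q.2).1]) zero_le_one
  refine integrable_bdd (B := 1) ?_ fun k => ?_
  · exact continuous_of_dominated (bound := fun _ => (1 : ℝ))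
      (fun k => (((hx.comp (Continuous.prodMk continuous_const continuous_id)).sub hD).max
        continuous_const).aestronglyMeasurable)
      (fun k => ae_of_all _ fun o => hb (k, o)) (integrable_const _)
      (ae_of_all _ fun o => ((hx.comp (Continuous.prodMk continuous_id continuous_const)).sub
        continuous_const).max continuous_const)
  · rw [abs_of_nonneg (integral_nonneg fun o => le_max_right _ _)]
    exact (integral_mono_of_nonneg (ae_of_all _ fun o => le_max_right _ _)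
      (integrable_const (1 : ℝ)) (ae_of_all _ fun o => (le_abs_self _).trans (hb (k, o)))).trans
      (by simp)

variable {κ : Measure K} [IsProbabilityMeasure κ] {β η : ℝ}

omit [DecidableEq P] [SecondCountableTopology K] in
lemma resid_eq (hβ : 0 ≤ β) {B B' : K → Matrix P P ℝ} (hB : Continuous B) (hB' : Continuous B')
    (hb : ∀ k, frob (B k) ≤ β) (hb' : ∀ k, frob (B' k) ≤ β) (t : ℝ) (U U' G : Matrix P P ℝ) :
    ∫ k, pr2 G (B k * B' k) ∂κ = t * pr2 G (U * U') + pr2 G (resid κ B B' t U U') ∧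
      Integrable (fun k => pr2 G (B k * B' k)) κ := by
  have hbb : ∀ k, frob (B k * B' k) ≤ β * β := fun k =>
    (frob_mul_le hβ (bnd_of_frob hβ (hb k)) _).trans (mul_le_mul_of_nonneg_left (hb' k) hβ)
  obtain ⟨h1, h2⟩ := pr2_mint κ (hB.matrix_mul hB') hbb G
  refine ⟨?_, h2⟩
  rw [← h1, ← pr2_smul, ← pr2_add]
  congr 1
  ext p q
  simp [resid, mint]

omit [SecondCountableTopology K] in
lemma sq_bound (hβ : 0 ≤ β) (hη : 0 < η) {e : ℝ} (he : 1 ≤ e) (U : Matrix P P ℝ)
    (B : K → Matrix P P ℝ) (hB : Continuous B) (hb : ∀ k, frob (B k) ≤ β)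
    (hBs : ∀ k, (B k)ᵀ = B k) (hUs : Uᵀ = U) (hU0 : ∀ u, 0 ≤ ip u (U *ᵥ u))
    (hUu : IsUnit (U + η • 1)) {r : ℝ} (hr : frob (resid κ B B e U U) ≤ r) (u : P → ℝ) :
    Integrable (fun k => len (B k *ᵥ (res U η *ᵥ u)) ^ 2) κ ∧
      ∫ k, len (B k *ᵥ (res U η *ᵥ u)) ^ 2 ∂κ ≤ (e + r / η ^ 2) * ip u u := by
  set y := res U η *ᵥ u
  have e1 : ∀ k, len (B k *ᵥ y) ^ 2 = pr2 (vecMulVec y y) (B k * B k) := fun k => by
    rw [len_sq, ← bil_eq_pr2, ← mulVec_mulVec, ip_mulVec y, hBs]
  obtain ⟨h1, h2⟩ := resid_eq (κ := κ) hβ hB hB hb hb e U U (vecMulVec y y)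
  simp only [e1]
  refine ⟨h2, h1.trans_le ?_⟩
  obtain ⟨ha, hb', -⟩ := res_bounds hU0 hη hUu u
  have q1 : pr2 (vecMulVec y y) (U * U) ≤ ip u u := by
    rw [← bil_eq_pr2, ← mulVec_mulVec, ip_mulVec y, hUs, ← len_sq, ← len_sq]
    exact pow_le_pow_left₀ (len_nonneg _) hb' 2
  have q2 : pr2 (vecMulVec y y) (resid κ B B e U U) ≤ r / η ^ 2 * ip u u := by
    refine (le_abs_self _).trans ((abs_pr2_le _ _).trans ?_)
    rw [frob_outer, div_mul_eq_mul_div, le_div_iff₀ (by positivity)]
    have h3 := pow_le_pow_left₀ (mul_nonneg hη.le (len_nonneg _)) ha 2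
    rw [mul_pow, len_sq, len_sq] at h3
    calc ip y y * frob (resid κ B B e U U) * η ^ 2
        = frob (resid κ B B e U U) * (η ^ 2 * ip y y) := by ring
      _ ≤ r * ip u u := mul_le_mul hr h3 (mul_nonneg (sq_nonneg _) (ip_self_nonneg _))
          ((frob_nonneg _).trans hr)
  have := mul_le_mul_of_nonneg_left q1 (show (0 : ℝ) ≤ e by linarith)
  rw [add_mul]
  linarith

omit [SecondCountableTopology Ω] in
lemma err_le {ν : Measure Ω} [IsProbabilityMeasure ν] {l : ℝ} (hβ : 0 ≤ β) (hη : 0 < η)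
    (hη1 : η ≤ 1) (hl : 0 < l) {v v' : Ω → P → ℝ} {D D' x x' : Ω → ℝ}
    (hv : Continuous v) (hv' : Continuous v') (hD : Continuous D) (hD' : Continuous D')
    (hx : Continuous x) (hx' : Continuous x')
    (hvb : ∀ o, ip (v o) (v o) ≤ 1) (hvb' : ∀ o, ip (v' o) (v' o) ≤ 1)
    (hDb : ∀ o, D o ∈ Set.Icc (0 : ℝ) 1) (hDb' : ∀ o, D' o ∈ Set.Icc (0 : ℝ) 1)
    (hxb : ∀ o, x o ∈ Set.Icc (0 : ℝ) 1) (hxb' : ∀ o, x' o ∈ Set.Icc (0 : ℝ) 1)
    {Z : Matrix P P ℝ} (hZt : Bnd Zᵀ 1) :
    pr2 Z (β • mix ν x v * (β • mix ν x' v')) -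
        pr2 Z (β • mix ν x v * (res (mix ν D v) η * mix ν D v) *
          ((mix ν D' v' * res (mix ν D' v') η) * (β • mix ν x' v'))) ≤
      β ^ 2 * l + β ^ 2 / l * (√η + (∫ o, max (x o - D o) 0 ∂ν)
        + ∫ o, max (x' o - D' o) 0 ∂ν) := by
  set W := mix ν D v with hW
  set W' := mix ν D' v' with hW'
  set R := res W η with hR
  set R' := res W' η with hR'
  set L := η • R with hL
  set L' := η • R' with hL'
  set Ak := β • mix ν x v with hA
  set Ak' := β • mix ν x' v' with hA'
  have hu : IsUnit (W + η • 1) := mix_shift_isUnit hv hvb hD hDb hη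
  have hu' : IsUnit (W' + η • 1) := mix_shift_isUnit hv' hvb' hD' hDb' hη
  have hRs : Rᵀ = R := res_symm mix_symm
  have hAs : Akᵀ = Ak := by simp [hA, transpose_smul, mix_symm]
  have hAf : frob Ak ≤ β := by
    simp only [hA, frob_smul, abs_of_nonneg hβ]
    exact mul_le_of_le_one_right hβ (frob_mix_le_one hv hvb hx hxb)
  have hAf' : frob Ak' ≤ β := by
    simp only [hA', frob_smul, abs_of_nonneg hβ]
    exact mul_le_of_le_one_right hβ (frob_mix_le_one hv' hvb' hx' hxb')
  have hd1 := damped_le (ν := ν) hv hvb hD hDb hx hxb hη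
  have hd2 := damped_le (ν := ν) hv' hvb' hD' hDb' hx' hxb' hη
  have hAL : frob (Ak * L) ^ 2 ≤ β ^ 2 * (η / 2 + 2 * ∫ o, max (x o - D o) 0 ∂ν) := by
    rw [← frob_transpose, transpose_mul, hL, transpose_smul, hRs, hAs, hA, Matrix.mul_smul,
      frob_smul, mul_pow, sq_abs]
    exact mul_le_mul_of_nonneg_left hd1 (sq_nonneg β)
  have hLA : frob (L' * Ak') ^ 2 ≤ β ^ 2 * (η / 2 + 2 * ∫ o, max (x' o - D' o) 0 ∂ν) := by
    rw [hA', Matrix.mul_smul, frob_smul, mul_pow, sq_abs]
    exact mul_le_mul_of_nonneg_left hd2 (sq_nonneg β)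
  have hclass := res_mul_class (W := W) mix_symm (mix_nonneg hv hvb hD hDb) hη hu
  have hmid : frob (Ak * (R * W)) ≤ β := by
    refine (frob_mul_right_le zero_le_one ?_ _).trans (by rw [one_mul]; exact hAf)
    exact bnd_transpose_of_bil zero_le_one fun u z => by simpa using hclass.1 u z
  have e7 : Ak * Ak' - Ak * (R * W) * ((W' * R') * Ak')
      = Ak * L * Ak' + Ak * (R * W) * (L' * Ak') := by
    rw [hR, res_mul hu, hR', mul_res hu', ← hR, ← hR', ← hL, ← hL']
    simp only [mul_sub, sub_mul, Matrix.mul_one, Matrix.one_mul, Matrix.mul_assoc]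
    abel
  have e8 : pr2 Z (Ak * Ak') - pr2 Z (Ak * (R * W) * ((W' * R') * Ak'))
      = pr2 Z (Ak * L * Ak') + pr2 Z (Ak * (R * W) * (L' * Ak')) := by
    rw [← pr2_add, ← e7]
    simp [pr2, mul_sub, sum_sub_distrib]
  rw [e8]
  have t1 := (le_abs_self _).trans ((abs_pr2_mul_le hZt (Ak * L) Ak').trans
    (mul_le_mul_of_nonneg_left hAf' (frob_nonneg _)))
  have t2 := (le_abs_self _).trans ((abs_pr2_mul_le hZt (Ak * (R * W)) (L' * Ak')).trans
    (mul_le_mul_of_nonneg_right hmid (frob_nonneg _)))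
  set a := frob (Ak * L)
  set b := frob (L' * Ak')
  have k1 : a * β ≤ l * β ^ 2 / 2 + a ^ 2 / (2 * l) := by
    have : 0 ≤ (a - l * β) ^ 2 / (2 * l) := by positivity
    have e9 : l * β ^ 2 / 2 + a ^ 2 / (2 * l) = a * β + (a - l * β) ^ 2 / (2 * l) := by
      field_simp
      ring
    linarith
  have k2 : β * b ≤ l * β ^ 2 / 2 + b ^ 2 / (2 * l) := by
    have : 0 ≤ (b - l * β) ^ 2 / (2 * l) := by positivity
    have e9 : l * β ^ 2 / 2 + b ^ 2 / (2 * l) = β * b + (b - l * β) ^ 2 / (2 * l) := by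
      field_simp
      ring
    linarith
  have hsq : η ≤ √η := Real.le_sqrt_of_sq_le (by nlinarith)
  have k3 : a ^ 2 / (2 * l) + b ^ 2 / (2 * l) ≤ β ^ 2 / l *
      (√η + (∫ o, max (x o - D o) 0 ∂ν) + ∫ o, max (x' o - D' o) 0 ∂ν) := by
    rw [← add_div, div_mul_eq_mul_div, div_le_div_iff₀ (by positivity) hl]
    have := mul_nonneg (mul_nonneg (sq_nonneg β) hl.le) (sub_nonneg.2 hsq)
    have := mul_nonneg (mul_nonneg (sq_nonneg β) hl.le) hη.le
    have := mul_le_mul_of_nonneg_left (add_le_add hAL hLA) hl.le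
    linarith
  linarith

end Pieces

theorem op_bound {κ : Measure K} {ν : Measure Ω} [IsProbabilityMeasure κ] [IsProbabilityMeasure ν]
    {β e f η l : ℝ} (hβ : 0 ≤ β) (he : 1 ≤ e) (hef : e < f) (hη : 0 < η) (hη1 : η ≤ 1)
    (hl : 0 < l) {v v' : Ω → P → ℝ} {D D' : Ω → ℝ} {x x' : K × Ω → ℝ}
    (hv : Continuous v) (hv' : Continuous v') (hD : Continuous D) (hD' : Continuous D')
    (hx : Continuous x) (hx' : Continuous x')
    (hvb : ∀ o, ip (v o) (v o) ≤ 1) (hvb' : ∀ o, ip (v' o) (v' o) ≤ 1)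
    (hDb : ∀ o, D o ∈ Set.Icc (0 : ℝ) 1) (hDb' : ∀ o, D' o ∈ Set.Icc (0 : ℝ) 1)
    (hxb : ∀ q, x q ∈ Set.Icc (0 : ℝ) 1) (hxb' : ∀ q, x' q ∈ Set.Icc (0 : ℝ) 1) :
    let W := mix ν D v
    let W' := mix ν D' v'
    let A := fun k => β • mix ν (fun o => x (k, o)) v
    let A' := fun k => β • mix ν (fun o => x' (k, o)) v'
    (W * W').trace ≤ η + 2 / (f - e) * (β ^ 2 * l
      + β ^ 2 * (√η + exc κ ν x D + exc κ ν x' D') / l
      + (1 + β ^ 2) / η ^ 2 *
        (frob (resid κ A A' f W W') + frob (resid κ A A e W W) + frob (resid κ A' A' e W' W'))) := by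
  intro W W' A A'
  set r0 := frob (resid κ A A' f W W')
  set r1 := frob (resid κ A A e W W)
  set r2 := frob (resid κ A' A' e W' W')
  set c := (1 + β ^ 2) / η ^ 2 with hc
  set R := res W η
  set R' := res W' η
  set L := η • R with hL
  set L' := η • R' with hL'
  set E1 := β ^ 2 * l + β ^ 2 * (√η + exc κ ν x D + exc κ ν x' D') / l + c * r0 with hE1
  have hWs : Wᵀ = W := mix_symm
  have hWs' : W'ᵀ = W' := mix_symm
  have hW0 : ∀ u, 0 ≤ ip u (W *ᵥ u) := mix_nonneg hv hvb hD hDb
  have hW0' : ∀ u, 0 ≤ ip u (W' *ᵥ u) := mix_nonneg hv' hvb' hD' hDb'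
  have hu : IsUnit (W + η • 1) := mix_shift_isUnit hv hvb hD hDb hη
  have hu' : IsUnit (W' + η • 1) := mix_shift_isUnit hv' hvb' hD' hDb' hη
  have hRs : Rᵀ = R := res_symm hWs
  have hRs' : R'ᵀ = R' := res_symm hWs'
  have hR : Bnd R (1 / η) := fun z => by
    rw [div_mul_eq_mul_div, one_mul, le_div_iff₀ hη, mul_comm]
    exact (res_bounds hW0 hη hu z).1
  have hR' : Bnd R' (1 / η) := fun z => by
    rw [div_mul_eq_mul_div, one_mul, le_div_iff₀ hη, mul_comm]
    exact (res_bounds hW0' hη hu' z).1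
  have hxk : ∀ k, Continuous fun o => x (k, o) := fun k => hx.comp (by fun_prop)
  have hxk' : ∀ k, Continuous fun o => x' (k, o) := fun k => hx'.comp (by fun_prop)
  have hAs : ∀ k, (A k)ᵀ = A k := fun k => by simp [A, transpose_smul, mix_symm]
  have hAs' : ∀ k, (A' k)ᵀ = A' k := fun k => by simp [A', transpose_smul, mix_symm]
  have hAf : ∀ k, frob (A k) ≤ β := fun k => by
    simp only [A, frob_smul, abs_of_nonneg hβ]
    exact mul_le_of_le_one_right hβ (frob_mix_le_one hv hvb (hxk k) fun o => hxb _)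
  have hAf' : ∀ k, frob (A' k) ≤ β := fun k => by
    simp only [A', frob_smul, abs_of_nonneg hβ]
    exact mul_le_of_le_one_right hβ (frob_mix_le_one hv' hvb' (hxk' k) fun o => hxb' _)
  have hAc : Continuous A := continuous_mix hv hx hvb hxb β
  have hAc' : Continuous A' := continuous_mix hv' hx' hvb' hxb' β
  have hres : ∀ (B B' : K → Matrix P P ℝ), Continuous B → Continuous B' →
      (∀ k, frob (B k) ≤ β) → (∀ k, frob (B' k) ≤ β) → ∀ (t : ℝ) (U U' G : Matrix P P ℝ),
      ∫ k, pr2 G (B k * B' k) ∂κ = t * pr2 G (U * U') + pr2 G (resid κ B B' t U U') ∧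
        Integrable (fun k => pr2 G (B k * B' k)) κ :=
    fun B B' h1 h2 h3 h4 t U U' G => resid_eq hβ h1 h2 h3 h4 t U U' G
  -- the class and its supremum
  let Cl : Set (Matrix P P ℝ) :=
    {Z | (∀ u z, |ip u (Z *ᵥ z)| ≤ len u * len z) ∧ frob Z ≤ c}
  have hc0 : 0 ≤ c := by positivity
  set S : Set ℝ := (fun Z => pr2 Z (W * W')) '' Cl
  have hSb : BddAbove S := ⟨c * frob (W * W'), by
    rintro _ ⟨Z, hZ, rfl⟩
    exact (le_abs_self _).trans ((abs_pr2_le _ _).trans
      (mul_le_mul_of_nonneg_right hZ.2 (frob_nonneg _)))⟩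
  have hzero : (0 : Matrix P P ℝ) ∈ Cl := by
    refine ⟨fun u z => ?_, by simp [frob, hc0]⟩
    simp only [zero_mulVec, ip, Pi.zero_apply, mul_zero, sum_const_zero, abs_zero]
    exact mul_nonneg (len_nonneg _) (len_nonneg _)
  set s := sSup S
  have hs0 : 0 ≤ s := le_csSup hSb ⟨0, hzero, by simp [pr2]⟩
  -- trace is below s + η
  have hW'f : ∀ {u : Ω → P → ℝ} {d : Ω → ℝ}, Continuous u → Continuous d →
      (∀ o, ip (u o) (u o) ≤ 1) → (∀ o, d o ∈ Set.Icc (0 : ℝ) 1) → frob (mix ν d u) ≤ 1 :=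
    fun a b c d => frob_mix_le_one a c b d
  have hWf : frob W ≤ 1 := hW'f hv hD hvb hDb
  have hWf' : frob W' ≤ 1 := hW'f hv' hD' hvb' hDb'
  have hclass := res_mul_class hWs hW0 hη hu
  have hRWc : R * W ∈ Cl := by
    refine ⟨hclass.1, hclass.2.trans ?_⟩
    rw [hc, div_le_div_iff₀ hη (by positivity)]
    have h1 : η ^ 2 ≤ η := by nlinarith
    have h2 : frob W * η ^ 2 ≤ 1 * η := mul_le_mul hWf h1 (by positivity) zero_le_one
    nlinarith [sq_nonneg β]
  have htr : (W * W').trace ≤ s + η := by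
    have h1 : pr2 (R * W) (W * W') ≤ s := le_csSup hSb ⟨_, hRWc, rfl⟩
    have h2 : pr2 (R * W) (W * W') = (W * W').trace - pr2 L (W * W') := by
      rw [res_mul hu, pr2_trace, pr2_trace, transpose_sub, transpose_one, sub_mul, one_mul,
        trace_sub]
    have h3 : pr2 L (W * W') ≤ η := by
      rw [pr2_mul_snd, hWs]
      obtain ⟨e3, i3⟩ := pr2_mix (ν := ν) hv' hvb' hD' hDb' (W * L)
      rw [e3]
      refine (integral_mono (g := fun _ => η) i3 (integrable_const _) fun o => ?_).trans (by simp)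
      rw [show pr2 (W * L) (vecMulVec (v' o) (v' o)) = ip (v' o) ((W * L) *ᵥ v' o) by
        rw [bil_eq_pr2]; simp only [pr2, vecMulVec_apply]
        exact sum_congr rfl fun p _ => sum_congr rfl fun q _ => by ring]
      rw [hL, Matrix.mul_smul, smul_mulVec]
      have e4 : ip (v' o) (η • ((W * R) *ᵥ v' o)) = η * ip (v' o) (W *ᵥ (R *ᵥ v' o)) := by
        rw [mulVec_mulVec]
        simp only [ip, Pi.smul_apply, smul_eq_mul, mul_sum]
        exact sum_congr rfl fun p _ => by ring
      rw [e4]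
      have hb := (le_abs_self _).trans ((abs_ip_le_len (v' o) (W *ᵥ (R *ᵥ v' o))).trans
        (mul_le_mul_of_nonneg_left (res_bounds hW0 hη hu _).2.1 (len_nonneg _)))
      rw [← sq, len_sq] at hb
      have hb1 : ip (v' o) (W *ᵥ (R *ᵥ v' o)) ≤ 1 := hb.trans (hvb' o)
      calc D' o * (η * ip (v' o) (W *ᵥ (R *ᵥ v' o)))
          ≤ D' o * (η * 1) := mul_le_mul_of_nonneg_left
            (mul_le_mul_of_nonneg_left hb1 hη.le) (hDb' o).1
        _ ≤ η := by rw [mul_one]; exact mul_le_of_le_one_left hη.le (hDb' o).2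
    linarith
  have htr1 : (W * W').trace ≤ 1 := by
    rw [show (W * W').trace = pr2 W W' by rw [pr2_trace, hWs]]
    exact (le_abs_self _).trans ((abs_pr2_le _ _).trans (mul_le_one₀ hWf (frob_nonneg _) hWf'))
  -- excess
  have hx0 : 0 ≤ exc κ ν x D :=
    integral_nonneg fun k => integral_nonneg fun o => le_max_right _ _
  have hx0' : 0 ≤ exc κ ν x' D' :=
    integral_nonneg fun k => integral_nonneg fun o => le_max_right _ _
  -- every member of the class
  set e' := e + (r1 + r2) / η ^ 2 with he'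
  have hr1 : 0 ≤ r1 := frob_nonneg _
  have hr2 : 0 ≤ r2 := frob_nonneg _
  have he'1 : 1 ≤ e' := by
    have : 0 ≤ (r1 + r2) / η ^ 2 := by positivity
    linarith
  have hkey : ∀ Z ∈ Cl, f * pr2 Z (W * W') ≤ e' * s + E1 := by
    intro Z hZ
    have hZb : Bnd Z 1 := bnd_of_bil zero_le_one fun u z => by simpa using hZ.1 u z
    have hZt : Bnd Zᵀ 1 := bnd_transpose_of_bil zero_le_one fun u z => by simpa using hZ.1 u z
    set M : K → Matrix P P ℝ := fun k => R * A k * Z * A' k * R' with hM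
    have hMc : Continuous M :=
      (((continuous_const.matrix_mul hAc).matrix_mul continuous_const).matrix_mul hAc').matrix_mul
        continuous_const
    have hMf : ∀ k, frob (M k) ≤ β ^ 2 / η ^ 2 := by
      intro k
      refine (frob_mul_right_le (c := 1 / η) (by positivity) (by rw [hRs']; exact hR') _).trans ?_
      rw [show R * A k * Z * A' k = R * (A k * Z * A' k) by simp only [Matrix.mul_assoc]]
      have h2 : frob (A k * Z * A' k) ≤ β * β := by
        have hbA : Bnd (A' k)ᵀ β := bnd_of_frob hβ (by rw [frob_transpose]; exact hAf' k)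
        refine (frob_mul_right_le hβ hbA _).trans (mul_le_mul_of_nonneg_left ?_ hβ)
        exact (frob_mul_right_le zero_le_one hZt _).trans (by rw [one_mul]; exact hAf k)
      refine (mul_le_mul_of_nonneg_left ((frob_mul_le (by positivity) hR _).trans
        (mul_le_mul_of_nonneg_left h2 (by positivity))) (by positivity)).trans (le_of_eq ?_)
      field_simp
    set G := mint κ M
    have hGc : e'⁻¹ • G ∈ Cl := by
      have he0 : (0 : ℝ) < e' := by linarith
      refine ⟨fun u z => ?_, ?_⟩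
      · rw [bil_eq_pr2, pr2_smul, (pr2_mint κ hMc hMf _).1, abs_mul, abs_inv, abs_of_pos he0,
          inv_mul_le_iff₀ he0]
        have hsq := fun (U : Matrix P P ℝ) (B : K → Matrix P P ℝ) h1 h2 h3 h4 h5 h6 h7 u =>
          sq_bound (κ := κ) hβ hη he U B h1 h2 h3 h4 h5 h6 (r := r1 + r2) h7 u
        obtain ⟨i1, b1⟩ := hsq W A hAc hAf hAs hWs hW0 hu (le_add_of_nonneg_right hr2) u
        obtain ⟨i2, b2⟩ := hsq W' A' hAc' hAf' hAs' hWs' hW0' hu' (le_add_of_nonneg_left hr1) z
        rcases eq_or_lt_of_le (len_nonneg u) with h0 | hu0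
        · have hz0 : u = 0 := by
            have h := len_sq u
            rw [← h0, zero_pow two_ne_zero] at h
            funext p
            exact mul_self_eq_zero.1 ((sum_eq_zero_iff_of_nonneg fun _ _ => mul_self_nonneg _).1
              h.symm p (mem_univ p))
          rw [hz0]
          simp [pr2, len, ip, vecMulVec_apply]
        rcases eq_or_lt_of_le (len_nonneg z) with h0 | hz0
        · have hz0 : z = 0 := by
            have h := len_sq z
            rw [← h0, zero_pow two_ne_zero] at h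
            funext p
            exact mul_self_eq_zero.1 ((sum_eq_zero_iff_of_nonneg fun _ _ => mul_self_nonneg _).1
              h.symm p (mem_univ p))
          rw [hz0]
          simp [pr2, len, ip, vecMulVec_apply]
        have hpt : ∀ k, |pr2 (vecMulVec u z) (M k)| ≤
            len z / len u / 2 * len (A k *ᵥ (R *ᵥ u)) ^ 2 +
              len u / len z / 2 * len (A' k *ᵥ (R' *ᵥ z)) ^ 2 := by
          intro k
          rw [← bil_eq_pr2, hM]
          simp only [← mulVec_mulVec]
          rw [ip_mulVec u, hRs, ip_mulVec (R *ᵥ u), hAs]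
          have h1 := (hZ.1 (A k *ᵥ (R *ᵥ u)) (A' k *ᵥ (R' *ᵥ z)))
          refine h1.trans ?_
          set a := len (A k *ᵥ (R *ᵥ u))
          set b := len (A' k *ᵥ (R' *ᵥ z))
          have key : 0 ≤ (len z * a - len u * b) ^ 2 / (2 * (len u * len z)) := by positivity
          have e5 : len z / len u / 2 * a ^ 2 + len u / len z / 2 * b ^ 2
              = a * b + (len z * a - len u * b) ^ 2 / (2 * (len u * len z)) := by
            field_simp
            ring
          linarith
        refine (abs_integral_le_integral_abs).trans ?_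
        refine (integral_mono (pr2_mint κ hMc hMf _).2.abs ((i1.const_mul _).add (i2.const_mul _))
          hpt).trans ?_
        simp only [Pi.add_apply]
        rw [integral_add (i1.const_mul _) (i2.const_mul _), integral_const_mul, integral_const_mul]
        refine (add_le_add (mul_le_mul_of_nonneg_left b1 (by positivity))
          (mul_le_mul_of_nonneg_left b2 (by positivity))).trans (le_of_eq ?_)
        rw [← len_sq u, ← len_sq z, he']
        field_simp
        ring
      · rw [frob_smul, abs_inv, abs_of_pos he0]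
        refine (mul_le_of_le_one_left (frob_nonneg _) (inv_le_one_of_one_le₀ he'1)).trans ?_
        refine (frob_mint_le κ hMc hMf (integrable_const _) hMf).trans ?_
        simp only [integral_const, probReal_univ, one_smul, hc]
        exact div_le_div_of_nonneg_right (by linarith) (by positivity)
    have hGs : pr2 G (W * W') ≤ e' * s := by
      have h := le_csSup hSb ⟨_, hGc, rfl⟩
      simp only [pr2_smul_left] at h
      rwa [inv_mul_le_iff₀ (by linarith)] at h
    obtain ⟨h1, i1⟩ := hres A A' hAc hAc' hAf hAf' f W W' Z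
    have h2 : |pr2 Z (resid κ A A' f W W')| ≤ c * r0 :=
      (abs_pr2_le _ _).trans (mul_le_mul_of_nonneg_right hZ.2 (frob_nonneg _))
    have h3 : pr2 G (W * W') = ∫ k, pr2 Z (A k * (R * W) * ((W' * R') * A' k)) ∂κ ∧
        Integrable (fun k => pr2 Z (A k * (R * W) * ((W' * R') * A' k))) κ := by
      obtain ⟨a, b⟩ := pr2_mint κ hMc hMf (W * W')
      have hswap : ∀ X Y : Matrix P P ℝ, pr2 X Y = pr2 Y X := fun X Y =>
        sum_congr rfl fun p _ => sum_congr rfl fun q _ => mul_comm _ _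
      have e6 : ∀ k, pr2 (W * W') (M k) = pr2 Z (A k * (R * W) * ((W' * R') * A' k)) := by
        intro k
        rw [hswap (W * W'), hM]
        simp only
        rw [pr2_mul_right, pr2_mul_right, Matrix.mul_assoc R, pr2_mul_left, pr2_mul_left, hAs',
          hRs', hAs, hRs]
        simp only [Matrix.mul_assoc]
      rw [hswap G, a]
      simp only [e6] at b ⊢
      exact ⟨trivial, b⟩
    have h4 : ∀ k, pr2 Z (A k * A' k) - pr2 Z (A k * (R * W) * ((W' * R') * A' k)) ≤
        β ^ 2 * l + β ^ 2 / l * (√η + (∫ o, max (x (k, o) - D o) 0 ∂ν)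
          + ∫ o, max (x' (k, o) - D' o) 0 ∂ν) := fun k =>
      err_le hβ hη hη1 hl hv hv' hD hD' (hxk k) (hxk' k) hvb hvb' hDb hDb'
        (fun o => hxb _) (fun o => hxb' _) hZt
    have hi1 := integrable_exc (κ := κ) (ν := ν) hx hD hxb hDb
    have hi2 := integrable_exc (κ := κ) (ν := ν) hx' hD' hxb' hDb'
    have hib : Integrable (fun k => β ^ 2 * l + β ^ 2 / l *
        (√η + (∫ o, max (x (k, o) - D o) 0 ∂ν) + ∫ o, max (x' (k, o) - D' o) 0 ∂ν)) κ :=
      (integrable_const _).add ((((integrable_const _).add hi1).add hi2).const_mul _)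
    have h5 := integral_mono (i1.sub h3.2) hib h4
    simp only [Pi.sub_apply] at h5
    have h6 : ∫ k, β ^ 2 * l + β ^ 2 / l * (√η + (∫ o, max (x (k, o) - D o) 0 ∂ν)
        + ∫ o, max (x' (k, o) - D' o) 0 ∂ν) ∂κ =
        β ^ 2 * l + β ^ 2 * (√η + exc κ ν x D + exc κ ν x' D') / l := by
      have ha : Integrable (fun k => √η + ∫ o, max (x (k, o) - D o) 0 ∂ν) κ :=
        (integrable_const _).add hi1
      have hb : Integrable (fun k => β ^ 2 / l * (√η + (∫ o, max (x (k, o) - D o) 0 ∂ν)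
          + ∫ o, max (x' (k, o) - D' o) 0 ∂ν)) κ := (ha.add hi2).const_mul _
      rw [integral_add (integrable_const _) hb, integral_const_mul (β ^ 2 / l), integral_add ha hi2,
        integral_add (integrable_const _) hi1]
      simp only [integral_const, probReal_univ, one_smul, exc]
      ring
    rw [h6, integral_sub i1 h3.2, h1, ← h3.1] at h5
    have := (abs_le.1 h2).1
    rw [hE1]
    linarith
  -- conclusion
  have hE0 : 0 ≤ E1 := by
    have := frob_nonneg (resid κ A A' f W W')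
    positivity
  have hfe : 0 < f - e := by linarith
  have hgoal : 2 / (f - e) * (β ^ 2 * l + β ^ 2 * (√η + exc κ ν x D + exc κ ν x' D') / l +
      c * (r0 + r1 + r2)) = 2 / (f - e) * (E1 + c * (r1 + r2)) := by rw [hE1]; ring
  rw [hgoal]
  have hcr : (r1 + r2) / η ^ 2 ≤ c * (r1 + r2) := by
    rw [hc, div_mul_eq_mul_div]
    exact div_le_div_of_nonneg_right
      (le_mul_of_one_le_left (by linarith) (by nlinarith)) (by positivity)
  rcases le_or_gt ((f - e) / 2) ((r1 + r2) / η ^ 2) with hbig | hsmall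
  · have : 1 ≤ 2 / (f - e) * (E1 + c * (r1 + r2)) := by
      rw [div_mul_eq_mul_div, le_div_iff₀ hfe]
      linarith
    linarith
  · have hsup : f * s ≤ e' * s + E1 := by
      have hf : 0 < f := by linarith
      rw [← le_div_iff₀' hf]
      refine csSup_le ⟨_, ⟨0, hzero, rfl⟩⟩ ?_
      rintro _ ⟨Z, hZ, rfl⟩
      rw [le_div_iff₀' hf]
      exact hkey Z hZ
    have hgap : (f - e) / 2 * s ≤ (f - e') * s :=
      mul_le_mul_of_nonneg_right (by rw [he']; linarith) hs0
    have : s ≤ 2 / (f - e) * (E1 + c * (r1 + r2)) := by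
      rw [div_mul_eq_mul_div, le_div_iff₀ hfe]
      have : 0 ≤ c * (r1 + r2) := by positivity
      linarith
    linarith

omit [SecondCountableTopology Ω] in
theorem end_bound {ν : Measure Ω} [IsProbabilityMeasure ν] {v : Ω → P → ℝ} (hv : Continuous v)
    (hvb : ∀ o, ip (v o) (v o) ≤ 1) (hD : ∀ o, 0 ≤ ip (fun p => ∫ o', v o' p ∂ν) (v o)) :
    (ip (fun p => ∫ o, v o p ∂ν) (fun p => ∫ o, v o p ∂ν)) ^ 4 ≤
      frob (mix ν (fun o => ip (fun p => ∫ o', v o' p ∂ν) (v o)) v) ^ 2 := by
  set m : P → ℝ := fun p => ∫ o', v o' p ∂ν with hm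
  set D : Ω → ℝ := fun o => ip m (v o) with hDdef
  have hvp : ∀ p, Integrable (fun o => v o p) ν := fun p =>
    integrable_bdd ((continuous_apply p).comp hv) (B := 1) fun o => by
      refine abs_le_one_iff_mul_self_le_one.2 ((single_le_sum (f := fun p => v o p * v o p)
        (fun _ _ => mul_self_nonneg _) (mem_univ p)).trans (hvb o))
  have hDint : Integrable D ν := integrable_finsetSum _ fun p _ => (hvp p).const_mul _
  have hmm : ip m m = ∫ o, D o ∂ν := by
    simp only [hDdef, ip]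
    rw [integral_finsetSum _ fun p _ => (hvp p).const_mul _]
    exact sum_congr rfl fun p _ => by rw [integral_const_mul]
  have hDc : Continuous D := continuous_finsetSum _ fun p _ =>
    continuous_const.mul ((continuous_apply p).comp hv)
  have hm1 : ip m m ≤ 1 := by
    by_contra hh
    push Not at hh
    have hle : ∫ o, D o ∂ν ≤ len m := (integral_mono (g := fun _ => len m) hDint
      (integrable_const _) fun o => ((le_abs_self _).trans (abs_ip_le_len _ _)).trans
        (mul_le_of_le_one_right (len_nonneg m) (Real.sqrt_le_one.2 (hvb o)))).trans (by simp)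
    rw [← hmm, ← len_sq] at hle
    rw [← len_sq] at hh
    nlinarith [len_nonneg m]
  have hDb : ∀ o, D o ∈ Set.Icc (0 : ℝ) 1 := fun o =>
    ⟨hD o, ((le_abs_self _).trans (abs_ip_le_len _ _)).trans
      (mul_le_one₀ (Real.sqrt_le_one.2 hm1) (len_nonneg _) (Real.sqrt_le_one.2 (hvb o)))⟩
  set μ := ip m m
  obtain ⟨e1, i1⟩ := bil_mix (ν := ν) hv hvb hDc hDb m m
  have e2 : ∀ o, D o * (ip m (v o) * ip (v o) m) = D o ^ 3 := fun o => by
    rw [show ip (v o) m = ip m (v o) from sum_congr rfl fun _ _ => mul_comm _ _]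
    simp only [hDdef]; ring
  simp only [e2] at e1 i1
  have h3 : μ ^ 3 ≤ ∫ o, D o ^ 3 ∂ν := by
    refine le_trans (le_of_eq ?_) (integral_mono (f := fun o => 3 * μ ^ 2 * D o - 2 * μ ^ 3)
      ((hDint.const_mul _).sub (integrable_const _)) i1 fun o => ?_)
    · rw [integral_sub (hDint.const_mul _) (integrable_const _), integral_const_mul, ← hmm]
      simp only [integral_const, probReal_univ, one_smul]
      ring
    · have := hD o
      have hμ : 0 ≤ μ := ip_self_nonneg m
      simp only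
      nlinarith [mul_nonneg (sq_nonneg (D o - μ)) (by linarith [(hDb o).1] : 0 ≤ D o + 2 * μ)]
  have h4 : ∫ o, D o ^ 3 ∂ν ≤ μ * frob (mix ν D v) := by
    rw [← e1, bil_eq_pr2]
    refine (le_abs_self _).trans ((abs_pr2_le _ _).trans (le_of_eq ?_))
    rw [frob_outer]
  rcases (ip_self_nonneg m).eq_or_lt with h0 | h0
  · show μ ^ 4 ≤ _
    rw [show μ = 0 from h0.symm, zero_pow (by norm_num)]
    exact sq_nonneg _
  · show μ ^ 4 ≤ frob (mix ν D v) ^ 2
    have h5 : μ ^ 2 ≤ frob (mix ν D v) := by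
      refine le_of_mul_le_mul_left ?_ h0
      calc μ * μ ^ 2 = μ ^ 3 := by ring
        _ ≤ _ := h3.trans h4
    calc μ ^ 4 = (μ ^ 2) ^ 2 := by ring
      _ ≤ _ := pow_le_pow_left₀ (sq_nonneg μ) h5 2

end Vale.Agent.P146.Chaos
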