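import Vale.Agent.P146.Chaos.Resid
import Vale.Agent.P146.Chaos.Op

/-! # P146: the operators of one family -/

namespace Vale.Agent.P146.Chaos

open Finset MeasureTheory ProbabilityTheory
open Vale.Agent.P150 Vale.Agent.P150.Slow

set_option linter.unusedSectionVars false

section Split

variable {ι : Type*} [Fintype ι] [DecidableEq ι]

lemma mp_two : MeasurePreserving (fun g : Fin 2 × ι → ℝ => (fun e => g (0, e), fun e => g (1, e)))
    (stdPi (Fin 2 × ι)) ((stdPi ι).prod (stdPi ι)) :=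
  (((mp_reindex (Equiv.uniqueProd ι (Fin 1)).symm).prod
    (mp_reindex (Equiv.uniqueProd ι (Fin 1)).symm)).comp (mp_split (A := Fin 1) (B := Fin 1))).comp
    (mp_reindex (finSumFinEquiv.prodCongr (Equiv.refl ι)))

/-- four blocks -/
def four (g : Fin 4 × ι → ℝ) : ((ι → ℝ) × (ι → ℝ)) × ((ι → ℝ) × (ι → ℝ)) :=
  ((fun e => g (0, e), fun e => g (1, e)), (fun e => g (2, e), fun e => g (3, e)))

lemma mp_four : MeasurePreserving (four (ι := ι)) (stdPi (Fin 4 × ι))
    (((stdPi ι).prod (stdPi ι)).prod ((stdPi ι).prod (stdPi ι))) :=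
  (mp_two.prod mp_two).comp ((mp_split (A := Fin 2) (B := Fin 2)).comp
    (mp_reindex (finSumFinEquiv.prodCongr (Equiv.refl ι))))

end Split

variable {α γ : Type*} [TopologicalSpace α] [TopologicalSpace γ] [MeasurableSpace α]
  [MeasurableSpace γ] [BorelSpace α] [BorelSpace γ] [SecondCountableTopology α]
  [SecondCountableTopology γ]

/-- product of two mixtures -/
lemma mix_mul {Q : Type*} [Fintype Q] [DecidableEq Q] (μ : Measure α) (ν : Measure γ)
    [IsProbabilityMeasure μ] [IsProbabilityMeasure ν] {x : α → ℝ} {y : γ → ℝ} {v : α → Q → ℝ}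
    {u : γ → Q → ℝ} (hx : Continuous x) (hy : Continuous y) (hv : Continuous v) (hu : Continuous u)
    (hxb : ∀ a, |x a| ≤ 1) (hyb : ∀ a, |y a| ≤ 1) (hvb : ∀ a p, |v a p| ≤ 1)
    (hub : ∀ a p, |u a p| ≤ 1) (p q : Q) :
    (mix μ x v * mix ν y u) p q =
      ∫ a, ∫ c, v a p * u c q * (ip (v a) (u c) * (x a * y c)) ∂ν ∂μ := by
  have ia : ∀ l, Integrable (fun a => x a * (v a p * v a l)) μ := fun l =>
    integrable_bdd (hx.mul (((continuous_apply p).comp hv).mul ((continuous_apply l).comp hv)))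
      (B := 1) fun a => by
        rw [abs_mul, abs_mul]
        exact mul_le_one₀ (hxb a) (by positivity) (mul_le_one₀ (hvb a p) (abs_nonneg _) (hvb a l))
  have ic : ∀ l, Integrable (fun c => y c * (u c l * u c q)) ν := fun l =>
    integrable_bdd (hy.mul (((continuous_apply l).comp hu).mul ((continuous_apply q).comp hu)))
      (B := 1) fun c => by
        rw [abs_mul, abs_mul]
        exact mul_le_one₀ (hyb c) (by positivity) (mul_le_one₀ (hub c l) (abs_nonneg _) (hub c q))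
  simp only [Matrix.mul_apply, mix, ← integral_mul_const]
  rw [← integral_finsetSum _ fun l _ => (ia l).mul_const _]
  refine integral_congr_ae (ae_of_all _ fun a => ?_)
  simp only [← integral_const_mul]
  rw [← integral_finsetSum _ fun l _ => (ic l).const_mul _]
  refine integral_congr_ae (ae_of_all _ fun c => ?_)
  simp only [ip, mul_sum, sum_mul]
  exact sum_congr rfl fun l _ => by ring

variable {n : ℕ}

/-- uniform law on sites times the unit interval -/
noncomputable def siteLaw (n : ℕ) [NeZero n] : Measure (Fin n × ℝ) :=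
  (PMF.uniformOfFintype (Fin n)).toMeasure.prod unitI

instance [NeZero n] : IsProbabilityMeasure (siteLaw n) := by unfold siteLaw; infer_instance

lemma integral_siteLaw [NeZero n] {f : Fin n × ℝ → ℝ} (hf : BC f) :
    ∫ k, f k ∂siteLaw n = (∑ i, ∫ s, f (i, s) ∂unitI) / n := by
  rw [siteLaw, BC.prod_eq hf, PMF.integral_eq_sum, sum_div]
  exact sum_congr rfl fun i _ => by simp [div_eq_inv_mul]

/-- coefficients of the base containing only the common source -/
def kA : Fin 3 → ℝ := ![1, 0, 0]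

/-- coefficients of the first base -/
noncomputable def kG (r1 : ℝ) : Fin 3 → ℝ := ![√r1, √(1 - r1), 0]

/-- coefficients of the second base -/
noncomputable def kH (r1 : ℝ) : Fin 3 → ℝ := ![√r1, 0, √(1 - r1)]

/-- the configuration of two families over the sources -/
def conf (r0 ρ : ℝ) (kS kT : Fin 3 → ℝ) : Conf := ⟨![kS, kT, kA, kA], ![r0, r0, ρ, ρ]⟩

variable (β r0 ρ : ℝ) (x : Fin 3 × Ed n → ℝ)

/-- a system over the sources -/
noncomputable def fam (k : Fin 3 → ℝ) (z : Ed n → ℝ) : Ed n → ℝ :=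
  sys r0 (fun e => ∑ j, k j * x (j, e)) z

/-- a reference system -/
noncomputable def ref (z : Ed n → ℝ) : Ed n → ℝ := sys ρ (fun e => x (0, e)) z

/-- correlations averaged over the reference -/
noncomputable def mref (p : Ed n) : ℝ := ∫ z, w β (ref ρ x z) p ∂stdPi (Ed n)

/-- overlap with the averaged reference -/
noncomputable def dref (k : Fin 3 → ℝ) (z : Ed n → ℝ) : ℝ :=
  ip (mref β ρ x) (w β (fam r0 x k z))

/-- averaged susceptibility weight -/
noncomputable def xref (k : Fin 3 → ℝ) (q : (Fin n × ℝ) × (Ed n → ℝ)) : ℝ :=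
  ∫ d, ∫ z, chi β q.1.1 (rmix q.1.1 q.1.2 (fam r0 x k q.2) d) (ref ρ x z) ∂stdPi (Ed n)
    ∂stdPi (Fin n)

/-- the base matrix -/
noncomputable def Wm (k : Fin 3 → ℝ) : Matrix (Ed n) (Ed n) ℝ :=
  mix (stdPi (Ed n)) (dref β r0 ρ x k) fun z => w β (fam r0 x k z)

/-- the site matrices -/
noncomputable def Am (k : Fin 3 → ℝ) (j : Fin n × ℝ) : Matrix (Ed n) (Ed n) ℝ :=
  β • mix (stdPi (Ed n)) (fun z => xref β r0 ρ x k (j, z)) fun z => w β (fam r0 x k z)

lemma cont_fam (k : Fin 3 → ℝ) : Continuous (fam r0 x k) := by unfold fam sys; fun_prop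

lemma cont_ref : Continuous (ref ρ x) := by unfold ref sys; fun_prop

lemma abs_w_le_one (g : Ed n → ℝ) (p : Ed n) : |w β g p| ≤ 1 := by
  refine (abs_w_le β g p).trans ?_
  rcases Nat.eq_zero_or_pos n with rfl | hn
  · simp
  · exact inv_le_one_of_one_le₀ (by exact_mod_cast hn)

lemma dref_eq (k : Fin 3 → ℝ) (z : Ed n → ℝ) :
    dref β r0 ρ x k z = ∫ u, ovl β (fam r0 x k z) (ref ρ x u) ∂stdPi (Ed n) := by
  simp only [dref, ip, mref, ovl, ← integral_mul_const]
  rw [← integral_finsetSum _ fun p _ => ?_]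
  · exact integral_congr_ae (ae_of_all _ fun u => sum_congr rfl fun p _ => mul_comm _ _)
  · exact (integrable_bdd ((continuous_apply p).comp (cont_w β (cont_ref ρ x)))
      fun u => abs_w_le_one β _ p).mul_const _

lemma cont_dref (k : Fin 3 → ℝ) : Continuous (dref β r0 ρ x k) :=
  cont_ip continuous_const (cont_w β (cont_fam r0 x k))

lemma dref_mem (k : Fin 3 → ℝ) (z : Ed n → ℝ) : dref β r0 ρ x k z ∈ Set.Icc (0 : ℝ) 1 := by
  rw [dref_eq]
  exact ⟨integral_nonneg fun u => ovl_nonneg β _ _,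
    (le_abs_self _).trans (BC.abs_integral_le fun u => abs_ovl_le β _ _)⟩

lemma bc_xref (k : Fin 3 → ℝ) : BC (xref β r0 ρ x k) := by
  refine BC.int (f := fun p : ((Fin n × ℝ) × (Ed n → ℝ)) × (Fin n → ℝ) =>
    ∫ z, chi β p.1.1.1 (rmix p.1.1.1 p.1.1.2 (fam r0 x k p.1.2) p.2) (ref ρ x z) ∂stdPi (Ed n))
    (BC.int (f := fun p : (((Fin n × ℝ) × (Ed n → ℝ)) × (Fin n → ℝ)) × (Ed n → ℝ) =>
      chi β p.1.1.1.1 (rmix p.1.1.1.1 p.1.1.1.2 (fam r0 x k p.1.1.2) p.1.2) (ref ρ x p.2)) ?_)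
  refine ⟨?_, 1, fun p => abs_chi_le β _ _ _⟩
  have h : Continuous fun q : Fin n × (ℝ × (Ed n → ℝ) × (Fin n → ℝ) × (Ed n → ℝ)) =>
      chi β q.1 (rmix q.1 q.2.1 (fam r0 x k q.2.2.1) q.2.2.2.1) (ref ρ x q.2.2.2.2) :=
    continuous_prod_of_discrete_left.2 fun i => cont_chi β i
      (cont_rmix i continuous_fst ((cont_fam r0 x k).comp (continuous_fst.comp continuous_snd))
        (continuous_fst.comp (continuous_snd.comp continuous_snd)))
      ((cont_ref ρ x).comp (continuous_snd.comp (continuous_snd.comp continuous_snd)))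
  exact h.comp
    (f := fun p : (((Fin n × ℝ) × (Ed n → ℝ)) × (Fin n → ℝ)) × (Ed n → ℝ) =>
      (p.1.1.1.1, (p.1.1.1.2, p.1.1.2, p.1.2, p.2))) (by fun_prop)

lemma xref_mem (k : Fin 3 → ℝ) (q : (Fin n × ℝ) × (Ed n → ℝ)) :
    xref β r0 ρ x k q ∈ Set.Icc (0 : ℝ) 1 :=
  ⟨integral_nonneg fun d => integral_nonneg fun z => chi_nonneg β _ _ _,
    (le_abs_self _).trans (BC.abs_integral_le fun d => BC.abs_integral_le fun z =>
      abs_chi_le β _ _ _)⟩

lemma blk_conf (kS kT : Fin 3 → ℝ) (z : Fin 4 × Ed n → ℝ) :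
    blk 0 (sysv (conf r0 ρ kS kT).k (conf r0 ρ kS kT).rr x z) = fam r0 x kS (fun e => z (0, e)) ∧
    blk 1 (sysv (conf r0 ρ kS kT).k (conf r0 ρ kS kT).rr x z) = fam r0 x kT (fun e => z (1, e)) ∧
    blk 2 (sysv (conf r0 ρ kS kT).k (conf r0 ρ kS kT).rr x z) = ref ρ x (fun e => z (2, e)) ∧
    blk 3 (sysv (conf r0 ρ kS kT).k (conf r0 ρ kS kT).rr x z) = ref ρ x (fun e => z (3, e)) := by
  refine ⟨?_, ?_, ?_, ?_⟩ <;> funext e <;>
    simp [blk, sysv, comb, conf, fam, ref, sys, kA, Fin.sum_univ_three]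

end Vale.Agent.P146.Chaos
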