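import Vale.Agent.P146.Chaos.Systems
import Vale.Agent.P146.Expansion

/-! # P146: Gibbs averages, row tilts, and the thermal covariance bound -/

namespace Vale.Agent.P146.Chaos

open Finset MeasureTheory ProbabilityTheory
open Vale.Agent.P150 Vale.Agent.P150.Slow

variable {n : ℕ}

/-- disorder index -/
abbrev Ed (n : ℕ) := Fin n × Fin n

/-- configurations -/
abbrev Cfg (n : ℕ) := Fin n → Bool

/-- the spin at a site -/
def sp (x : Cfg n) (j : Fin n) : ℝ := spin (x j)

lemma sp_sq (x : Cfg n) (j : Fin n) : sp x j * sp x j = 1 := spin_mul_self _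

lemma abs_sp (x : Cfg n) (j : Fin n) : |sp x j| = 1 := by
  rw [sp]; cases x j <;> simp [spin]

/-- Gibbs average -/
noncomputable def avg (β : ℝ) (g : Ed n → ℝ) (f : Cfg n → ℝ) : ℝ := av (cpl n β) g f

/-- Gibbs variance -/
noncomputable def gvar (β : ℝ) (g : Ed n → ℝ) (f : Cfg n → ℝ) : ℝ :=
  avg β g (fun x => (f x - avg β g f) ^ 2)

/-- the normalised correlation matrix -/
noncomputable def w (β : ℝ) (g : Ed n → ℝ) (p : Ed n) : ℝ :=
  avg β g (fun x => sp x p.1 * sp x p.2) / n

/-- mask removing row and column `i` -/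
def msk (i : Fin n) (p : Ed n) : ℝ := if p.1 = i ∨ p.2 = i then 0 else 1

/-- the correlation matrix without site `i` -/
noncomputable def wq (β : ℝ) (i : Fin n) (g : Ed n → ℝ) (p : Ed n) : ℝ := msk i p * w β g p

/-- pairing -/
def ip {α : Type*} [Fintype α] (u v : α → ℝ) : ℝ := ∑ p, u p * v p

/-- quadratic observable without site `i` -/
noncomputable def quad (i : Fin n) (Z : Ed n → ℝ) (x : Cfg n) : ℝ :=
  ∑ p, Z p * (msk i p * (sp x p.1 * sp x p.2) / n)

variable (β : ℝ) (g : Ed n → ℝ)

lemma avg_add (f h : Cfg n → ℝ) : avg β g (fun x => f x + h x) = avg β g f + avg β g h := by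
  simp only [avg, av, mul_add, sum_add_distrib, add_div]

lemma avg_sub (f h : Cfg n → ℝ) : avg β g (fun x => f x - h x) = avg β g f - avg β g h := by
  simp only [avg, av, mul_sub, sum_sub_distrib, sub_div]

lemma avg_const_mul (c : ℝ) (f : Cfg n → ℝ) : avg β g (fun x => c * f x) = c * avg β g f := by
  simp only [avg, av, mul_left_comm _ c, ← mul_sum, mul_div_assoc]

lemma avg_sum {α : Type*} (s : Finset α) (f : α → Cfg n → ℝ) :
    avg β g (fun x => ∑ a ∈ s, f a x) = ∑ a ∈ s, avg β g (f a) := by
  simp only [avg, av, mul_sum, sum_div]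
  rw [sum_comm]

lemma avg_const (c : ℝ) : avg β g (fun _ => c) = c := by
  rw [avg, av, ← sum_mul, mul_div_cancel_left₀ _ (part_pos (cpl n β) g).ne']

lemma avg_mono {f h : Cfg n → ℝ} (hfh : ∀ x, f x ≤ h x) : avg β g f ≤ avg β g h :=
  div_le_div_of_nonneg_right (sum_le_sum fun x _ => mul_le_mul_of_nonneg_left (hfh x)
    (Real.exp_pos _).le) (part_pos (cpl n β) g).le

lemma avg_nonneg {f : Cfg n → ℝ} (hf : ∀ x, 0 ≤ f x) : 0 ≤ avg β g f :=
  (avg_const β g 0).ge.trans (avg_mono β g hf)

lemma abs_avg_le {f : Cfg n → ℝ} {B : ℝ} (hf : ∀ x, |f x| ≤ B) : |avg β g f| ≤ B :=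
  abs_le.2 ⟨(avg_const β g (-B)).ge.trans (avg_mono β g fun x => (abs_le.1 (hf x)).1),
    (avg_mono β g fun x => (abs_le.1 (hf x)).2).trans (avg_const β g B).le⟩

lemma avg_cauchy (f h : Cfg n → ℝ) :
    |avg β g (fun x => f x * h x)| ≤
      √(avg β g fun x => f x ^ 2) * √(avg β g fun x => h x ^ 2) := by
  set P : Cfg n → ℝ := fun x =>
    Real.exp (en (cpl n β) g x) / ∑ y, Real.exp (en (cpl n β) g y) with hP
  have hP0 : ∀ x, 0 ≤ P x := fun x => by
    have := part_pos (cpl n β) g
    positivity
  have e : ∀ f, avg β g f = ∑ x, P x * f x := fun f => by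
    simp only [avg, av, hP, sum_div, div_mul_eq_mul_div]
  simp only [e]
  rw [← Real.sqrt_mul (sum_nonneg fun x _ => mul_nonneg (hP0 x) (sq_nonneg _))]
  refine Real.abs_le_sqrt ?_
  exact sum_sq_le_sum_mul_sum_of_sq_le_mul _ (fun x _ => mul_nonneg (hP0 x) (sq_nonneg _))
    (fun x _ => mul_nonneg (hP0 x) (sq_nonneg _)) fun x _ => le_of_eq (by ring)

lemma avg_abs_le_sqrt (f : Cfg n → ℝ) :
    avg β g (fun x => |f x|) ≤ √(avg β g fun x => f x ^ 2) := by
  have h := avg_cauchy β g (fun x => |f x|) (fun _ => 1)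
  simp only [mul_one, sq_abs, one_pow, avg_const, Real.sqrt_one] at h
  exact (le_abs_self _).trans h

lemma gvar_nonneg (f : Cfg n → ℝ) : 0 ≤ gvar β g f := avg_nonneg β g fun x => sq_nonneg _

lemma gvar_le (f : Cfg n → ℝ) (c : ℝ) : gvar β g f ≤ avg β g (fun x => (f x - c) ^ 2) := by
  have e : avg β g (fun x => (f x - c) ^ 2) = gvar β g f + (avg β g f - c) ^ 2 := by
    have h : ∀ x, (f x - c) ^ 2 = (f x - avg β g f) ^ 2 +
        (2 * (avg β g f - c) * (f x - avg β g f) + (avg β g f - c) ^ 2) := fun x => by ring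
    simp only [h, avg_add, avg_const_mul, avg_sub, avg_const, gvar]
    ring
  rw [e]
  linarith [sq_nonneg (avg β g f - c)]

lemma gvar_eq (f : Cfg n → ℝ) :
    gvar β g f = avg β g (fun x => f x * f x) - avg β g f * avg β g f := by
  have h : ∀ x, (f x - avg β g f) ^ 2 = f x * f x - 2 * avg β g f * f x + avg β g f * avg β g f :=
    fun x => by ring
  simp only [gvar, h, avg_add, avg_sub, avg_const_mul, avg_const]
  ring

lemma abs_w_le (p : Ed n) : |w β g p| ≤ (n : ℝ)⁻¹ := by
  rw [w, abs_div, Nat.abs_cast, div_eq_mul_inv]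
  exact mul_le_of_le_one_left (by positivity)
    (abs_avg_le β g fun x => by rw [abs_mul, abs_sp, abs_sp, one_mul])

lemma ip_w_self_le (g : Ed n → ℝ) : ip (w β g) (w β g) ≤ 1 := by
  refine (sum_le_sum fun p _ => (show w β g p * w β g p ≤ (n : ℝ)⁻¹ * (n : ℝ)⁻¹ from ?_)).trans ?_
  · rw [← abs_mul_abs_self (w β g p)]
    exact mul_self_le_mul_self (abs_nonneg _) (abs_w_le β g p)
  · simp only [sum_const, card_univ, Fintype.card_prod, Fintype.card_fin, nsmul_eq_mul]
    rcases Nat.eq_zero_or_pos n with rfl | hn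
    · simp
    · have : (n : ℝ) ≠ 0 := by positivity
      push_cast
      field_simp
      rfl

lemma msk_nonneg (i : Fin n) (p : Ed n) : 0 ≤ msk i p := by unfold msk; split_ifs <;> norm_num

lemma msk_le_one (i : Fin n) (p : Ed n) : msk i p ≤ 1 := by unfold msk; split_ifs <;> norm_num

lemma msk_mul_self (i : Fin n) (p : Ed n) : msk i p * msk i p = msk i p := by
  unfold msk; split_ifs <;> norm_num

lemma ip_wq_self_le (i : Fin n) : ip (wq β i g) (wq β i g) ≤ 1 := by
  refine le_trans (sum_le_sum fun p _ => ?_) (ip_w_self_le β g)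
  rw [wq, show msk i p * w β g p * (msk i p * w β g p) =
    msk i p * msk i p * (w β g p * w β g p) by ring, msk_mul_self]
  exact mul_le_of_le_one_left (mul_self_nonneg _) (msk_le_one i p)

lemma avg_quad (i : Fin n) (Z : Ed n → ℝ) : avg β g (quad i Z) = ip Z (wq β i g) := by
  unfold quad ip wq w
  rw [avg_sum]
  refine sum_congr rfl fun p _ => ?_
  rw [show (fun x : Cfg n => Z p * (msk i p * (sp x p.1 * sp x p.2) / n)) =
    fun x => Z p * (msk i p / n) * (sp x p.1 * sp x p.2) by funext x; ring, avg_const_mul]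
  ring

lemma abs_ip_le {α : Type*} [Fintype α] (u v : α → ℝ) : |ip u v| ≤ √(ip u u) * √(ip v v) := by
  unfold ip
  rw [← Real.sqrt_mul (sum_nonneg fun p _ => mul_self_nonneg _)]
  refine Real.abs_le_sqrt ?_
  exact sum_sq_le_sum_mul_sum_of_sq_le_mul _ (fun p _ => mul_self_nonneg _)
    (fun p _ => mul_self_nonneg _) fun p _ => le_of_eq (by ring)

lemma abs_quad_le (i : Fin n) {Z : Ed n → ℝ} {B : ℝ} (hB : √(ip Z Z) ≤ B) (x : Cfg n) :
    |quad i Z x| ≤ B := by
  refine le_trans (abs_ip_le Z fun p => msk i p * (sp x p.1 * sp x p.2) / n) ?_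
  refine le_trans (mul_le_of_le_one_right (Real.sqrt_nonneg _) (Real.sqrt_le_one.2 ?_)) hB
  calc ∑ p : Ed n, msk i p * (sp x p.1 * sp x p.2) / n * (msk i p * (sp x p.1 * sp x p.2) / n)
      ≤ ∑ _p : Ed n, ((n : ℝ)⁻¹) ^ 2 := sum_le_sum fun p _ => by
        rw [show msk i p * (sp x p.1 * sp x p.2) / n * (msk i p * (sp x p.1 * sp x p.2) / n) =
          msk i p * msk i p * ((sp x p.1 * sp x p.1) * (sp x p.2 * sp x p.2)) * ((n : ℝ)⁻¹) ^ 2 by
            ring, sp_sq, sp_sq, msk_mul_self, mul_one, mul_one]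
        exact mul_le_of_le_one_left (sq_nonneg _) (msk_le_one i p)
    _ ≤ 1 := by
        simp only [sum_const, card_univ, Fintype.card_prod, Fintype.card_fin, nsmul_eq_mul]
        rcases Nat.eq_zero_or_pos n with rfl | hn
        · simp
        · have : (n : ℝ) ≠ 0 := by positivity
          push_cast
          field_simp
          rfl

/-! ### derivatives -/

lemma nice_avg (f : Cfg n → ℝ) : Nice fun g : Ed n → ℝ => avg β g f := by
  have hs : ContDiff ℝ 1 fun g : Ed n → ℝ => avg β g f := by
    unfold avg av en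
    exact ContDiff.div (by fun_prop) (by fun_prop) fun g => (part_pos (cpl n β) g).ne'
  have hpd : ∀ g e, pd (fun g => avg β g f) g e =
      avg β g (fun x => f x * cpl n β e x) - avg β g f * avg β g (cpl n β e) := by
    intro g e
    have h1 := hasDerivAt_update_pd (hs.differentiable one_ne_zero) g e (g e)
    have h2 := hasDeriv_av (cpl n β) f e g (g e)
    rw [Function.update_eq_self] at h1 h2
    exact h1.unique h2
  set B1 := ∑ x, |f x| with hB1
  set D : Ed n → ℝ := fun e => ∑ x, |f x * cpl n β e x| + B1 * ∑ x, |cpl n β e x|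
  refine ⟨hs, B1 + ∑ e, D e, fun g => ⟨(abs_av_le _ g f).trans (le_add_of_nonneg_right
    (sum_nonneg fun e _ => by positivity)), ?_⟩⟩
  refine le_trans ?_ (le_add_of_nonneg_left (by positivity))
  refine ContinuousLinearMap.opNorm_le_bound _ (sum_nonneg fun e _ => by positivity) fun v => ?_
  conv_lhs => rw [pi_eq_sum_univ' v]
  rw [map_sum, sum_mul]
  refine (norm_sum_le _ _).trans (sum_le_sum fun e _ => ?_)
  rw [map_smul, norm_smul, mul_comm]
  refine mul_le_mul ?_ (norm_le_pi_norm v e) (norm_nonneg _) (by positivity)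
  refine le_trans (le_of_eq ?_) ((abs_sub _ _).trans (add_le_add (abs_av_le _ g _) ?_))
    (b := |avg β g (fun x => f x * cpl n β e x) - avg β g f * avg β g (cpl n β e)|)
  · rw [← hpd, pd, Real.norm_eq_abs]
  · rw [abs_mul]
    exact mul_le_mul (abs_av_le _ g f) (abs_av_le _ g _) (abs_nonneg _) (by positivity)

lemma pd_avg (f : Cfg n → ℝ) (e : Ed n) : pd (fun g => avg β g f) g e =
    avg β g (fun x => f x * cpl n β e x) - avg β g f * avg β g (cpl n β e) := by
  have h1 := hasDerivAt_update_pd (nice_avg β f).differentiable g e (g e)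
  have h2 := hasDeriv_av (cpl n β) f e g (g e)
  rw [Function.update_eq_self] at h1 h2
  exact h1.unique h2

lemma nice_w (p : Ed n) : Nice fun g : Ed n → ℝ => w β g p := by
  simpa [w, div_eq_inv_mul] using (nice_avg β fun x => sp x p.1 * sp x p.2).const_mul (n : ℝ)⁻¹

lemma continuous_avg (f : Cfg n → ℝ) : Continuous fun g : Ed n → ℝ => avg β g f :=
  (nice_avg β f).continuous

/-! ### rows -/

/-- the edge between `i` and `l` -/
abbrev row (i : Fin n) : Fin n → Ed n := mk' i

lemma row_injective (i : Fin n) : Function.Injective (row i) := fun l l' h => by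
  rcases mk'_eq_iff.1 h with ⟨-, h⟩ | ⟨h1, h2⟩
  · exact h
  · exact h2.trans h1

/-- replace row `i` -/
noncomputable def ins (i : Fin n) (g : Ed n → ℝ) (y : Fin n → ℝ) : Ed n → ℝ := ovr (row i) g y

/-- the tilt caused by row `i` -/
noncomputable def tilt (i : Fin n) (y : Fin n → ℝ) (x : Cfg n) : ℝ :=
  ∑ l, y l * if l = i then 0 else β / √n * (sp x i * sp x l)

lemma en_ins (i : Fin n) (y : Fin n → ℝ) (x : Cfg n) :
    en (cpl n β) (ins i g y) x = en (cpl n β) (ins i g 0) x + tilt β i y x := by
  have e : ins i g y = ins i g 0 + ins i 0 y := by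
    rw [ins, ins, ins, ← ovr_add (row_injective i), add_zero, zero_add]
  rw [e]
  simp only [en, Pi.add_apply, add_mul, sum_add_distrib]
  congr 1
  have h : ∀ e ∉ univ.image (row i), ins i 0 y e * cpl n β e x = 0 := fun e he => by
    rw [ins, ovr_of_not _ _ fun k hk => he (mem_image.2 ⟨k, mem_univ _, hk⟩)]
    simp
  rw [← sum_subset (subset_univ (univ.image (row i))) fun e _ he => h e he,
    sum_image fun a _ b _ h => row_injective i h]
  refine sum_congr rfl fun l _ => ?_
  rw [ins, ovr_apply (row_injective i)]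
  congr 1
  split_ifs with hl
  · subst hl
    simp [cpl, mk', pairs]
  · rw [cpl, if_pos (mk'_mem (Ne.symm hl)), X_mk']
    rfl

lemma avg_ins (i : Fin n) (y : Fin n → ℝ) (f : Cfg n → ℝ) :
    avg β (ins i g y) f = avg β (ins i g 0) (fun x => Real.exp (tilt β i y x) * f x) /
      avg β (ins i g 0) (fun x => Real.exp (tilt β i y x)) := by
  simp only [avg, av, en_ins β g i y, Real.exp_add, mul_assoc]
  rw [div_div_div_cancel_right₀ (part_pos (cpl n β) _).ne']

/-- flip of site `i` -/
def flp (i : Fin n) (x : Cfg n) : Cfg n := Function.update x i (!x i)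

lemma flp_flp (i : Fin n) (x : Cfg n) : flp i (flp i x) = x := by simp [flp]

lemma sp_flp_self (i : Fin n) (x : Cfg n) : sp (flp i x) i = -sp x i := by
  simp only [sp, flp, Function.update_self]
  cases x i <;> simp [spin]

lemma sp_flp_ne {i j : Fin n} (h : j ≠ i) (x : Cfg n) : sp (flp i x) j = sp x j := by
  simp [sp, flp, Function.update_of_ne h]

lemma avg_flp (i : Fin n) (f : Cfg n → ℝ) :
    avg β (ins i g 0) (fun x => f (flp i x)) = avg β (ins i g 0) f := by
  have hen : ∀ x, en (cpl n β) (ins i g 0) (flp i x) = en (cpl n β) (ins i g 0) x := by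
    intro x
    refine sum_congr rfl fun e _ => ?_
    by_cases he : ∃ l, row i l = e
    · obtain ⟨l, rfl⟩ := he
      simp [ins, ovr_apply (row_injective i)]
    · push Not at he
      congr 1
      simp only [cpl]
      split_ifs with hp
      · have h1 : e.1 ≠ i := fun h => he e.2 (by
          have hlt : e.1 < e.2 := by simpa [pairs] using hp
          rw [h] at hlt
          simp only [row, mk', if_pos hlt]
          exact Prod.ext h.symm rfl)
        have h2 : e.2 ≠ i := fun h => he e.1 (by
          have hlt : e.1 < e.2 := by simpa [pairs] using hp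
          rw [h] at hlt
          simp only [row, mk', if_neg hlt.not_gt]
          exact Prod.ext rfl h.symm)
        congr 1
        show sp (flp i x) e.1 * sp (flp i x) e.2 = sp x e.1 * sp x e.2
        rw [sp_flp_ne h1, sp_flp_ne h2]
      · rfl
  simp only [avg, av]
  congr 1
  refine Fintype.sum_bijective (flp i) (Function.Involutive.bijective (flp_flp i)) _ _ fun x => ?_
  rw [hen]

lemma tilt_flp (i : Fin n) (y : Fin n → ℝ) (x : Cfg n) :
    tilt β i y (flp i x) = -tilt β i y x := by
  simp only [tilt, ← sum_neg_distrib]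
  refine sum_congr rfl fun l _ => ?_
  split_ifs with h
  · simp
  · rw [sp_flp_self, sp_flp_ne h]; ring

/-- tilting only increases averages of nonnegative flip invariant functions -/
lemma avg_le_tilt (i : Fin n) (y : Fin n → ℝ) {f : Cfg n → ℝ} (h0 : ∀ x, 0 ≤ f x)
    (hf : ∀ x, f (flp i x) = f x) :
    avg β (ins i g 0) f ≤ avg β (ins i g 0) (fun x => Real.exp (tilt β i y x) * f x) := by
  have h1 : avg β (ins i g 0) (fun x => Real.exp (tilt β i y x) * f x) =
      avg β (ins i g 0) (fun x => Real.exp (-tilt β i y x) * f x) := by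
    rw [← avg_flp β g i]
    simp only [tilt_flp, hf]
  have h2 : avg β (ins i g 0) (fun x => 2 * f x) ≤
      avg β (ins i g 0) (fun x => Real.exp (tilt β i y x) * f x + Real.exp (-tilt β i y x) * f x) := by
    refine avg_mono _ _ fun x => ?_
    rw [← add_mul]
    refine mul_le_mul_of_nonneg_right ?_ (h0 x)
    linarith [Real.one_le_cosh (tilt β i y x), Real.cosh_eq (tilt β i y x)]
  rw [avg_const_mul, avg_add, ← h1] at h2
  linarith

lemma one_le_part (i : Fin n) (y : Fin n → ℝ) :
    1 ≤ avg β (ins i g 0) (fun x => Real.exp (tilt β i y x)) := by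
  have h := avg_le_tilt β g i y (f := fun _ => 1) (fun _ => zero_le_one) (fun _ => rfl)
  simpa [avg_const] using h

lemma quad_flp (i : Fin n) (Z : Ed n → ℝ) (x : Cfg n) : quad i Z (flp i x) = quad i Z x := by
  refine sum_congr rfl fun p _ => ?_
  unfold msk
  split_ifs with h
  · simp
  · push Not at h
    rw [sp_flp_ne h.1, sp_flp_ne h.2]

variable (i : Fin n) (y : Fin n → ℝ) (f : Cfg n → ℝ)

/-- second exponential moment of the tilt -/
noncomputable def tlt2 : ℝ := avg β (ins i g 0) fun x => Real.exp (tilt β i y x) ^ 2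

lemma gvar_zero_le (hf : ∀ x, f (flp i x) = f x) :
    gvar β (ins i g 0) f ≤
      avg β (ins i g 0) (fun x => Real.exp (tilt β i y x)) * gvar β (ins i g y) f := by
  set c := avg β (ins i g y) f
  have hZ := one_le_part β g i y
  refine (gvar_le β _ f c).trans ((avg_le_tilt β g i y (fun x => sq_nonneg _)
    fun x => by rw [hf]).trans (le_of_eq ?_))
  rw [gvar, avg_ins β g i y (fun x => (f x - avg β (ins i g y) f) ^ 2)]
  field_simp
  rfl

lemma abs_tilt_sub_le :
    |avg β (ins i g y) f - avg β (ins i g 0) f| ≤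
      √(tlt2 β g i y) * √(gvar β (ins i g 0) f) := by
  have hZ := one_le_part β g i y
  set c := avg β (ins i g 0) f
  have e : avg β (ins i g y) f - c =
      avg β (ins i g 0) (fun x => Real.exp (tilt β i y x) * (f x - c)) /
        avg β (ins i g 0) (fun x => Real.exp (tilt β i y x)) := by
    rw [avg_ins]
    simp only [mul_sub, avg_sub, mul_comm _ c, avg_const_mul]
    field_simp
  rw [e, abs_div, abs_of_pos (show 0 < avg β (ins i g 0) (fun x => Real.exp (tilt β i y x)) by linarith)]
  exact (div_le_self (abs_nonneg _) hZ).trans (avg_cauchy β _ _ _)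

lemma gvar_tilt_le {B : ℝ} (hB : ∀ x, |f x| ≤ B) :
    gvar β (ins i g y) f ≤ 2 * B * (√(tlt2 β g i y) * √(gvar β (ins i g 0) f)) := by
  have hB0 : 0 ≤ B := (abs_nonneg _).trans (hB fun _ => true)
  have hZ := one_le_part β g i y
  set c := avg β (ins i g 0) f with hc
  refine (gvar_le β _ f c).trans ?_
  rw [avg_ins β g i y (fun x => (f x - c) ^ 2)]
  refine (div_le_self (avg_nonneg _ _ fun x => by positivity) hZ).trans ?_
  have h := avg_cauchy β (ins i g 0) (fun x => Real.exp (tilt β i y x))
    (fun x => (f x - c) ^ 2)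
  refine ((le_abs_self _).trans h).trans ?_
  rw [mul_left_comm (2 * B)]
  refine mul_le_mul_of_nonneg_left ?_ (Real.sqrt_nonneg _)
  calc √(avg β (ins i g 0) fun x => ((f x - c) ^ 2) ^ 2)
      ≤ √(avg β (ins i g 0) fun x => (2 * B) ^ 2 * (f x - c) ^ 2) := by
        refine Real.sqrt_le_sqrt (avg_mono _ _ fun x => ?_)
        rw [sq ((f x - c) ^ 2)]
        refine mul_le_mul_of_nonneg_right ?_ (sq_nonneg _)
        rw [← sq_abs]
        refine pow_le_pow_left₀ (abs_nonneg _) ?_ 2
        linarith [abs_sub (f x) c, hB x, abs_avg_le β (ins i g 0) hB]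
    _ = 2 * B * √(gvar β (ins i g 0) f) := by
        rw [avg_const_mul, Real.sqrt_mul (sq_nonneg _), Real.sqrt_sq (by positivity)]
        rfl

/-! ### Gaussian averages of the tilt -/

lemma integral_exp_tilt_le (t : ℝ) (x : Cfg n) :
    Integrable (fun y => Real.exp (t * tilt β i y x)) (stdPi (Fin n)) ∧
    ∫ y, Real.exp (t * tilt β i y x) ∂stdPi (Fin n) ≤ Real.exp (t ^ 2 * β ^ 2 / 2) := by
  set d : Fin n → ℝ := fun l => if l = i then 0 else t * (β / √n) * (sp x i * sp x l)
  have e : ∀ y, t * tilt β i y x = ∑ l, y l * d l := fun y => by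
    rw [tilt, mul_sum]
    refine sum_congr rfl fun l _ => ?_
    simp only [d]
    split_ifs <;> ring
  simp only [e]
  refine ⟨(mgf_lin d).1, ?_⟩
  rw [(mgf_lin d).2, Real.exp_le_exp]
  have hn : (0 : ℝ) < n := by exact_mod_cast i.pos
  refine div_le_div_of_nonneg_right ?_ two_pos.le
  calc ∑ l, d l ^ 2 ≤ ∑ _l : Fin n, t ^ 2 * (β ^ 2 / n) := sum_le_sum fun l _ => by
        simp only [d]
        split_ifs
        · simp only [ne_eq, OfNat.ofNat_ne_zero, not_false_eq_true, zero_pow]; positivity
        · refine le_of_eq ?_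
          rw [mul_pow, mul_pow, div_pow, Real.sq_sqrt hn.le, mul_pow, sq (sp x i), sq (sp x l),
            sp_sq, sp_sq]
          ring
    _ = t ^ 2 * β ^ 2 := by simp; field_simp

lemma integral_avg_exp_le (t : ℝ) :
    Integrable (fun y => avg β (ins i g 0) fun x => Real.exp (t * tilt β i y x)) (stdPi (Fin n)) ∧
    ∫ y, (avg β (ins i g 0) fun x => Real.exp (t * tilt β i y x)) ∂stdPi (Fin n) ≤
      Real.exp (t ^ 2 * β ^ 2 / 2) := by
  have hi : ∀ x ∈ (univ : Finset (Cfg n)), Integrable (fun y =>
      Real.exp (en (cpl n β) (ins i g 0) x) * Real.exp (t * tilt β i y x)) (stdPi (Fin n)) :=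
    fun x _ => (integral_exp_tilt_le β i t x).1.const_mul _
  refine ⟨(integrable_finsetSum _ hi).div_const _, ?_⟩
  simp only [avg, av]
  rw [integral_div, integral_finsetSum _ hi, div_le_iff₀ (part_pos (cpl n β) _), mul_sum]
  refine sum_le_sum fun x _ => ?_
  rw [integral_const_mul, mul_comm]
  exact mul_le_mul_of_nonneg_right (integral_exp_tilt_le β i t x).2 (Real.exp_pos _).le

lemma integral_tlt2_le :
    Integrable (fun y => tlt2 β g i y) (stdPi (Fin n)) ∧
    ∫ y, tlt2 β g i y ∂stdPi (Fin n) ≤ Real.exp (2 * β ^ 2) := by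
  have h := integral_avg_exp_le β g i 2
  have e : ∀ y, tlt2 β g i y = avg β (ins i g 0) fun x => Real.exp (2 * tilt β i y x) := fun y => by
    rw [tlt2]
    congr 1
    funext x
    rw [← Real.exp_nat_mul]
    norm_num
  simp only [e]
  refine ⟨h.1, h.2.trans (le_of_eq ?_)⟩
  congr 1; ring

lemma gvar_zero_le_integral (hf : ∀ x, f (flp i x) = f x) {B : ℝ} (hB : ∀ x, |f x| ≤ B) :
    gvar β (ins i g 0) f ≤
      Real.exp (β ^ 2 / 2) * ∫ y, gvar β (ins i g y) f ∂stdPi (Fin n) := by
  set V0 := gvar β (ins i g 0) f with hV0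
  set Z : (Fin n → ℝ) → ℝ := fun y => avg β (ins i g 0) fun x => Real.exp (tilt β i y x) with hZdef
  have hV : 0 ≤ V0 := gvar_nonneg _ _ _
  have hZ := integral_avg_exp_le β g i 1
  simp only [one_mul, one_pow] at hZ
  have hcV : Continuous fun y => gvar β (ins i g y) f := by
    simp only [gvar_eq]
    have hc : ∀ F, Continuous fun y => avg β (ins i g y) F := fun F =>
      (continuous_avg β F).comp ((continuous_ovr (row_injective i)).comp
        (continuous_const.prodMk continuous_id))
    exact (hc _).sub ((hc _).mul (hc _))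
  have hiV : Integrable (fun y => gvar β (ins i g y) f) (stdPi (Fin n)) := by
    refine integrable_bdd hcV (B := (B + B) ^ 2) fun y => ?_
    rw [abs_of_nonneg (gvar_nonneg _ _ _), gvar]
    refine (avg_mono _ _ fun x => ?_).trans (avg_const _ _ _).le
    rw [← sq_abs]
    exact pow_le_pow_left₀ (abs_nonneg _)
      ((abs_sub _ _).trans (add_le_add (hB x) (abs_avg_le _ _ hB))) 2
  set E := Real.exp (β ^ 2 / 2) with hE
  set t := √V0 / E with ht
  have hI := integral_mono (μ := stdPi (Fin n)) (f := fun _ => 2 * t * √V0)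
    (integrable_const _) ((hZ.1.const_mul (t ^ 2)).add hiV) fun y => by
      have h := gvar_zero_le β g i y f hf
      have hz : 0 ≤ Z y := zero_le_one.trans (one_le_part β g i y)
      have hv := gvar_nonneg β (ins i g y) f
      simp only [Pi.add_apply]
      have h1 : √V0 ≤ √(Z y) * √(gvar β (ins i g y) f) := by
        rw [← Real.sqrt_mul hz]; exact Real.sqrt_le_sqrt h
      have h2 := sq_nonneg (t * √(Z y) - √(gvar β (ins i g y) f))
      have ht0 : 0 ≤ t := by positivity
      nlinarith [Real.mul_self_sqrt hz, Real.mul_self_sqrt hv,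
        mul_le_mul_of_nonneg_left h1 (mul_nonneg two_pos.le ht0)]
  simp only [Pi.add_apply] at hI
  rw [integral_const, integral_add (hZ.1.const_mul _) hiV, integral_const_mul] at hI
  simp only [smul_eq_mul, probReal_univ, one_mul] at hI
  have hE0 : 0 < E := Real.exp_pos _
  have h3 := mul_le_mul_of_nonneg_left hZ.2 (sq_nonneg t)
  have h4 : 2 * t * √V0 = 2 * (V0 / E) := by
    rw [ht]; field_simp; rw [Real.sq_sqrt hV]
  have h5 : t ^ 2 * E = V0 / E := by rw [ht, div_pow, Real.sq_sqrt hV]; field_simp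
  rw [h4] at hI
  rw [h5] at h3
  have h6 : V0 / E ≤ ∫ y, gvar β (ins i g y) f ∂stdPi (Fin n) := by linarith
  rw [div_le_iff₀ hE0] at h6
  linarith

/-! ### the covariance bound -/

/-- **Stein-Bessel bound on averaged thermal covariances.** -/
theorem integral_gvar_quad_le (hβ : 0 < β) (b : Ed n → ℝ) {r : ℝ} (h0 : 0 ≤ r) (h1 : r < 1)
    (Z : Ed n → ℝ) :
    ∫ z, gvar β (sys r b z) (quad i Z) ∂stdPi (Ed n) ≤
      ip Z Z * √(2 / (β ^ 2 * n * (1 - r))) := by
  have hn : (0 : ℝ) < n := by exact_mod_cast i.pos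
  set S : Ed n → Cfg n → ℝ := fun p x => sp x p.1 * sp x p.2 with hS
  set cv : Ed n → Ed n → (Ed n → ℝ) → ℝ := fun p q z => (avg β (sys r b z) (fun x => S p x * S q x)
    - avg β (sys r b z) (S p) * avg β (sys r b z) (S q)) / (n : ℝ) ^ 2 with hcv
  have hcont : ∀ f, Continuous fun z => avg β (sys r b z) f := fun f =>
    (continuous_avg β f).comp ((continuous_sys r).comp (continuous_const.prodMk continuous_id))
  have hcvi : ∀ p q, Integrable (cv p q) (stdPi (Ed n)) := by
    intro p q
    refine integrable_bdd (((hcont _).sub ((hcont _).mul (hcont _))).div_const _) (B := 2 / (n:ℝ)^2)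
      fun z => ?_
    have ha : ∀ f : Cfg n → ℝ, (∀ x, |f x| = 1) → |avg β (sys r b z) f| ≤ 1 := fun f hf =>
      abs_avg_le _ _ fun x => (hf x).le
    rw [abs_div, abs_pow, Nat.abs_cast]
    refine div_le_div_of_nonneg_right ((abs_sub _ _).trans ?_) (by positivity)
    rw [abs_mul]
    have h1 := ha (fun x => S p x * S q x) fun x => by simp [hS, abs_mul, abs_sp]
    have h2 := mul_le_one₀ (ha (S p) fun x => by simp [hS, abs_mul, abs_sp]) (abs_nonneg _)
      (ha (S q) fun x => by simp [hS, abs_mul, abs_sp])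
    linarith
  set M : Ed n → Ed n → ℝ := fun p q => ∫ z, cv p q z ∂stdPi (Ed n) with hM
  have hsum : ∫ z, gvar β (sys r b z) (quad i Z) ∂stdPi (Ed n) =
      ∑ p, ∑ q, (Z p * msk i p) * (Z q * msk i q) * M p q := by
    have e : ∀ z, gvar β (sys r b z) (quad i Z) =
        ∑ p, ∑ q, (Z p * msk i p) * (Z q * msk i q) * cv p q z := by
      intro z
      have hq : quad i Z = fun x => ∑ p, Z p * msk i p / n * S p x := by
        funext x; exact sum_congr rfl fun p _ => by rw [hS]; ring
      rw [gvar_eq, hq]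
      simp only [sum_mul_sum, avg_sum, avg_const_mul]
      simp only [← sum_sub_distrib]
      refine sum_congr rfl fun p _ => sum_congr rfl fun q _ => ?_
      rw [show (fun x => Z p * msk i p / n * S p x * (Z q * msk i q / n * S q x)) =
        fun x => Z p * msk i p / n * (Z q * msk i q / n) * (S p x * S q x) by funext x; ring,
        avg_const_mul, hcv]
      ring
    simp only [e]
    rw [integral_finsetSum _ fun p _ => integrable_finsetSum _ fun q _ => (hcvi p q).const_mul _]
    refine sum_congr rfl fun p _ => ?_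
    rw [integral_finsetSum _ fun q _ => (hcvi p q).const_mul _]
    exact sum_congr rfl fun q _ => integral_const_mul _ _
  set K := 2 / (β ^ 2 * n * (1 - r)) with hK
  have hr : 0 < 1 - r := by linarith
  have hM2 : ∑ p, ∑ q, M p q ^ 2 ≤ K := by
    have hb : ∀ p, (1 - r) * β ^ 2 * n * ∑ e ∈ pairs n, M p e ^ 2 ≤
        ∫ z, w β (sys r b z) p ^ 2 ∂stdPi (Ed n) := by
      intro p
      let L : (Ed n → ℝ) →L[ℝ] (Ed n → ℝ) := √(1 - r) • .id ℝ _
      have hsys : ∀ z, L z + √r • b = sys r b z := fun z => by simp [L, sys, add_comm]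
      have hF : Nice fun z => w β (L z + √r • b) p := (nice_w β p).comp_affine L _
      have hpd : ∀ z, ∀ e ∈ pairs n, pd (fun z => w β (L z + √r • b) p) z e =
          √(1 - r) * (β / √n) * (n : ℝ) * cv p e z := by
        intro z e he
        have hd : HasFDerivAt (fun z => w β (L z + √r • b) p)
            ((fderiv ℝ (fun g => w β g p) (L z + √r • b)).comp L) z :=
          ((nice_w β p).differentiable _).hasFDerivAt.comp z (L.hasFDerivAt.add_const _)
        rw [pd, hd.fderiv, ContinuousLinearMap.comp_apply,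
          show L (Pi.single e 1) = √(1 - r) • Pi.single e 1 by simp [L], map_smul, hsys,
          smul_eq_mul]
        have hw : (fun g => w β g p) = fun g => (n : ℝ)⁻¹ * avg β g (S p) := by
          funext g; rw [w, hS]; ring
        have hpdw : fderiv ℝ (fun g => w β g p) (sys r b z) (Pi.single e 1) =
            (n : ℝ)⁻¹ * pd (fun g => avg β g (S p)) (sys r b z) e := by
          rw [hw, fderiv_const_mul ((nice_avg β (S p)).differentiable _)]
          rfl
        rw [hpdw, pd_avg, hcv]
        have hc : cpl n β e = fun x => β / √n * S e x := by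
          funext x; simp [cpl, he, X, hS, sp]
        rw [hc, show (fun x => S p x * (β / √n * S e x)) = fun x => β / √n * (S p x * S e x) by
          funext x; ring, avg_const_mul, avg_const_mul]
        field_simp
      refine le_trans ?_ ((stein_bessel hF).trans (le_of_eq (by simp only [hsys])))
      rw [mul_sum]
      refine le_trans (sum_le_sum fun e he => ?_)
        (sum_le_sum_of_subset_of_nonneg (subset_univ (pairs n)) fun e _ _ => sq_nonneg _)
      rw [integral_congr_ae (ae_of_all _ fun z => hpd z e he), integral_const_mul]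
      refine le_of_eq ?_
      rw [show ∫ z, cv p e z ∂stdPi (Ed n) = M p e from rfl, mul_pow, mul_pow, mul_pow, div_pow,
        Real.sq_sqrt hr.le, Real.sq_sqrt hn.le]
      field_simp
    have hswap : ∀ p q, M p (q.2, q.1) = M p q := by
      intro p q
      simp only [hM, hcv, hS]
      refine integral_congr_ae (ae_of_all _ fun z => ?_)
      simp only [mul_comm (sp _ q.2)]
    have hdiag : ∀ p (k : Fin n), M p (k, k) = 0 := by
      intro p k
      simp [hM, hcv, hS, sp_sq, avg_const]
    have hsplit : ∀ p, ∑ q, M p q ^ 2 = 2 * ∑ e ∈ pairs n, M p e ^ 2 := by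
      intro p
      have h3 : ∀ q : Ed n, M p q ^ 2 = (if q.1 < q.2 then M p q ^ 2 else 0) +
          (if q.2 < q.1 then M p (q.2, q.1) ^ 2 else 0) := by
        intro q
        rcases lt_trichotomy q.1 q.2 with h | h | h
        · simp [h, h.not_gt]
        · obtain ⟨a, c⟩ := q
          simp only at h
          subst h
          simp [hdiag]
        · simp [h, h.not_gt, hswap]
      rw [sum_congr rfl fun q _ => h3 q, sum_add_distrib, two_mul]
      refine congrArg₂ (· + ·) (by rw [pairs, sum_filter]) ?_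
      rw [pairs, sum_filter]
      exact Fintype.sum_equiv (Equiv.prodComm _ _) _ _ fun q => rfl
    rw [sum_congr rfl fun p _ => hsplit p, ← mul_sum]
    have h4 : (1 - r) * β ^ 2 * n * ∑ p, ∑ e ∈ pairs n, M p e ^ 2 ≤ 1 := by
      rw [mul_sum]
      refine (sum_le_sum fun p _ => hb p).trans ?_
      rw [← integral_finsetSum _ fun p _ => ?_]
      · refine (integral_mono_of_nonneg (ae_of_all _ fun z => sum_nonneg fun p _ => sq_nonneg _)
          (integrable_const 1) (ae_of_all _ fun z => ?_)).trans (by simp)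
        exact le_trans (le_of_eq (sum_congr rfl fun p _ => sq _)) (ip_w_self_le β _)
      · refine integrable_bdd (((nice_w β p).continuous.comp ((continuous_sys r).comp
          (continuous_const.prodMk continuous_id))).pow 2) (B := ((n : ℝ)⁻¹) ^ 2) fun z => ?_
        rw [abs_pow]
        exact pow_le_pow_left₀ (abs_nonneg _) (abs_w_le β _ p) 2
    rw [hK, le_div_iff₀ (by positivity)]
    nlinarith
  rw [hsum, ← Fintype.sum_prod_type (f := fun pq : Ed n × Ed n =>
    Z pq.1 * msk i pq.1 * (Z pq.2 * msk i pq.2) * M pq.1 pq.2)]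
  refine (le_abs_self _).trans ((abs_ip_le (fun pq : Ed n × Ed n =>
    Z pq.1 * msk i pq.1 * (Z pq.2 * msk i pq.2)) fun pq => M pq.1 pq.2).trans ?_)
  refine mul_le_mul ?_ (Real.sqrt_le_sqrt ?_) (Real.sqrt_nonneg _)
    (sum_nonneg fun p _ => mul_self_nonneg _)
  · rw [Real.sqrt_le_iff]
    refine ⟨sum_nonneg fun p _ => mul_self_nonneg _, ?_⟩
    simp only [ip, sq, sum_mul_sum]
    rw [Fintype.sum_prod_type]
    refine sum_le_sum fun p _ => sum_le_sum fun q _ => ?_
    have h1 : msk i p * msk i q ≤ 1 := mul_le_one₀ (msk_le_one i p) (msk_nonneg i q) (msk_le_one i q)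
    have h2 : Z p * msk i p * (Z q * msk i q) * (Z p * msk i p * (Z q * msk i q)) =
        Z p * Z p * (Z q * Z q) * ((msk i p * msk i p) * (msk i q * msk i q)) := by ring
    rw [h2, msk_mul_self, msk_mul_self]
    exact mul_le_of_le_one_right (mul_nonneg (mul_self_nonneg _) (mul_self_nonneg _)) h1
  · refine le_trans (le_of_eq ?_) hM2
    simp only [ip, Fintype.sum_prod_type, sq]

end Vale.Agent.P146.Chaos
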