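import Vale.Agent.P146.Chaos.Repl

/-! # P146: the identity of one site -/

namespace Vale.Agent.P146.Chaos

open Finset MeasureTheory ProbabilityTheory
open Vale.Agent.P150 Vale.Agent.P150.Slow

set_option linter.unusedSectionVars false

variable {n : ℕ}

lemma abs_integral_sub_le {α : Type*} [MeasurableSpace α] {μ : Measure α} {f g : α → ℝ}
    (hf : Integrable f μ) (hg : Integrable g μ) :
    |∫ a, f a ∂μ - ∫ a, g a ∂μ| ≤ ∫ a, |f a - g a| ∂μ := by
  rw [← integral_sub hf hg]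
  exact abs_integral_le_integral_abs

lemma cont_int {α γ : Type*} [TopologicalSpace α] [FirstCountableTopology α] [TopologicalSpace γ]
    [MeasurableSpace γ] [OpensMeasurableSpace γ] [SecondCountableTopology γ] {ν : Measure γ}
    [IsFiniteMeasure ν] {F : α × γ → ℝ} (hF : Continuous F) {B : ℝ} (hB : ∀ x, |F x| ≤ B) :
    Continuous fun a => ∫ x, F (a, x) ∂ν :=
  continuous_of_dominated (bound := fun _ => B)
    (fun a => (hF.comp (continuous_const.prodMk continuous_id)).aestronglyMeasurable)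
    (fun a => ae_of_all _ fun x => hB _) (integrable_const _)
    (ae_of_all _ fun x => hF.comp (continuous_id.prodMk continuous_const))

/-- a continuous map with the right integrals preserves measure -/
lemma mp_of_integral {α γ : Type*} [TopologicalSpace α] [MeasurableSpace α] [BorelSpace α]
    [TopologicalSpace γ] [MeasurableSpace γ] [BorelSpace γ] [HasOuterApproxClosed γ]
    {μ : Measure α} {ν : Measure γ} [IsFiniteMeasure μ] [IsFiniteMeasure ν] {f : α → γ}
    (hf : Continuous f) (h : ∀ F : γ → ℝ, Continuous F → ∫ a, F (f a) ∂μ = ∫ x, F x ∂ν) :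
    MeasurePreserving f μ ν := by
  refine ⟨hf.measurable, ?_⟩
  have : IsFiniteMeasure (μ.map f) := Measure.isFiniteMeasure_map μ f
  refine ext_of_forall_integral_eq_of_IsFiniteMeasure fun F => ?_
  rw [integral_map hf.measurable.aemeasurable F.continuous.aestronglyMeasurable]
  exact h F F.continuous

section Two

variable {Θ : Type} [TopologicalSpace Θ] [MeasurableSpace Θ] [BorelSpace Θ]
  [SecondCountableTopology Θ] (P : Measure Θ) [IsProbabilityMeasure P]
  {β : ℝ} (hβ : 0 < β) (i : Fin n) (b : Fin 4 → Ed n → ℝ) (rr : Fin 4 → ℝ) {ε : ℝ} (hε : 0 < ε)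
  (h0 : ∀ S, 0 ≤ rr S) (hr : ∀ S, rr S ≤ 1 - ε) (Y : Fin 4 → Θ → Fin n → ℝ)
  (hY : ∀ S, Continuous (Y S)) (hmp : ∀ S, MeasurePreserving (Y S) P (stdPi (Fin n)))

include hβ hε h0 hr hY hmp in
/-- two systems at once -/
lemma two_repl {S T : Fin 4} (hST : S ≠ T) (F F' : (Ed n → ℝ) → Ed n → ℝ) (hF : Continuous F)
    (hF' : Continuous F') (hFb : ∀ v, ip v v ≤ 1 → ip (F v) (F v) ≤ 1)
    (hFb' : ∀ v, ip v v ≤ 1 → ip (F' v) (F' v) ≤ 1) (hadj : ∀ u v, ip u (F v) = ip v (F' u)) :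
    ∫ q, |ip (w β (gS i (b S) (rr S) S (Y S) q)) (F (w β (gS i (b T) (rr T) T (Y T) q))) -
        ip (wq β i (g0 i (b S) (rr S) S q.2)) (F (wq β i (g0 i (b T) (rr T) T q.2)))|
      ∂P.prod (stdPi (Fin 4 × Ed n)) ≤ 2 * (kap β n ε + √(2 / n)) := by
  set μ := P.prod (stdPi (Fin 4 × Ed n))
  set g := fun q => gS i (b S) (rr S) S (Y S) q
  set h := fun q => gS i (b T) (rr T) T (Y T) q
  have hgc : Continuous g := cont_gS i (b S) S (hY S)
  have hhc : Continuous h := cont_gS i (b T) T (hY T)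
  have hg0 : Continuous fun q : Θ × (Fin 4 × Ed n → ℝ) => g0 i (b S) (rr S) S q.2 :=
    (cont_g0 i (b S) (rr S) S).comp continuous_snd
  have hh0 : Continuous fun q : Θ × (Fin 4 × Ed n → ℝ) => g0 i (b T) (rr T) T q.2 :=
    (cont_g0 i (b T) (rr T) T).comp continuous_snd
  set Z1 := fun q => F (w β (h q)) with hZ1
  set Z2 := fun q : Θ × (Fin 4 × Ed n → ℝ) => F' (wq β i (g0 i (b S) (rr S) S q.2)) with hZ2
  have hZ1c : Continuous Z1 := hF.comp (cont_w β hhc)
  have hZ2c : Continuous Z2 := hF'.comp (cont_wq β i hg0)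
  have b1 : ∀ q, ip (Z1 q) (Z1 q) ≤ 1 := fun q => hFb _ (ip_w_self_le β _)
  have b2 : ∀ q, ip (Z2 q) (Z2 q) ≤ 1 := fun q => hFb' _ (ip_wq_self_le β _ i)
  have h1 := repl_w P hβ i (b S) (h0 S) hε (hr S) S (hY S) (hmp S) hZ1c b1
    (fun θ z v => by simp only [hZ1, h, gS, blk_upd_ne hST.symm])
  have h2 := repl_w P hβ i (b T) (h0 T) hε (hr T) T (hY T) (hmp T) hZ2c b2
    (fun θ z v => by simp only [hZ2, g0_upd_ne i _ _ hST])
  have hb : ∀ {Z : Ed n → ℝ}, ip Z Z ≤ 1 → ∀ g g', |ip Z (w β g) - ip Z (wq β i g')| ≤ 2 :=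
    fun hZ g g' => (abs_sub _ _).trans (by
      linarith [abs_ip_le_one hZ (ip_w_self_le β g), abs_ip_le_one hZ (ip_wq_self_le β g' i)])
  have i1 : Integrable (fun q => |ip (Z1 q) (w β (g q)) -
      ip (Z1 q) (wq β i (g0 i (b S) (rr S) S q.2))|) μ :=
    integrable_bdd2 ((cont_ip hZ1c (cont_w β hgc)).sub (cont_ip hZ1c (cont_wq β i hg0))).abs
      (B := 2) fun q => by rw [abs_abs]; exact hb (b1 q) _ _
  have i2 : Integrable (fun q => |ip (Z2 q) (w β (h q)) -
      ip (Z2 q) (wq β i (g0 i (b T) (rr T) T q.2))|) μ :=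
    integrable_bdd2 ((cont_ip hZ2c (cont_w β hhc)).sub (cont_ip hZ2c (cont_wq β i hh0))).abs
      (B := 2) fun q => by rw [abs_abs]; exact hb (b2 q) _ _
  refine (integral_mono_of_nonneg (ae_of_all _ fun q => abs_nonneg _) (i1.add i2)
    (ae_of_all _ fun q => ?_)).trans ?_
  · simp only [Pi.add_apply, hZ1, hZ2, g, h]
    refine (abs_sub_le _ (ip (wq β i (g0 i (b S) (rr S) S q.2))
      (F (w β (gS i (b T) (rr T) T (Y T) q)))) _).trans (le_of_eq ?_)
    set a := wq β i (g0 i (b S) (rr S) S q.2)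
    set u := w β (gS i (b S) (rr S) S (Y S) q)
    set v := w β (gS i (b T) (rr T) T (Y T) q)
    set c := wq β i (g0 i (b T) (rr T) T q.2)
    rw [ip_comm (F v) u, ip_comm (F v) a, ip_comm (F' a) v, ip_comm (F' a) c, ← hadj, ← hadj]
  · simp only [Pi.add_apply]
    rw [integral_add i1 i2]
    linarith

include hβ hε h0 hr hY hmp in
lemma two_ovl {S T : Fin 4} (hST : S ≠ T) :
    ∫ q, |ovl β (gS i (b S) (rr S) S (Y S) q) (gS i (b T) (rr T) T (Y T) q) -
        ip (wq β i (g0 i (b S) (rr S) S q.2)) (wq β i (g0 i (b T) (rr T) T q.2))|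
      ∂P.prod (stdPi (Fin 4 × Ed n)) ≤ 2 * (kap β n ε + √(2 / n)) :=
  two_repl P hβ i b rr hε h0 hr Y hY hmp hST id id continuous_id continuous_id
    (fun _ h => h) (fun _ h => h) fun u v => ip_comm u v

end Two

section Pair

variable {β : ℝ} (hβ : 0 < β) (i : Fin n) (b : Fin 4 → Ed n → ℝ) (rr : Fin 4 → ℝ) {ε : ℝ}
  (hε : 0 < ε) (h0 : ∀ S, 0 ≤ rr S) (hr : ∀ S, rr S ≤ 1 - ε) {V : Ed n → Ed n → ℝ}
  (hV : ∑ p, ip (V p) (V p) ≤ 1)

include hβ hε h0 hr hV in
/-- the exchange of row derivatives for susceptibilities, at correlation `u` -/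
lemma pair_exchange {u : ℝ} (hu : u ^ 2 ≤ 1) :
    ∫ q, |bil V (wq β i (g0 i (b 0) (rr 0) (0 : Fin 4) q.2)) (wq β i (g0 i (b 1) (rr 1) 1 q.2)) *
          ip (wq β i (g0 i (b 0) (rr 0) 0 q.2)) (wq β i (g0 i (b 2) (rr 2) 2 q.2)) *
          ip (wq β i (g0 i (b 1) (rr 1) 1 q.2)) (wq β i (g0 i (b 3) (rr 3) 3 q.2)) *
          ip (uu β i (ins i (g0 i (b 0) (rr 0) 0 q.2) q.1.1))
            (uu β i (ins i (g0 i (b 1) (rr 1) 1 q.2) (rot u q.1.1 q.1.2))) -
        bil V (wq β i (g0 i (b 0) (rr 0) 0 q.2)) (wq β i (g0 i (b 1) (rr 1) 1 q.2)) *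
          ip (wq β i (g0 i (b 0) (rr 0) 0 q.2)) (wq β i (g0 i (b 1) (rr 1) 1 q.2)) *
          chi β i (ins i (g0 i (b 0) (rr 0) 0 q.2) q.1.1) (g0 i (b 2) (rr 2) 2 q.2) *
          chi β i (ins i (g0 i (b 1) (rr 1) 1 q.2) (rot u q.1.1 q.1.2)) (g0 i (b 3) (rr 3) 3 q.2)|
      ∂((stdPi (Fin n)).prod (stdPi (Fin n))).prod (stdPi (Fin 4 × Ed n)) ≤
      208 * √(kap β n ε) + 10 * kap β n ε := by
  set P := (stdPi (Fin n)).prod (stdPi (Fin n))
  set μ := P.prod (stdPi (Fin 4 × Ed n))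
  set yg : (Fin n → ℝ) × (Fin n → ℝ) → Fin n → ℝ := fun q => q.1
  set yh : (Fin n → ℝ) × (Fin n → ℝ) → Fin n → ℝ := fun q => rot u q.1 q.2
  have cg : Continuous yg := continuous_fst
  have ch : Continuous yh := by unfold yh rot; fun_prop
  have mg : MeasurePreserving yg P (stdPi (Fin n)) := measurePreserving_fst
  have mh : MeasurePreserving yh P (stdPi (Fin n)) :=
    mp_of_integral ch fun F hF => integral_rot_snd hu hF
  set G := fun q => gS i (b 0) (rr 0) (0 : Fin 4) yg q with hG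
  set H := fun q => gS i (b 1) (rr 1) (1 : Fin 4) yh q with hH
  have hGc : Continuous G := cont_gS i (b 0) 0 cg
  have hHc : Continuous H := cont_gS i (b 1) 1 ch
  set O := fun (S : Fin 4) (q : ((Fin n → ℝ) × (Fin n → ℝ)) × (Fin 4 × Ed n → ℝ)) =>
    g0 i (b S) (rr S) S q.2 with hO
  have hOc : ∀ S, Continuous (O S) := fun S => (cont_g0 i (b S) (rr S) S).comp continuous_snd
  have inv : ∀ {S T : Fin 4}, S ≠ T → ∀ θ z v, O S (θ, upd T z v) = O S (θ, z) :=
    fun h θ z v => by simp only [hO, g0_upd_ne i _ _ h]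
  -- the two exchanges
  have R1 := rank_one_avg i P hβ (b 0) (h0 0) hε (hr 0) (0 : Fin 4) cg mg
    (fun (a : Cfg n × Cfg n) q => pw β (H q) a.1 * pw β (H q) a.2) (fun a q => pw β (O 2 q) a)
    (dv i) (tv i)
    (fun a => ((continuous_pw β a.1).comp hHc).mul ((continuous_pw β a.2).comp hHc))
    (fun a => (continuous_pw β a).comp (hOc 2))
    (fun a q => mul_nonneg (pw_nonneg β _ _) (pw_nonneg β _ _)) (fun a q => pw_nonneg β _ _)
    (fun q => by simp only [Fintype.sum_prod_type]; rw [← sum_mul_sum, sum_pw, one_mul])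
    (fun q => sum_pw β _)
    (fun a θ z v => by simp only [hH, gS, blk_upd_ne (show (1 : Fin 4) ≠ 0 by decide)])
    (fun a θ z v => by simp only [inv (show (2 : Fin 4) ≠ 0 by decide)])
    (dv_self i) (tv_self i) (sum_dv_sq i) (sum_tv_sq i)
  have R2 := rank_one_avg i P hβ (b 1) (h0 1) hε (hr 1) (1 : Fin 4) ch mh
    (fun (a : Cfg n) q => pw β (G q) a) (fun a q => pw β (O 3 q) a) (tv i) (tv i)
    (fun a => (continuous_pw β a).comp hGc) (fun a => (continuous_pw β a).comp (hOc 3))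
    (fun a q => pw_nonneg β _ _) (fun a q => pw_nonneg β _ _) (fun q => sum_pw β _)
    (fun q => sum_pw β _)
    (fun a θ z v => by simp only [hG, gS, blk_upd_ne (show (0 : Fin 4) ≠ 1 by decide)])
    (fun a θ z v => by simp only [inv (show (3 : Fin 4) ≠ 1 by decide)])
    (tv_self i) (tv_self i) (sum_tv_sq i) (sum_tv_sq i)
  simp only [← uu_eq_mat, ← wq_eq_mat] at R1 R2
  -- the replacements
  have E1 := repl_wq P hβ i (b 0) (h0 0) hε (hr 0) (0 : Fin 4) cg mg
    (cont_wq β i (hOc 2)) (fun q => ip_wq_self_le β _ i)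
    (fun θ z v => by simp only [inv (show (2 : Fin 4) ≠ 0 by decide)])
  have E2 := repl_wq P hβ i (b 1) (h0 1) hε (hr 1) (1 : Fin 4) ch mh
    (cont_wq β i (hOc 3)) (fun q => ip_wq_self_le β _ i)
    (fun θ z v => by simp only [inv (show (3 : Fin 4) ≠ 1 by decide)])
  have E3 := repl_wq P hβ i (b 0) (h0 0) hε (hr 0) (0 : Fin 4) cg mg
    (cont_wq β i hHc) (fun q => ip_wq_self_le β _ i)
    (fun θ z v => by simp only [hH, gS, blk_upd_ne (show (1 : Fin 4) ≠ 0 by decide)])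
  have E4 := repl_wq P hβ i (b 1) (h0 1) hε (hr 1) (1 : Fin 4) ch mh
    (cont_wq β i (hOc 0)) (fun q => ip_wq_self_le β _ i)
    (fun θ z v => by simp only [inv (show (0 : Fin 4) ≠ 1 by decide)])
  set f1 := fun q => |ip (wq β i (O 2 q)) (wq β i (G q)) - ip (wq β i (O 2 q)) (wq β i (O 0 q))|
    with hf1
  set f2 := fun q => |ip (wq β i (O 3 q)) (wq β i (H q)) - ip (wq β i (O 3 q)) (wq β i (O 1 q))|
    with hf2
  set f3 := fun q => |ip (wq β i (H q)) (wq β i (G q)) - ip (wq β i (H q)) (wq β i (O 0 q))|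
    with hf3
  set f4 := fun q => |ip (wq β i (O 0 q)) (wq β i (H q)) - ip (wq β i (O 0 q)) (wq β i (O 1 q))|
    with hf4
  set r1 := fun q => |ip (wq β i (O 2 q)) (wq β i (G q)) * ip (uu β i (H q)) (uu β i (G q)) -
    (ip (wq β i (O 2 q)) (wq β i (G q)) - cq β i (wq β i (O 2 q)) (G q)) *
      ip (uu β i (H q)) (wq β i (G q))| with hr1
  set r2 := fun q => |ip (wq β i (O 3 q)) (wq β i (H q)) * ip (wq β i (G q)) (uu β i (H q)) -
    (ip (wq β i (O 3 q)) (wq β i (H q)) - cq β i (wq β i (O 3 q)) (H q)) *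
      ip (wq β i (G q)) (wq β i (H q))| with hr2
  have bd : ∀ {u v : Ed n → ℝ}, ip u u ≤ 1 → ip v v ≤ 1 → |ip u v| ≤ 1 := abs_ip_le_one
  have wb : ∀ g, ip (wq β i g) (wq β i g) ≤ 1 := fun g => ip_wq_self_le β g i
  have chiO : ∀ g S q, chi β i g (O S q) =
      ip (wq β i (O S q)) (wq β i g) - cq β i (wq β i (O S q)) g := fun g S q => by
    simp only [chi, hO, g0, ins_ins]
  have M1b : ∀ q, |ip (wq β i (G q)) (uu β i (H q))| ≤ 2 := fun q => by
    refine (abs_ip_le _ _).trans ((mul_le_of_le_one_left (Real.sqrt_nonneg _)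
      (Real.sqrt_le_one.2 (wb _))).trans ?_)
    rw [Real.sqrt_le_iff]
    exact ⟨two_pos.le, (ip_uu_self_le β i _).trans (by norm_num)⟩
  have cw := fun S => cont_wq β i (hOc S)
  have cG := cont_wq β i hGc
  have cH := cont_wq β i hHc
  have hi : ∀ {f : ((Fin n → ℝ) × (Fin n → ℝ)) × (Fin 4 × Ed n → ℝ) → ℝ}, Continuous f →
      (∀ q, |f q| ≤ 6) → Integrable f μ := fun hc hb => integrable_bdd2 hc hb
  have sub2 : ∀ {a c : ℝ}, |a| ≤ 1 → |c| ≤ 1 → |(|a - c|)| ≤ 6 := fun ha hc => by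
    rw [abs_abs]; exact (abs_sub _ _).trans (by linarith)
  have if1 : Integrable f1 μ := hi ((cont_ip (cw 2) cG).sub (cont_ip (cw 2) (cw 0))).abs
    fun q => sub2 (bd (wb _) (wb _)) (bd (wb _) (wb _))
  have if2 : Integrable f2 μ := hi ((cont_ip (cw 3) cH).sub (cont_ip (cw 3) (cw 1))).abs
    fun q => sub2 (bd (wb _) (wb _)) (bd (wb _) (wb _))
  have if3 : Integrable f3 μ := hi ((cont_ip cH cG).sub (cont_ip cH (cw 0))).abs
    fun q => sub2 (bd (wb _) (wb _)) (bd (wb _) (wb _))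
  have if4 : Integrable f4 μ := hi ((cont_ip (cw 0) cH).sub (cont_ip (cw 0) (cw 1))).abs
    fun q => sub2 (bd (wb _) (wb _)) (bd (wb _) (wb _))
  have ir1 : Integrable r1 μ := by
    have hc : Continuous r1 := by
      simp only [hr1, ← chiO]
      exact (((cont_ip (cw 2) cG).mul (cont_ip (cont_uu β i hHc) (cont_uu β i hGc))).sub
        ((cont_chi β i hGc (hOc 2)).mul (cont_ip (cont_uu β i hHc) cG))).abs
    refine hi hc fun q => ?_
    simp only [hr1, ← chiO, abs_abs]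
    refine (abs_sub _ _).trans ?_
    rw [abs_mul, abs_mul, ip_comm (uu β i (H q)) (wq β i (G q))]
    have h1 := mul_le_mul (bd (wb (O 2 q)) (wb (G q))) (abs_ip_uu_le β i (H q) (G q))
      (abs_nonneg _) zero_le_one
    have h2 := mul_le_mul (abs_chi_le β i (G q) (O 2 q)) (M1b q) (abs_nonneg _) zero_le_one
    linarith
  have ir2 : Integrable r2 μ := by
    have hc : Continuous r2 := by
      simp only [hr2, ← chiO]
      exact (((cont_ip (cw 3) cH).mul (cont_ip cG (cont_uu β i hHc))).sub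
        ((cont_chi β i hHc (hOc 3)).mul (cont_ip cG cH))).abs
    refine hi hc fun q => ?_
    simp only [hr2, ← chiO, abs_abs]
    refine (abs_sub _ _).trans ?_
    rw [abs_mul, abs_mul]
    have h1 := mul_le_mul (bd (wb (O 3 q)) (wb (H q))) (M1b q) (abs_nonneg _) zero_le_one
    have h2 := mul_le_mul (abs_chi_le β i (H q) (O 3 q)) (bd (wb (G q)) (wb (H q)))
      (abs_nonneg _) zero_le_one
    linarith
  refine (integral_mono_of_nonneg (ae_of_all _ fun q => abs_nonneg _)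
    (((if1.const_mul 4).add (if2.const_mul 4)).add ((ir1.add ir2).add (if3.add if4)))
    (ae_of_all _ fun q => ?_)).trans ?_
  · simp only [Pi.add_apply, hf1, hf2, hf3, hf4, hr1, hr2]
    have eG : ins i (g0 i (b 0) (rr 0) 0 q.2) q.1.1 = G q := (gS_eq_ins i _ _ _ yg q).symm
    have eH : ins i (g0 i (b 1) (rr 1) 1 q.2) (rot u q.1.1 q.1.2) = H q :=
      (gS_eq_ins i _ _ _ yh q).symm
    have eO : ∀ S, g0 i (b S) (rr S) S q.2 = O S q := fun S => rfl
    rw [eG, eH, eO 0, eO 1, eO 2, eO 3, ← chiO, ← chiO,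
      ip_comm (wq β i (O 0 q)) (wq β i (O 2 q)), ip_comm (wq β i (O 1 q)) (wq β i (O 3 q)),
      ip_comm (uu β i (H q)) (uu β i (G q)), ip_comm (uu β i (H q)) (wq β i (G q))]
    set g := bil V (wq β i (O 0 q)) (wq β i (O 1 q))
    have hg : |g| ≤ 1 := abs_bil_le hV (wb _) (wb _)
    set a := ip (wq β i (O 2 q)) (wq β i (G q))
    set a' := ip (wq β i (O 3 q)) (wq β i (H q))
    set d := ip (wq β i (O 2 q)) (wq β i (O 0 q))
    set d' := ip (wq β i (O 3 q)) (wq β i (O 1 q))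
    set U := ip (uu β i (G q)) (uu β i (H q))
    set m := ip (wq β i (G q)) (uu β i (H q))
    set w1 := ip (wq β i (G q)) (wq β i (H q))
    set A := ip (wq β i (O 0 q)) (wq β i (O 1 q))
    set x := chi β i (G q) (O 2 q)
    set x' := chi β i (H q) (O 3 q)
    rw [show g * d * d' * U - g * A * x * x' = g * ((d - a) * d' * U + a * (d' - a') * U +
      a' * (a * U - x * m) + x * (a' * m - x' * w1) + x * x' * (w1 - A)) by ring, abs_mul]
    refine (mul_le_of_le_one_left (abs_nonneg _) hg).trans ?_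
    have hU : |U| ≤ 4 := abs_ip_uu_le β i _ _
    have ha : |a| ≤ 1 := bd (wb _) (wb _)
    have ha' : |a'| ≤ 1 := bd (wb _) (wb _)
    have hd' : |d'| ≤ 1 := bd (wb _) (wb _)
    have hx : |x| ≤ 1 := abs_chi_le β i _ _
    have hx' : |x'| ≤ 1 := abs_chi_le β i _ _
    have t1 : |(d - a) * d' * U| ≤ 4 * |a - d| := by
      rw [abs_mul, abs_mul, abs_sub_comm d a]
      have := mul_le_mul hd' hU (abs_nonneg _) zero_le_one
      nlinarith [abs_nonneg (a - d), abs_nonneg d', abs_nonneg U]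
    have t2 : |a * (d' - a') * U| ≤ 4 * |a' - d'| := by
      rw [abs_mul, abs_mul, abs_sub_comm d' a']
      have := mul_le_mul ha hU (abs_nonneg _) zero_le_one
      nlinarith [abs_nonneg (a' - d'), abs_nonneg a, abs_nonneg U]
    have t3 : |a' * (a * U - x * m)| ≤ |a * U - x * m| := by
      rw [abs_mul]; exact mul_le_of_le_one_left (abs_nonneg _) ha'
    have t4 : |x * (a' * m - x' * w1)| ≤ |a' * m - x' * w1| := by
      rw [abs_mul]; exact mul_le_of_le_one_left (abs_nonneg _) hx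
    have t5 : |x * x' * (w1 - A)| ≤ |ip (wq β i (H q)) (wq β i (G q)) -
        ip (wq β i (H q)) (wq β i (O 0 q))| +
        |ip (wq β i (O 0 q)) (wq β i (H q)) - A| := by
      rw [abs_mul, abs_mul]
      refine (mul_le_of_le_one_left (abs_nonneg _) (mul_le_one₀ hx (abs_nonneg _) hx')).trans ?_
      rw [ip_comm (wq β i (H q)) (wq β i (G q)), ip_comm (wq β i (H q)) (wq β i (O 0 q))]
      exact abs_sub_le _ _ _
    have := abs_add_le ((d - a) * d' * U + a * (d' - a') * U + a' * (a * U - x * m) +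
      x * (a' * m - x' * w1)) (x * x' * (w1 - A))
    have := abs_add_le ((d - a) * d' * U + a * (d' - a') * U + a' * (a * U - x * m))
      (x * (a' * m - x' * w1))
    have := abs_add_le ((d - a) * d' * U + a * (d' - a') * U) (a' * (a * U - x * m))
    have := abs_add_le ((d - a) * d' * U) (a * (d' - a') * U)
    linarith
  · have ia : Integrable (fun q => 4 * f1 q + 4 * f2 q) μ := (if1.const_mul 4).add (if2.const_mul 4)
    have ib : Integrable (fun q => r1 q + r2 q) μ := ir1.add ir2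
    have ic : Integrable (fun q => f3 q + f4 q) μ := if3.add if4
    have id' : Integrable (fun q => r1 q + r2 q + (f3 q + f4 q)) μ := ib.add ic
    simp only [Pi.add_apply]
    rw [integral_add ia id', integral_add (if1.const_mul 4) (if2.const_mul 4), integral_add ib ic,
      integral_add ir1 ir2, integral_add if3 if4, integral_const_mul, integral_const_mul]
    have b1 : ∫ q, f1 q ∂μ ≤ kap β n ε := E1
    have b2 : ∫ q, f2 q ∂μ ≤ kap β n ε := E2
    have b3 : ∫ q, f3 q ∂μ ≤ kap β n ε := E3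
    have b4 : ∫ q, f4 q ∂μ ≤ kap β n ε := E4
    have b5 : ∫ q, r1 q ∂μ ≤ 104 * √(kap β n ε) := R1
    have b6 : ∫ q, r2 q ∂μ ≤ 104 * √(kap β n ε) := R2
    linarith

end Pair

section Main

variable {Θ : Type} [TopologicalSpace Θ] [MeasurableSpace Θ] [BorelSpace Θ]
  [SecondCountableTopology Θ] (P : Measure Θ) [IsProbabilityMeasure P]

/-- **The identity of site `i`.** -/
theorem ident_row {β : ℝ} (hβ : 0 < β) (i : Fin n) (b : Fin 4 → Ed n → ℝ) (rr : Fin 4 → ℝ)
    {ε : ℝ} (hε : 0 < ε) (h0 : ∀ S, 0 ≤ rr S) (hr : ∀ S, rr S ≤ 1 - ε)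
    (Y : Fin 4 → Θ → Fin n → ℝ) (hY : ∀ S, Continuous (Y S))
    (hmp : ∀ S, MeasurePreserving (Y S) P (stdPi (Fin n)))
    (Ys : Fin 2 → ℝ × Θ → Fin n → ℝ) (hYs : ∀ k, Continuous (Ys k))
    {r : ℝ} (hr0 : 0 < r) (hr1 : r ≤ 1)
    (hpair : ∀ F : (Fin n → ℝ) × (Fin n → ℝ) → ℝ, Continuous F →
      ∫ θ, F (Y 0 θ, Y 1 θ) ∂P = ∫ q, F (q.1, rot r q.1 q.2) ∂(stdPi (Fin n)).prod (stdPi (Fin n)))
    (hs : ∀ s ∈ Set.Icc (0 : ℝ) 1, ∀ F : (Fin n → ℝ) × (Fin n → ℝ) → ℝ, Continuous F →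
      ∫ θ, F (Ys 0 (s, θ), Ys 1 (s, θ)) ∂P =
        ∫ q, F (q.1, rot (r * s) q.1 q.2) ∂(stdPi (Fin n)).prod (stdPi (Fin n)))
    {V : Ed n → Ed n → ℝ} (hV : ∑ p, ip (V p) (V p) ≤ 1) :
    |β ^ 2 * (∫ s in 0..1, ∫ q,
          bil V (w β (gS i (b 0) (rr 0) (0 : Fin 4) (Y 0) q)) (w β (gS i (b 1) (rr 1) (1 : Fin 4) (Y 1) q)) *
          ovl β (gS i (b 0) (rr 0) (0 : Fin 4) (Y 0) q) (gS i (b 1) (rr 1) (1 : Fin 4) (Y 1) q) *
          chi β i (gS i (b 0) (rr 0) (0 : Fin 4) (fun θ => Ys 0 (s, θ)) q)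
            (gS i (b 2) (rr 2) (2 : Fin 4) (Y 2) q) *
          chi β i (gS i (b 1) (rr 1) (1 : Fin 4) (fun θ => Ys 1 (s, θ)) q)
            (gS i (b 3) (rr 3) (3 : Fin 4) (Y 3) q) ∂P.prod (stdPi (Fin 4 × Ed n))) -
      r⁻¹ * ∫ q,
          bil V (w β (gS i (b 0) (rr 0) (0 : Fin 4) (Y 0) q)) (w β (gS i (b 1) (rr 1) (1 : Fin 4) (Y 1) q)) *
          ovl β (gS i (b 0) (rr 0) (0 : Fin 4) (Y 0) q) (gS i (b 2) (rr 2) (2 : Fin 4) (Y 2) q) *
          ovl β (gS i (b 1) (rr 1) (1 : Fin 4) (Y 1) q) (gS i (b 3) (rr 3) (3 : Fin 4) (Y 3) q) *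
          asite β i (gS i (b 0) (rr 0) (0 : Fin 4) (Y 0) q) (gS i (b 1) (rr 1) (1 : Fin 4) (Y 1) q)
          ∂P.prod (stdPi (Fin 4 × Ed n))| ≤
      β ^ 2 * (14 * (kap β n ε + √(2 / n)) + 208 * √(kap β n ε)) +
        r⁻¹ * (6 * (kap β n ε + √(2 / n)) + 1 / n) := by
  set d := kap β n ε + √(2 / (n : ℝ)) with hd
  have hn : (0 : ℝ) < n := by exact_mod_cast i.pos
  have hk : 0 ≤ kap β n ε := by unfold kap; positivity
  have hd0 : 0 ≤ d := by positivity
  set μ := P.prod (stdPi (Fin 4 × Ed n))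
  set P2 := (stdPi (Fin n)).prod (stdPi (Fin n))
  set g := fun S q => gS i (b S) (rr S) S (Y S) q with hg
  set o := fun (S : Fin 4) (z : Fin 4 × Ed n → ℝ) => g0 i (b S) (rr S) S z with ho
  set G := fun q => bil V (w β (g 0 q)) (w β (g 1 q)) with hG
  set G' := fun z => bil V (wq β i (o 0 z)) (wq β i (o 1 z)) with hG'
  set A' := fun z => ip (wq β i (o 0 z)) (wq β i (o 1 z)) with hA'
  set K := fun z => G' z * ip (wq β i (o 0 z)) (wq β i (o 2 z)) *
    ip (wq β i (o 1 z)) (wq β i (o 3 z)) with hK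
  set gs := fun (k : Fin 2) (s : ℝ) (q : Θ × (Fin 4 × Ed n → ℝ)) =>
    ins i (o (Fin.castLE (by norm_num) k) q.2) (Ys k (s, q.1)) with hgs
  have oc : ∀ S, Continuous (o S) := fun S => cont_g0 i (b S) (rr S) S
  have ocw := fun S => cont_wq β i (oc S)
  have gc : ∀ S, Continuous (g S) := fun S => cont_gS i (b S) S (hY S)
  have wb : ∀ g, ip (wq β i g) (wq β i g) ≤ 1 := fun g => ip_wq_self_le β g i
  have bG : ∀ q, |G q| ≤ 1 := fun q => abs_bil_le hV (ip_w_self_le β _) (ip_w_self_le β _)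
  have bG' : ∀ z, |G' z| ≤ 1 := fun z => abs_bil_le hV (wb _) (wb _)
  have bA' : ∀ z, |A' z| ≤ 1 := fun z => abs_ip_le_one (wb _) (wb _)
  have m1 : ∀ {a c : ℝ}, |a| ≤ 1 → |c| ≤ 1 → |a * c| ≤ 1 := fun ha hc => by
    rw [abs_mul]; exact mul_le_one₀ ha (abs_nonneg _) hc
  have bK : ∀ z, |K z| ≤ 1 := fun z =>
    m1 (m1 (bG' z) (abs_ip_le_one (wb _) (wb _))) (abs_ip_le_one (wb _) (wb _))
  have cG : Continuous G := cont_bil V (cont_w β (gc 0)) (cont_w β (gc 1))
  have cG' : Continuous G' := cont_bil V (ocw 0) (ocw 1)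
  have cK : Continuous K := (cG'.mul (cont_ip (ocw 0) (ocw 2))).mul (cont_ip (ocw 1) (ocw 3))
  have cA' : Continuous A' := cont_ip (ocw 0) (ocw 1)
  -- replacing the common factors
  have TG : ∫ q, |G q - G' q.2| ∂μ ≤ 2 * d :=
    two_repl P hβ i b rr hε h0 hr Y hY hmp (show (0 : Fin 4) ≠ 1 by decide)
      (fun v p => ip (V p) v) (fun v p => ip (fun q => V q p) v)
      (continuous_pi fun p => cont_ip continuous_const continuous_id)
      (continuous_pi fun p => cont_ip continuous_const continuous_id)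
      (fun v hv => ip_mulVec_le hV hv) (fun v hv => ip_mulVec_le (sum_swap_le hV) hv)
      fun u v => bil_swap u v
  have TA := two_ovl P hβ i b rr hε h0 hr Y hY hmp (show (0 : Fin 4) ≠ 1 by decide)
  have TD := two_ovl P hβ i b rr hε h0 hr Y hY hmp (show (0 : Fin 4) ≠ 2 by decide)
  have TD' := two_ovl P hβ i b rr hε h0 hr Y hY hmp (show (1 : Fin 4) ≠ 3 by decide)
  have iG : Integrable (fun q => |G q - G' q.2|) μ :=
    integrable_bdd2 (cG.sub (cG'.comp continuous_snd)).abs (B := 2) fun q => by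
      rw [abs_abs]; exact (abs_sub _ _).trans (by linarith [bG q, bG' q.2])
  have iO : ∀ S T, Integrable (fun q => |ovl β (g S q) (g T q) -
      ip (wq β i (o S q.2)) (wq β i (o T q.2))|) μ := fun S T =>
    integrable_bdd2 ((cont_ovl β (gc S) (gc T)).sub
      ((cont_ip (ocw S) (ocw T)).comp continuous_snd)).abs (B := 2) fun q => by
      rw [abs_abs]
      have h1 := abs_ovl_le β (g S q) (g T q)
      have h2 := abs_ip_le_one (wb (o S q.2)) (wb (o T q.2))
      exact (abs_sub _ _).trans (by linarith)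
  -- susceptibilities only see the rest
  have hgs2 : ∀ s q, gS i (b 0) (rr 0) (0 : Fin 4) (fun θ => Ys 0 (s, θ)) q = gs 0 s q ∧
      gS i (b 1) (rr 1) (1 : Fin 4) (fun θ => Ys 1 (s, θ)) q = gs 1 s q := fun s q =>
    ⟨gS_eq_ins i _ _ _ _ q, gS_eq_ins i _ _ _ _ q⟩
  have hchi : ∀ h S q, chi β i h (g S q) = chi β i h (o S q.2) := fun h S q => by
    simp only [hg, ho, gS_eq_ins, chi_ins]
  have gsc : ∀ k, Continuous fun p : ℝ × (Θ × (Fin 4 × Ed n → ℝ)) => gs k p.1 p.2 := fun k =>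
    cont_ins i ((oc _).comp (continuous_snd.comp continuous_snd))
      ((hYs k).comp (continuous_fst.prodMk (continuous_fst.comp continuous_snd)))
  set X := fun (s : ℝ) q => chi β i (gs 0 s q) (o 2 q.2) * chi β i (gs 1 s q) (o 3 q.2) with hX
  have bX : ∀ s q, |X s q| ≤ 1 := fun s q => m1 (abs_chi_le β i _ _) (abs_chi_le β i _ _)
  have cX : Continuous fun p : ℝ × (Θ × (Fin 4 × Ed n → ℝ)) => X p.1 p.2 :=
    (cont_chi β i (gsc 0) ((oc 2).comp (continuous_snd.comp continuous_snd))).mul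
      (cont_chi β i (gsc 1) ((oc 3).comp (continuous_snd.comp continuous_snd)))
  set Φ := fun (s : ℝ) q => G q * ovl β (g 0 q) (g 1 q) * X s q with hΦ
  set Φ' := fun (s : ℝ) q => G' q.2 * A' q.2 * X s q with hΦ'
  have cΦ : Continuous fun p : ℝ × (Θ × (Fin 4 × Ed n → ℝ)) => Φ p.1 p.2 :=
    ((cG.comp continuous_snd).mul ((cont_ovl β (gc 0) (gc 1)).comp continuous_snd)).mul cX
  have cΦ' : Continuous fun p : ℝ × (Θ × (Fin 4 × Ed n → ℝ)) => Φ' p.1 p.2 :=
    (((cG'.mul cA').comp continuous_snd).comp continuous_snd).mul cX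
  have bΦ : ∀ s q, |Φ s q| ≤ 1 := fun s q => m1 (m1 (bG q) (abs_ovl_le β _ _)) (bX s q)
  have bΦ' : ∀ s q, |Φ' s q| ≤ 1 := fun s q => m1 (m1 (bG' q.2) (bA' q.2)) (bX s q)
  clear_value Φ Φ'
  -- first step
  have S1 : ∀ s, |∫ q, Φ s q ∂μ - ∫ q, Φ' s q ∂μ| ≤ 4 * d := by
    intro s
    have i1 : Integrable (fun q => Φ s q) μ :=
      integrable_bdd2 (cΦ.comp (continuous_const.prodMk continuous_id)) fun q => bΦ s q
    have i2 : Integrable (fun q => Φ' s q) μ :=
      integrable_bdd2 (cΦ'.comp (continuous_const.prodMk continuous_id)) fun q => bΦ' s q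
    refine (abs_integral_sub_le i1 i2).trans ?_
    refine (integral_mono_of_nonneg (ae_of_all _ fun q => abs_nonneg _) (iG.add (iO 0 1))
      (ae_of_all _ fun q => ?_)).trans ?_
    · simp only [Pi.add_apply, hΦ, hΦ']
      rw [← sub_mul, abs_mul]
      refine (mul_le_of_le_one_right (abs_nonneg _) (bX s q)).trans ?_
      rw [show G q * ovl β (g 0 q) (g 1 q) - G' q.2 * A' q.2 =
        (G q - G' q.2) * ovl β (g 0 q) (g 1 q) + G' q.2 * (ovl β (g 0 q) (g 1 q) - A' q.2) by ring]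
      refine (abs_add_le _ _).trans (add_le_add ?_ ?_)
      · rw [abs_mul]; exact mul_le_of_le_one_right (abs_nonneg _) (abs_ovl_le β _ _)
      · rw [abs_mul]; exact mul_le_of_le_one_left (abs_nonneg _) (bG' q.2)
    · simp only [Pi.add_apply]
      rw [integral_add iG (iO 0 1)]
      linarith
  -- second step
  set Ψ := fun q => G q * ovl β (g 0 q) (g 2 q) * ovl β (g 1 q) (g 3 q) * asite β i (g 0 q) (g 1 q)
    with hΨ
  set Ψ' := fun q => K q.2 * asite β i (g 0 q) (g 1 q) with hΨ'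
  have cΨ : Continuous Ψ := ((cG.mul (cont_ovl β (gc 0) (gc 2))).mul
    (cont_ovl β (gc 1) (gc 3))).mul (cont_asite β i (gc 0) (gc 1))
  have cΨ' : Continuous Ψ' := (cK.comp continuous_snd).mul (cont_asite β i (gc 0) (gc 1))
  have bΨ' : ∀ q, |Ψ' q| ≤ 1 := fun q => m1 (bK q.2) (abs_asite_le β i _ _)
  have S2 : |∫ q, Ψ q ∂μ - ∫ q, Ψ' q ∂μ| ≤ 6 * d := by
    refine (abs_integral_sub_le (integrable_bdd2 cΨ (B := 1) fun q => m1 (m1 (m1 (bG q)
      (abs_ovl_le β _ _)) (abs_ovl_le β _ _)) (abs_asite_le β i _ _))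
      (integrable_bdd2 cΨ' bΨ')).trans ?_
    refine (integral_mono_of_nonneg (ae_of_all _ fun q => abs_nonneg _)
      (iG.add ((iO 0 2).add (iO 1 3))) (ae_of_all _ fun q => ?_)).trans ?_
    · simp only [Pi.add_apply, hΨ, hΨ', hK]
      rw [← sub_mul, abs_mul]
      refine (mul_le_of_le_one_right (abs_nonneg _) (abs_asite_le β i _ _)).trans ?_
      set a := ovl β (g 0 q) (g 2 q)
      set c := ovl β (g 1 q) (g 3 q)
      set a' := ip (wq β i (o 0 q.2)) (wq β i (o 2 q.2))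
      set c' := ip (wq β i (o 1 q.2)) (wq β i (o 3 q.2))
      rw [show G q * a * c - G' q.2 * a' * c' =
        (G q - G' q.2) * (a * c) + (G' q.2 * c * (a - a') + G' q.2 * a' * (c - c')) by ring]
      refine (abs_add_le _ _).trans (add_le_add ?_ ((abs_add_le _ _).trans (add_le_add ?_ ?_)))
      · rw [abs_mul]
        exact mul_le_of_le_one_right (abs_nonneg _) (m1 (abs_ovl_le β _ _) (abs_ovl_le β _ _))
      · rw [abs_mul]
        exact mul_le_of_le_one_left (abs_nonneg _) (m1 (bG' q.2) (abs_ovl_le β _ _))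
      · rw [abs_mul]
        exact mul_le_of_le_one_left (abs_nonneg _) (m1 (bG' q.2) (abs_ip_le_one (wb _) (wb _)))
    · simp only [Pi.add_apply]
      have iab : Integrable (fun q => |ovl β (g 0 q) (g 2 q) -
          ip (wq β i (o 0 q.2)) (wq β i (o 2 q.2))| + |ovl β (g 1 q) (g 3 q) -
          ip (wq β i (o 1 q.2)) (wq β i (o 3 q.2))|) μ := (iO 0 2).add (iO 1 3)
      rw [integral_add iG iab, integral_add (iO 0 2) (iO 1 3)]
      linarith
  -- functions of one pair of rows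
  set J := fun (p : ℝ × (Fin 4 × Ed n → ℝ)) => ∫ q, ip (uu β i (ins i (o 0 p.2) q.1))
    (uu β i (ins i (o 1 p.2) (rot (r * p.1) q.1 q.2))) ∂P2 with hJ
  set C := fun (p : ℝ × (Fin 4 × Ed n → ℝ)) => ∫ q, chi β i (ins i (o 0 p.2) q.1) (o 2 p.2) *
    chi β i (ins i (o 1 p.2) (rot (r * p.1) q.1 q.2)) (o 3 p.2) ∂P2 with hC
  have crot : Continuous fun p : (ℝ × (Fin 4 × Ed n → ℝ)) × (Fin n → ℝ) × (Fin n → ℝ) =>
      rot (r * p.1.1) p.2.1 p.2.2 := by unfold rot; fun_prop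
  have c1 : ∀ S, Continuous fun p : (ℝ × (Fin 4 × Ed n → ℝ)) × (Fin n → ℝ) × (Fin n → ℝ) =>
      o S p.1.2 := fun S => (oc S).comp (continuous_snd.comp continuous_fst)
  have cJ : Continuous J := cont_int (ν := P2)
    (F := fun p : (ℝ × (Fin 4 × Ed n → ℝ)) × (Fin n → ℝ) × (Fin n → ℝ) =>
      ip (uu β i (ins i (o 0 p.1.2) p.2.1)) (uu β i (ins i (o 1 p.1.2) (rot (r * p.1.1) p.2.1 p.2.2))))
    (cont_ip (cont_uu β i (cont_ins i (c1 0) (continuous_fst.comp continuous_snd)))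
      (cont_uu β i (cont_ins i (c1 1) crot))) fun p => abs_ip_uu_le β i _ _
  have cC : Continuous C := cont_int (ν := P2)
    (F := fun p : (ℝ × (Fin 4 × Ed n → ℝ)) × (Fin n → ℝ) × (Fin n → ℝ) =>
      chi β i (ins i (o 0 p.1.2) p.2.1) (o 2 p.1.2) *
        chi β i (ins i (o 1 p.1.2) (rot (r * p.1.1) p.2.1 p.2.2)) (o 3 p.1.2))
    ((cont_chi β i (cont_ins i (c1 0) (continuous_fst.comp continuous_snd)) (c1 2)).mul
      (cont_chi β i (cont_ins i (c1 1) crot) (c1 3))) fun p =>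
        m1 (abs_chi_le β i _ _) (abs_chi_le β i _ _)
  have bJ : ∀ p, |J p| ≤ 4 := fun p => by
    refine (abs_integral_le_integral_abs).trans ?_
    refine (integral_mono_of_nonneg (ae_of_all _ fun q => abs_nonneg _) (integrable_const 4)
      (ae_of_all _ fun q => abs_ip_uu_le β i _ _)).trans (by simp)
  have bC : ∀ p, |C p| ≤ 1 := fun p => by
    refine (abs_integral_le_integral_abs).trans ?_
    refine (integral_mono_of_nonneg (ae_of_all _ fun q => abs_nonneg _) (integrable_const 1)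
      (ae_of_all _ fun q => m1 (abs_chi_le β i _ _) (abs_chi_le β i _ _))).trans (by simp)
  -- fourth step
  have S4 : ∀ s ∈ Set.Icc (0 : ℝ) 1, ∫ q, Φ' s q ∂μ =
      ∫ z, G' z * A' z * C (s, z) ∂stdPi (Fin 4 × Ed n) := by
    intro s hsI
    have i2 : Integrable (fun q => Φ' s q) μ :=
      integrable_bdd2 (cΦ'.comp (continuous_const.prodMk continuous_id)) fun q => bΦ' s q
    rw [integral_prod_symm _ i2]
    refine integral_congr_ae (ae_of_all _ fun z => ?_)
    simp only [hΦ', hX, hgs, hC]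
    rw [integral_const_mul]
    congr 1
    exact hs s hsI (fun p => chi β i (ins i (o 0 z) p.1) (o 2 z) *
      chi β i (ins i (o 1 z) p.2) (o 3 z))
      ((cont_chi β i (cont_ins i continuous_const continuous_fst) continuous_const).mul
        (cont_chi β i (cont_ins i continuous_const continuous_snd) continuous_const))
  -- third step
  have S3 : ∀ s ∈ Set.Icc (0 : ℝ) 1, |∫ z, G' z * A' z * C (s, z) ∂stdPi (Fin 4 × Ed n) -
      ∫ z, K z * J (s, z) ∂stdPi (Fin 4 × Ed n)| ≤ 208 * √(kap β n ε) + 10 * kap β n ε := by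
    intro s hsI
    have hu : (r * s) ^ 2 ≤ 1 := pow_le_one₀ (mul_nonneg hr0.le hsI.1)
      (mul_le_one₀ hr1 hsI.1 hsI.2)
    refine le_trans ?_ (pair_exchange hβ i b rr hε h0 hr hV hu)
    set μ2 := P2.prod (stdPi (Fin 4 × Ed n))
    set f1 := fun q : ((Fin n → ℝ) × (Fin n → ℝ)) × (Fin 4 × Ed n → ℝ) => G' q.2 * A' q.2 *
      (chi β i (ins i (o 0 q.2) q.1.1) (o 2 q.2) *
        chi β i (ins i (o 1 q.2) (rot (r * s) q.1.1 q.1.2)) (o 3 q.2))
    set f2 := fun q : ((Fin n → ℝ) × (Fin n → ℝ)) × (Fin 4 × Ed n → ℝ) => K q.2 *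
      ip (uu β i (ins i (o 0 q.2) q.1.1)) (uu β i (ins i (o 1 q.2) (rot (r * s) q.1.1 q.1.2)))
    have c2 : ∀ S, Continuous fun q : ((Fin n → ℝ) × (Fin n → ℝ)) × (Fin 4 × Ed n → ℝ) =>
        o S q.2 := fun S => (oc S).comp continuous_snd
    have cr : Continuous fun q : ((Fin n → ℝ) × (Fin n → ℝ)) × (Fin 4 × Ed n → ℝ) =>
        rot (r * s) q.1.1 q.1.2 := by unfold rot; fun_prop
    have i1 : Integrable f1 μ2 := integrable_bdd2 (((cG'.mul cA').comp continuous_snd).mul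
      ((cont_chi β i (cont_ins i (c2 0) (continuous_fst.comp continuous_fst)) (c2 2)).mul
        (cont_chi β i (cont_ins i (c2 1) cr) (c2 3)))) (B := 1) fun q =>
      m1 (m1 (bG' q.2) (bA' q.2)) (m1 (abs_chi_le β i _ _) (abs_chi_le β i _ _))
    have i2 : Integrable f2 μ2 := integrable_bdd2 ((cK.comp continuous_snd).mul
      (cont_ip (cont_uu β i (cont_ins i (c2 0) (continuous_fst.comp continuous_fst)))
        (cont_uu β i (cont_ins i (c2 1) cr)))) (B := 4) fun q => by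
      rw [abs_mul]
      exact (mul_le_of_le_one_left (abs_nonneg _) (bK _)).trans (abs_ip_uu_le β i _ _)
    have e1 : ∫ z, G' z * A' z * C (s, z) ∂stdPi (Fin 4 × Ed n) = ∫ q, f1 q ∂μ2 := by
      rw [integral_prod_symm _ i1]
      exact integral_congr_ae (ae_of_all _ fun z => (integral_const_mul _ _).symm)
    have e2 : ∫ z, K z * J (s, z) ∂stdPi (Fin 4 × Ed n) = ∫ q, f2 q ∂μ2 := by
      rw [integral_prod_symm _ i2]
      exact integral_congr_ae (ae_of_all _ fun z => (integral_const_mul _ _).symm)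
    rw [e1, e2]
    refine (abs_integral_sub_le i1 i2).trans (le_of_eq (integral_congr_ae (ae_of_all _ fun q => ?_)))
    show |f1 q - f2 q| = _
    rw [abs_sub_comm]
    simp only [f1, f2, hK, hG', hA', ho]
    congr 1
    ring
  -- integration by parts in the row
  have S5 : |∫ q, Ψ' q ∂μ - r * β ^ 2 * ∫ s in 0..1, ∫ z, K z * J (s, z)
      ∂stdPi (Fin 4 × Ed n)| ≤ 1 / n := by
    have : IsFiniteMeasure (volume.restrict (Set.Ioc (0 : ℝ) 1)) :=
      isFiniteMeasure_restrict.2 (by simp)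
    have e0 : ∫ q, Ψ' q ∂μ = ∫ z, K z * ∫ q, asite β i (ins i (o 0 z) q.1)
        (ins i (o 1 z) (rot r q.1 q.2)) ∂P2 ∂stdPi (Fin 4 × Ed n) := by
      rw [integral_prod_symm _ (integrable_bdd2 cΨ' bΨ')]
      refine integral_congr_ae (ae_of_all _ fun z => ?_)
      simp only [hΨ', hg, gS_eq_ins, integral_const_mul]
      congr 1
      exact hpair (fun p => asite β i (ins i (o 0 z) p.1) (ins i (o 1 z) p.2))
        (cont_asite β i (cont_ins i continuous_const continuous_fst)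
          (cont_ins i continuous_const continuous_snd))
    have e1 : r * β ^ 2 * ∫ s in 0..1, ∫ z, K z * J (s, z) ∂stdPi (Fin 4 × Ed n) =
        ∫ z, K z * (r * β ^ 2 * ∫ s in 0..1, J (s, z)) ∂stdPi (Fin 4 × Ed n) := by
      simp only [intervalIntegral.integral_of_le (zero_le_one (α := ℝ))]
      have iKJ : Integrable (Function.uncurry fun s z => K z * J (s, z))
          ((volume.restrict (Set.Ioc (0 : ℝ) 1)).prod (stdPi (Fin 4 × Ed n))) :=
        integrable_bdd2 ((cK.comp continuous_snd).mul cJ) (B := 4) fun p => by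
          simp only [Function.uncurry_def]
          rw [abs_mul]
          exact (mul_le_of_le_one_left (abs_nonneg _) (bK _)).trans (bJ _)
      rw [integral_integral_swap (f := fun s z => K z * J (s, z)) iKJ, ← integral_const_mul]
      refine integral_congr_ae (ae_of_all _ fun z => ?_)
      simp only [integral_const_mul]
      ring
    rw [e0, e1]
    have cI : Continuous fun z => ∫ q, asite β i (ins i (o 0 z) q.1)
        (ins i (o 1 z) (rot r q.1 q.2)) ∂P2 := by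
      refine cont_int (ν := P2) (F := fun p : (Fin 4 × Ed n → ℝ) × (Fin n → ℝ) × (Fin n → ℝ) =>
        asite β i (ins i (o 0 p.1) p.2.1) (ins i (o 1 p.1) (rot r p.2.1 p.2.2))) ?_
        fun p => abs_asite_le β i _ _
      exact cont_asite β i (cont_ins i ((oc 0).comp continuous_fst)
        (continuous_fst.comp continuous_snd))
        (cont_ins i ((oc 1).comp continuous_fst) (by unfold rot; fun_prop))
    have cI2 : Continuous fun z => ∫ s in 0..1, J (s, z) := by
      refine intervalIntegral.continuous_parametric_intervalIntegral_of_continuous' ?_ 0 1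
      exact cJ.comp (continuous_snd.prodMk continuous_fst)
    have b1 : ∀ z, |K z * ∫ q, asite β i (ins i (o 0 z) q.1)
        (ins i (o 1 z) (rot r q.1 q.2)) ∂P2| ≤ 1 := fun z => by
      refine m1 (bK z) ((abs_integral_le_integral_abs).trans ?_)
      exact (integral_mono_of_nonneg (ae_of_all _ fun q => abs_nonneg _) (integrable_const 1)
        (ae_of_all _ fun q => abs_asite_le β i _ _)).trans (by simp)
    have b2 : ∀ z, |K z * (r * β ^ 2 * ∫ s in 0..1, J (s, z))| ≤ 4 * β ^ 2 := fun z => by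
      rw [abs_mul]
      refine (mul_le_of_le_one_left (abs_nonneg _) (bK z)).trans ?_
      rw [abs_mul, abs_of_nonneg (mul_nonneg hr0.le (sq_nonneg β))]
      have hJ4 : |∫ s in 0..1, J (s, z)| ≤ 4 := by
        have := intervalIntegral.norm_integral_le_of_norm_le_const (a := (0 : ℝ)) (b := 1)
          (f := fun s => J (s, z)) (C := 4) fun s _ => by rw [Real.norm_eq_abs]; exact bJ _
        simpa using this
      calc r * β ^ 2 * |∫ s in 0..1, J (s, z)| ≤ 1 * β ^ 2 * 4 := by gcongr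
        _ = _ := by ring
    have j1 : Integrable (fun z => K z * ∫ q, asite β i (ins i (o 0 z) q.1)
        (ins i (o 1 z) (rot r q.1 q.2)) ∂P2) (stdPi (Fin 4 × Ed n)) :=
      integrable_bdd (cK.mul cI) b1
    have j2 : Integrable (fun z => K z * (r * β ^ 2 * ∫ s in 0..1, J (s, z)))
        (stdPi (Fin 4 × Ed n)) := integrable_bdd (cK.mul (continuous_const.mul cI2)) b2
    refine (abs_integral_sub_le j1 j2).trans ?_
    refine (integral_mono_of_nonneg (ae_of_all _ fun q => abs_nonneg _) (integrable_const (1 / (n:ℝ)))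
      (ae_of_all _ fun z => ?_)).trans (by simp)
    show |_ - _| ≤ _
    rw [← mul_sub, abs_mul]
    exact (mul_le_of_le_one_left (abs_nonneg _) (bK z)).trans
      (integral_asite β i (o 0 z) (o 1 z) hr0.le hr1)
  -- assembling
  have cI1 : Continuous fun s => ∫ q, Φ s q ∂μ := cont_int cΦ fun p => bΦ p.1 p.2
  have cI2 : Continuous fun s => ∫ z, K z * J (s, z) ∂stdPi (Fin 4 × Ed n) :=
    cont_int (F := fun p => K p.2 * J p) ((cK.comp continuous_snd).mul cJ) (B := 4) fun p => by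
      rw [abs_mul]
      exact (mul_le_of_le_one_left (abs_nonneg _) (bK _)).trans (bJ _)
  have S6 : |(∫ s in 0..1, ∫ q, Φ s q ∂μ) -
      ∫ s in 0..1, ∫ z, K z * J (s, z) ∂stdPi (Fin 4 × Ed n)| ≤
        14 * d + 208 * √(kap β n ε) := by
    rw [← intervalIntegral.integral_sub (cI1.intervalIntegrable 0 1) (cI2.intervalIntegrable 0 1)]
    have h := intervalIntegral.norm_integral_le_of_norm_le_const (a := (0 : ℝ)) (b := 1)
      (f := fun s => (∫ q, Φ s q ∂μ) - ∫ z, K z * J (s, z) ∂stdPi (Fin 4 × Ed n))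
      (C := 14 * d + 208 * √(kap β n ε)) fun s hsI => by
        rw [Set.uIoc_of_le zero_le_one] at hsI
        have hsI' : s ∈ Set.Icc (0 : ℝ) 1 := ⟨hsI.1.le, hsI.2⟩
        have a1 := S1 s
        have a3 := S3 s hsI'
        rw [← S4 s hsI'] at a3
        have h10 : kap β n ε ≤ d := le_add_of_nonneg_right (Real.sqrt_nonneg _)
        rw [Real.norm_eq_abs]
        exact (abs_sub_le _ (∫ q, Φ' s q ∂μ) _).trans (by linarith)
    simpa using h
  have S7 : |r⁻¹ * ∫ q, Ψ q ∂μ - β ^ 2 * ∫ s in 0..1, ∫ z, K z * J (s, z)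
      ∂stdPi (Fin 4 × Ed n)| ≤ r⁻¹ * (6 * d + 1 / n) := by
    rw [show r⁻¹ * ∫ q, Ψ q ∂μ - β ^ 2 * ∫ s in 0..1, ∫ z, K z * J (s, z) ∂stdPi (Fin 4 × Ed n) =
      r⁻¹ * (∫ q, Ψ q ∂μ - r * β ^ 2 * ∫ s in 0..1, ∫ z, K z * J (s, z) ∂stdPi (Fin 4 × Ed n)) by
        field_simp, abs_mul, abs_of_pos (inv_pos.2 hr0)]
    exact mul_le_mul_of_nonneg_left ((abs_sub_le _ (∫ q, Ψ' q ∂μ) _).trans (add_le_add S2 S5))
      (inv_nonneg.2 hr0.le)
  have eT1 : ∀ s, ∫ q, bil V (w β (g 0 q)) (w β (g 1 q)) * ovl β (g 0 q) (g 1 q) *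
      chi β i (gS i (b 0) (rr 0) (0 : Fin 4) (fun θ => Ys 0 (s, θ)) q) (g 2 q) *
      chi β i (gS i (b 1) (rr 1) (1 : Fin 4) (fun θ => Ys 1 (s, θ)) q) (g 3 q) ∂μ =
      ∫ q, Φ s q ∂μ := fun s => integral_congr_ae (ae_of_all _ fun q => by
    simp only [hΦ, hX, hG, hchi, (hgs2 s q).1, (hgs2 s q).2]
    ring)
  show |β ^ 2 * (∫ s in 0..1, ∫ q, bil V (w β (g 0 q)) (w β (g 1 q)) * ovl β (g 0 q) (g 1 q) *
      chi β i (gS i (b 0) (rr 0) (0 : Fin 4) (fun θ => Ys 0 (s, θ)) q) (g 2 q) *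
      chi β i (gS i (b 1) (rr 1) (1 : Fin 4) (fun θ => Ys 1 (s, θ)) q) (g 3 q) ∂μ) -
      r⁻¹ * ∫ q, Ψ q ∂μ| ≤ _
  simp only [eT1]
  refine (abs_sub_le _ (β ^ 2 * ∫ s in 0..1, ∫ z, K z * J (s, z) ∂stdPi (Fin 4 × Ed n)) _).trans
    (add_le_add ?_ ((abs_sub_comm _ _).trans_le S7))
  rw [← mul_sub, abs_mul, abs_of_nonneg (sq_nonneg β)]
  exact mul_le_mul_of_nonneg_left S6 (sq_nonneg β)

end Main

end Vale.Agent.P146.Chaos
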