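import Vale.Agent.P146.Chaos.Law

/-! # P146: Gaussian interpolation, Stein-Bessel, smoothing -/

namespace Vale.Agent.P146.Chaos

open Finset MeasureTheory ProbabilityTheory Filter
open Vale.Agent.P150.Slow
open scoped Topology

variable {ι κ : Type*} [Fintype ι] [Fintype κ] [DecidableEq ι] [DecidableEq κ]

/-- continuously differentiable, bounded, with bounded derivative -/
structure Nice {V : Type*} [NormedAddCommGroup V] [NormedSpace ℝ V] (F : V → ℝ) : Prop where
  smooth : ContDiff ℝ 1 F
  bdd : ∃ B, ∀ x, |F x| ≤ B ∧ ‖fderiv ℝ F x‖ ≤ B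

/-- partial derivative -/
noncomputable def pd (F : (ι → ℝ) → ℝ) (x : ι → ℝ) (e : ι) : ℝ := fderiv ℝ F x (Pi.single e 1)

namespace Nice

variable {V W : Type*} [NormedAddCommGroup V] [NormedSpace ℝ V] [NormedAddCommGroup W]
  [NormedSpace ℝ W] {F G : V → ℝ}

lemma differentiable (hF : Nice F) : Differentiable ℝ F := hF.smooth.differentiable one_ne_zero

lemma continuous (hF : Nice F) : Continuous F := hF.smooth.continuous

lemma continuous_fderiv (hF : Nice F) : Continuous (fderiv ℝ F) :=
  hF.smooth.continuous_fderiv one_ne_zero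

lemma const (c : ℝ) : Nice fun _ : V => c :=
  ⟨contDiff_const, |c|, fun x => ⟨le_rfl, by simp⟩⟩

lemma add (hF : Nice F) (hG : Nice G) : Nice fun x => F x + G x := by
  obtain ⟨A, hA⟩ := hF.bdd
  obtain ⟨B, hB⟩ := hG.bdd
  refine ⟨hF.smooth.add hG.smooth, A + B, fun x => ⟨(abs_add_le _ _).trans (add_le_add (hA x).1
    (hB x).1), ?_⟩⟩
  rw [fderiv_fun_add (hF.differentiable x) (hG.differentiable x)]
  exact (norm_add_le _ _).trans (add_le_add (hA x).2 (hB x).2)

lemma mul (hF : Nice F) (hG : Nice G) : Nice fun x => F x * G x := by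
  obtain ⟨A, hA⟩ := hF.bdd
  obtain ⟨B, hB⟩ := hG.bdd
  refine ⟨hF.smooth.mul hG.smooth, A * B + A * B + A * B, fun x => ?_⟩
  have hA0 : 0 ≤ A := (abs_nonneg _).trans (hA x).1
  have hB0 : 0 ≤ B := (abs_nonneg _).trans (hB x).1
  have h0 : 0 ≤ A * B := mul_nonneg hA0 hB0
  constructor
  · rw [abs_mul]; linarith [mul_le_mul (hA x).1 (hB x).1 (abs_nonneg _) hA0]
  · rw [fderiv_fun_mul (hF.differentiable x) (hG.differentiable x)]
    refine (norm_add_le _ _).trans ?_
    rw [norm_smul, norm_smul, Real.norm_eq_abs, Real.norm_eq_abs]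
    have h1 := mul_le_mul (hA x).1 (hB x).2 (norm_nonneg _) hA0
    have h2 := mul_le_mul (hB x).1 (hA x).2 (norm_nonneg _) hB0
    rw [mul_comm B A] at h2
    linarith

lemma const_mul (hF : Nice F) (c : ℝ) : Nice fun x => c * F x := (Nice.const c).mul hF

lemma neg (hF : Nice F) : Nice fun x => -F x := by simpa using hF.const_mul (-1)

lemma sub (hF : Nice F) (hG : Nice G) : Nice fun x => F x - G x := by
  simpa [sub_eq_add_neg] using hF.add hG.neg

lemma sum {α : Type*} (s : Finset α) {f : α → V → ℝ} (h : ∀ a ∈ s, Nice (f a)) :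
    Nice fun x => ∑ a ∈ s, f a x := by
  classical
  induction s using Finset.induction_on with
  | empty => simpa using Nice.const (V := V) 0
  | @insert a s ha ih =>
    simp only [sum_insert ha]
    exact (h a (mem_insert_self a s)).add (ih fun b hb => h b (mem_insert_of_mem hb))

/-- composition with an affine map -/
lemma comp_affine {F : W → ℝ} (hF : Nice F) (L : V →L[ℝ] W) (c : W) :
    Nice fun x => F (L x + c) := by
  obtain ⟨A, hA⟩ := hF.bdd
  refine ⟨hF.smooth.comp (L.contDiff.add contDiff_const), max A (A * ‖L‖), fun x =>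
    ⟨(hA _).1.trans (le_max_left _ _), ?_⟩⟩
  have h : HasFDerivAt (fun x => F (L x + c)) ((fderiv ℝ F (L x + c)).comp L) x :=
    (hF.differentiable _).hasFDerivAt.comp x (L.hasFDerivAt.add_const c)
  rw [h.fderiv]
  exact (ContinuousLinearMap.opNorm_comp_le _ _).trans
    ((mul_le_mul_of_nonneg_right (hA _).2 (norm_nonneg _)).trans (le_max_right _ _))

end Nice

lemma continuous_pd {F : (ι → ℝ) → ℝ} (hF : Nice F) (e : ι) : Continuous fun x => pd F x e :=
  hF.continuous_fderiv.clm_apply continuous_const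

lemma abs_pd_le {F : (ι → ℝ) → ℝ} {B : ℝ} (hB : ∀ x, ‖fderiv ℝ F x‖ ≤ B) (x : ι → ℝ) (e : ι) :
    |pd F x e| ≤ B := by
  refine ((fderiv ℝ F x).le_opNorm _).trans ?_
  rw [Pi.norm_single, norm_one, mul_one]
  exact hB x

lemma hasDerivAt_update_pd {F : (ι → ℝ) → ℝ} (hF : Differentiable ℝ F) (g : ι → ℝ) (e : ι)
    (x : ℝ) : HasDerivAt (fun y => F (Function.update g e y)) (pd F (Function.update g e x) e) x :=
  (hF _).hasFDerivAt.comp_hasDerivAt x (hasDerivAt_update g e x)

/-- Integrability of bounded continuous functions. -/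
lemma integrable_bdd {α : Type*} [TopologicalSpace α] [MeasurableSpace α] [OpensMeasurableSpace α]
    {μ : Measure α} [IsFiniteMeasure μ] {f : α → ℝ} (hf : Continuous f) {B : ℝ}
    (hB : ∀ x, |f x| ≤ B) : Integrable f μ :=
  (integrable_const B).mono' hf.aestronglyMeasurable (ae_of_all _ hB)

/-- Stein's identity. -/
lemma stein {F : (ι → ℝ) → ℝ} (hF : Nice F) (e : ι) :
    ∫ x, x e * F x ∂stdPi ι = ∫ x, pd F x e ∂stdPi ι := by
  obtain ⟨B, hB⟩ := hF.bdd
  exact ibp e F _ hF.continuous (continuous_pd hF e)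
    (fun g x => hasDerivAt_update_pd hF.differentiable g e x) (fun g => (hB g).1)
    (fun g => abs_pd_le (fun x => (hB x).2) g e)

/-- Stein and Bessel. -/
theorem stein_bessel {F : (ι → ℝ) → ℝ} (hF : Nice F) :
    ∑ e, (∫ x, pd F x e ∂stdPi ι) ^ 2 ≤ ∫ x, F x ^ 2 ∂stdPi ι := by
  obtain ⟨B, hB⟩ := hF.bdd
  set c : ι → ℝ := fun e => ∫ x, pd F x e ∂stdPi ι with hc
  have hi : ∀ e, Integrable (fun x => c e * (x e * F x)) (stdPi ι) := fun e =>
    ((integrable_coord e).mul_bdd (c := B) hF.continuous.aestronglyMeasurable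
      (ae_of_all _ fun x => (hB x).1)).const_mul _
  have hi2 : Integrable (fun x : ι → ℝ => (∑ e, c e * x e) ^ 2) (stdPi ι) := by
    by_cases h : ∑ e, c e ^ 2 = 0
    · have hz : ∀ e, c e = 0 := fun e => pow_eq_zero_iff two_ne_zero |>.1
        ((sum_eq_zero_iff_of_nonneg fun e _ => sq_nonneg _).1 h e (mem_univ e))
      simp [hz]
    · exact not_imp_comm.1 integral_undef (by rw [integral_lin_sq]; exact h)
  have hF2 : Integrable (fun x => F x ^ 2) (stdPi ι) :=
    integrable_bdd (hF.continuous.pow 2) (B := B ^ 2) fun x => by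
      rw [abs_pow]; exact pow_le_pow_left₀ (abs_nonneg _) (hB x).1 2
  have e1 : ∫ x, ∑ e, c e * (x e * F x) ∂stdPi ι = ∑ e, c e ^ 2 := by
    rw [integral_finsetSum _ fun e _ => hi e]
    refine sum_congr rfl fun e _ => ?_
    rw [integral_const_mul, stein hF e, sq]
  have h := integral_mono (μ := stdPi ι) (f := fun x => 2 * ∑ e, c e * (x e * F x))
    ((integrable_finsetSum _ fun e _ => hi e).const_mul 2) (hi2.add hF2) fun x => by
      simp only [Pi.add_apply, ← mul_assoc (c _), ← sum_mul]
      nlinarith [sq_nonneg (∑ e, c e * x e - F x)]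
  rw [integral_const_mul, e1] at h
  simp only [Pi.add_apply] at h
  rw [integral_add hi2 hF2, integral_lin_sq] at h
  linarith

/-- the correlation function of two observables -/
noncomputable def cor (f h : (ι → ℝ) → ℝ) (u : ℝ) : ℝ :=
  ∫ q, f q.1 * h (rot u q.1 q.2) ∂(stdPi ι).prod (stdPi ι)

/-- its derivative -/
noncomputable def dcor (f h : (ι → ℝ) → ℝ) (u : ℝ) : ℝ := ∑ e, cor (pd f · e) (pd h · e) u

omit [Fintype ι] [DecidableEq ι] in
lemma continuous_rot : Continuous fun p : ℝ × (ι → ℝ) × (ι → ℝ) => rot p.1 p.2.1 p.2.2 := by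
  unfold rot; fun_prop

lemma continuous_cor {f h : (ι → ℝ) → ℝ} (hf : Continuous f) (hh : Continuous h) {A B : ℝ}
    (hA : ∀ x, |f x| ≤ A) (hB : ∀ x, |h x| ≤ B) : Continuous (cor f h) := by
  refine continuous_of_dominated
    (F := fun u (q : (ι → ℝ) × (ι → ℝ)) => f q.1 * h (rot u q.1 q.2))
    (bound := fun _ => A * B) (fun u => ?_) (fun u => ae_of_all _ fun q => ?_)
    (integrable_const _) (ae_of_all _ fun q => ?_)
  · exact ((hf.comp continuous_fst).mul (hh.comp (by unfold rot; fun_prop))).aestronglyMeasurable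
  · rw [Real.norm_eq_abs, abs_mul]
    exact mul_le_mul (hA _) (hB _) (abs_nonneg _) ((abs_nonneg _).trans (hA q.1))
  · exact continuous_const.mul (hh.comp (by unfold rot; fun_prop))

lemma continuous_dcor {f h : (ι → ℝ) → ℝ} (hf : Nice f) (hh : Nice h) :
    Continuous (dcor f h) := by
  obtain ⟨A, hA⟩ := hf.bdd
  obtain ⟨B, hB⟩ := hh.bdd
  exact continuous_finsetSum _ fun e _ => continuous_cor (continuous_pd hf e) (continuous_pd hh e)
    (fun x => abs_pd_le (fun x => (hA x).2) x e) (fun x => abs_pd_le (fun x => (hB x).2) x e)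

lemma hasDerivAt_cor {f h : (ι → ℝ) → ℝ} (hf : Nice f) (hh : Nice h) {u : ℝ}
    (hu : u ∈ Set.Ioo (-1 : ℝ) 1) : HasDerivAt (cor f h) (dcor f h u) u := by
  obtain ⟨A, hA⟩ := hf.bdd
  obtain ⟨B, hB⟩ := hh.bdd
  have hA0 : 0 ≤ A := (abs_nonneg _).trans (hA 0).1
  have hB0 : 0 ≤ B := (abs_nonneg _).trans (hB 0).1
  set a := (|u| + 1) / 2 with ha
  have hua : |u| < a := by have := abs_lt.2 hu; rw [ha]; linarith
  have ha1 : a < 1 := by have := abs_lt.2 hu; rw [ha]; linarith
  have ha0 : 0 ≤ a := (abs_nonneg u).trans hua.le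
  set K := a / √(1 - a ^ 2) with hK
  have hsa : 0 < √(1 - a ^ 2) := Real.sqrt_pos.2 (by nlinarith)
  set S : Set ℝ := Set.Ioo (-a) a with hS
  set F' : ℝ → (ι → ℝ) × (ι → ℝ) → ℝ := fun v q =>
    f q.1 * ∑ e, (q.1 e - v / √(1 - v ^ 2) * q.2 e) * pd h (rot v q.1 q.2) e with hF'
  have hsqrt : ∀ v ∈ S, HasDerivAt (fun w => √(1 - w ^ 2)) (-(v / √(1 - v ^ 2))) v := by
    intro v hv
    have hv1 : 0 < 1 - v ^ 2 := by
      have h2 := sq_lt_sq' hv.1 hv.2
      nlinarith
    refine (((hasDerivAt_pow 2 v).const_sub 1).sqrt hv1.ne').congr_deriv ?_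
    have := Real.sqrt_pos.2 hv1
    field_simp
    ring
  have hmain := hasDerivAt_integral_of_dominated_loc_of_deriv_le
    (μ := (stdPi ι).prod (stdPi ι)) (F := fun v q => f q.1 * h (rot v q.1 q.2)) (F' := F')
    (s := S) (Ioo_mem_nhds (abs_lt.1 hua).1 (abs_lt.1 hua).2)
    (x₀ := u) (bound := fun q => A * ∑ e, (|q.1 e| + K * |q.2 e|) * B)
    (Eventually.of_forall fun v => ((hf.continuous.comp continuous_fst).mul
      (hh.continuous.comp (by unfold rot; fun_prop))).aestronglyMeasurable)
    (integrable_bdd ((hf.continuous.comp continuous_fst).mul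
      (hh.continuous.comp (by unfold rot; fun_prop))) (B := A * B) fun q => by
        rw [abs_mul]; exact mul_le_mul (hA _).1 (hB _).1 (abs_nonneg _) hA0)
    (show AEStronglyMeasurable (F' u) _ from
      ((hf.continuous.comp continuous_fst).mul (continuous_finsetSum _ fun e _ =>
      (((continuous_apply e).comp continuous_fst).sub (continuous_const.mul
        ((continuous_apply e).comp continuous_snd))).mul
      ((continuous_pd hh e).comp (by unfold rot; fun_prop)))).aestronglyMeasurable)
    (ae_of_all _ fun q v hv => ?_) ?_ (ae_of_all _ fun q v hv => ?_)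
  · refine hmain.2.congr_deriv ?_
    set s := √(1 - u ^ 2) with hs
    have hu2 : u ^ 2 < 1 := by
      have h2 := sq_lt_sq' hu.1 hu.2
      linarith [one_pow (M := ℝ) 2]
    have hs0 : 0 < s := Real.sqrt_pos.2 (by linarith)
    have hs2 : s ^ 2 = 1 - u ^ 2 := Real.sq_sqrt (by linarith)
    have hY : ∀ e, Integrable (fun q : (ι → ℝ) × (ι → ℝ) => q.1 e) ((stdPi ι).prod (stdPi ι)) :=
      fun e => (integrable_coord e).comp_fst _
    have hZ : ∀ e, Integrable (fun q : (ι → ℝ) × (ι → ℝ) => q.2 e) ((stdPi ι).prod (stdPi ι)) :=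
      fun e => (integrable_coord e).comp_snd _
    have hcore : ∀ e, ∫ q, f q.1 * ((q.1 e - u / s * q.2 e) * pd h (rot u q.1 q.2) e)
        ∂(stdPi ι).prod (stdPi ι) = cor (pd f · e) (pd h · e) u := by
      intro e
      -- the function before rotation
      set G : (ι → ℝ) × (ι → ℝ) → ℝ := fun q =>
        f (u • q.1 + (-s) • q.2) * (-(q.2 e) / s * pd h q.1 e) with hG
      have hGc : Continuous G := by
        refine (hf.continuous.comp (by fun_prop)).mul ?_
        exact (((continuous_apply e).comp continuous_snd).neg.div_const _).mul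
          ((continuous_pd hh e).comp continuous_fst)
      have e1 : ∀ q : (ι → ℝ) × (ι → ℝ), G (rot u q.1 q.2, (-s) • q.1 + u • q.2) =
          f q.1 * ((q.1 e - u / s * q.2 e) * pd h (rot u q.1 q.2) e) := by
        intro q
        have ef : u • rot u q.1 q.2 + (-s) • ((-s) • q.1 + u • q.2) = q.1 := by
          funext j
          simp only [rot, ← hs, Pi.add_apply, Pi.smul_apply, smul_eq_mul]
          linear_combination q.1 j * hs2
        simp only [hG, ef, Pi.add_apply, Pi.smul_apply, smul_eq_mul]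
        field_simp
        ring
      rw [← funext e1, hs, integral_rotate hu2.le hGc]
      have hGi : Integrable G ((stdPi ι).prod (stdPi ι)) := by
        refine ((hZ e).abs.const_mul (A * (B / s))).mono' hGc.aestronglyMeasurable
          (ae_of_all _ fun q => ?_)
        simp only [hG, Real.norm_eq_abs, abs_mul, abs_div, abs_neg, abs_of_pos hs0]
        refine le_trans (mul_le_mul (hA _).1 (mul_le_mul_of_nonneg_left
          (abs_pd_le (fun x => (hB x).2) q.1 e) (by positivity)) (by positivity) hA0) (le_of_eq ?_)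
        ring
      rw [integral_prod _ hGi]
      set Hf : (ι → ℝ) × (ι → ℝ) → ℝ := fun q =>
        pd f (u • q.1 + (-s) • q.2) e * pd h q.1 e with hHf
      have hHc : Continuous Hf :=
        ((continuous_pd hf e).comp (by fun_prop)).mul ((continuous_pd hh e).comp continuous_fst)
      have hinner : ∀ y, ∫ v, G (y, v) ∂stdPi ι = ∫ v, Hf (y, v) ∂stdPi ι := by
        intro y
        let L : (ι → ℝ) →L[ℝ] (ι → ℝ) := (-s) • .id ℝ _
        have hnice : Nice fun v => f (L v + u • y) := hf.comp_affine L _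
        have hpd : ∀ v, pd (fun v => f (L v + u • y)) v e = -s * pd f (u • y + (-s) • v) e := by
          intro v
          have hd : HasFDerivAt (fun v => f (L v + u • y)) ((fderiv ℝ f (L v + u • y)).comp L) v :=
            (hf.differentiable _).hasFDerivAt.comp v (L.hasFDerivAt.add_const _)
          rw [pd, hd.fderiv, ContinuousLinearMap.comp_apply,
            show L (Pi.single e 1) = (-s) • Pi.single e 1 by simp [L], map_smul,
            show L v = (-s) • v by simp [L], add_comm, smul_eq_mul]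
          rfl
        calc ∫ v, G (y, v) ∂stdPi ι
            = ∫ v, (-(pd h y e) / s) * (v e * f (L v + u • y)) ∂stdPi ι := by
              refine integral_congr_ae (ae_of_all _ fun v => ?_)
              simp only [hG, show L v = (-s) • v by simp [L], add_comm ((-s) • v)]
              ring
          _ = ∫ v, Hf (y, v) ∂stdPi ι := by
              rw [integral_const_mul, stein hnice e, ← integral_const_mul]
              refine integral_congr_ae (ae_of_all _ fun v => ?_)
              simp only [hHf, hpd]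
              field_simp
      have hHi : Integrable Hf ((stdPi ι).prod (stdPi ι)) :=
        integrable_bdd hHc (B := A * B) fun q => by
          rw [abs_mul]
          exact mul_le_mul (abs_pd_le (fun x => (hA x).2) _ e)
            (abs_pd_le (fun x => (hB x).2) _ e) (abs_nonneg _) hA0
      rw [funext hinner, ← integral_prod _ hHi, ← integral_rotate hu2.le hHc, cor]
      refine integral_congr_ae (ae_of_all _ fun q => ?_)
      simp only [hHf, ← hs]
      congr 2
      funext j
      simp only [rot, ← hs, Pi.add_apply, Pi.smul_apply, smul_eq_mul]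
      linear_combination q.1 j * hs2
    simp only [hF', mul_sum, dcor, ← hcore, ← hs]
    refine (integral_finsetSum _ fun e _ => ?_)
    have hI : Integrable (fun q : (ι → ℝ) × (ι → ℝ) => q.1 e - u / s * q.2 e)
        ((stdPi ι).prod (stdPi ι)) := (hY e).sub ((hZ e).const_mul _)
    exact (hI.mul_bdd (c := B) ((continuous_pd hh e).comp (by unfold rot; fun_prop)).aestronglyMeasurable
      (ae_of_all _ fun q => abs_pd_le (fun x => (hB x).2) _ e)).bdd_mul (c := A)
      (hf.continuous.comp continuous_fst).aestronglyMeasurable (ae_of_all _ fun q => (hA _).1)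
  · have hv2 : v ^ 2 ≤ a ^ 2 := (sq_le_sq' hv.1.le hv.2.le)
    have hv' : |v / √(1 - v ^ 2)| ≤ K := by
      rw [abs_div, abs_of_nonneg (Real.sqrt_nonneg _)]
      exact div_le_div₀ ha0 (abs_le.2 ⟨hv.1.le, hv.2.le⟩) hsa
        (Real.sqrt_le_sqrt (by linarith))
    rw [Real.norm_eq_abs, hF', abs_mul]
    refine mul_le_mul (hA _).1 ((abs_sum_le_sum_abs _ _).trans (sum_le_sum fun e _ => ?_))
      (abs_nonneg _) hA0
    rw [abs_mul]
    refine mul_le_mul ((abs_sub _ _).trans ?_) (abs_pd_le (fun x => (hB x).2) _ e) (abs_nonneg _)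
      (by have : 0 ≤ K := by positivity
          positivity)
    rw [abs_mul]
    exact add_le_add le_rfl (mul_le_mul_of_nonneg_right hv' (abs_nonneg _))
  · exact (integrable_finsetSum _ fun e _ =>
      (((integrable_coord e).comp_fst _).abs.add
        (((integrable_coord e).comp_snd _).abs.const_mul K)).mul_const B).const_mul A
  · have hr : HasDerivAt (fun w => rot w q.1 q.2)
        (q.1 + (-(v / √(1 - v ^ 2))) • q.2) v := by
      simp only [rot]
      exact ((hasDerivAt_id v).smul_const q.1).congr_deriv (one_smul ℝ _) |>.add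
        ((hsqrt v hv).smul_const q.2)
    refine (((hh.differentiable _).hasFDerivAt.comp_hasDerivAt v hr).const_mul (f q.1)).congr_deriv ?_
    rw [hF']
    congr 1
    conv_lhs => rw [pi_eq_sum_univ' (q.1 + (-(v / √(1 - v ^ 2))) • q.2)]
    rw [map_sum]
    refine sum_congr rfl fun e _ => ?_
    rw [map_smul, smul_eq_mul, pd]
    simp only [Pi.add_apply, Pi.smul_apply, smul_eq_mul]
    ring

/-- **Gaussian interpolation.** -/
theorem cor_sub {f h : (ι → ℝ) → ℝ} (hf : Nice f) (hh : Nice h) {r : ℝ} (h0 : 0 ≤ r) (h1 : r ≤ 1) :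
    cor f h r - cor f h 0 = ∫ u in 0..r, dcor f h u := by
  obtain ⟨A, hA⟩ := hf.bdd
  obtain ⟨B, hB⟩ := hh.bdd
  refine (intervalIntegral.integral_eq_sub_of_hasDerivAt_of_le h0 ?_ (fun u hu => ?_)
    ((continuous_dcor hf hh).intervalIntegrable _ _)).symm
  · exact (continuous_cor hf.continuous hh.continuous (fun x => (hA x).1)
      fun x => (hB x).1).continuousOn
  · exact hasDerivAt_cor hf hh ⟨by linarith [hu.1], by linarith [hu.2]⟩

omit [Fintype ι] [DecidableEq ι] in
lemma rot_one (y z : ι → ℝ) : rot 1 y z = y := by simp [rot]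

omit [Fintype ι] [DecidableEq ι] in
lemma rot_zero (y z : ι → ℝ) : rot 0 y z = z := by simp [rot]

/-- second marginal of a rotated pair -/
lemma integral_rot_snd {u : ℝ} (hu : u ^ 2 ≤ 1) {F : (ι → ℝ) → ℝ} (hF : Continuous F) :
    ∫ q, F (rot u q.1 q.2) ∂(stdPi ι).prod (stdPi ι) = ∫ x, F x ∂stdPi ι := by
  have h : Continuous fun q : (ι → ℝ) × (ι → ℝ) => F q.1 := hF.comp continuous_fst
  rw [integral_rotate hu h]
  simp [integral_fun_fst]

/-- **Gaussian Poincaré inequality.** -/
theorem poincare {F : (ι → ℝ) → ℝ} (hF : Nice F) :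
    ∫ x, F x ^ 2 ∂stdPi ι - (∫ x, F x ∂stdPi ι) ^ 2 ≤ ∑ e, ∫ x, pd F x e ^ 2 ∂stdPi ι := by
  obtain ⟨B, hB⟩ := hF.bdd
  have e1 : cor F F 1 = ∫ x, F x ^ 2 ∂stdPi ι := by
    simp only [cor, rot_one, ← sq]
    simp [integral_fun_fst (fun y : ι → ℝ => F y ^ 2)]
  have e0 : cor F F 0 = (∫ x, F x ∂stdPi ι) ^ 2 := by
    simp only [cor, rot_zero]
    rw [integral_prod_mul, sq]
  rw [← e1, ← e0, cor_sub hF hF zero_le_one le_rfl]
  have hb : ∀ u ∈ Set.Icc (0 : ℝ) 1, dcor F F u ≤ ∑ e, ∫ x, pd F x e ^ 2 ∂stdPi ι := by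
    intro u hu
    have hu2 : u ^ 2 ≤ 1 := pow_le_one₀ hu.1 hu.2
    refine sum_le_sum fun e _ => ?_
    have hp := continuous_pd hF e
    have hpb : ∀ x, |pd F x e ^ 2| ≤ B ^ 2 := fun x => by
      rw [abs_pow]; exact pow_le_pow_left₀ (abs_nonneg _) (abs_pd_le (fun x => (hB x).2) x e) 2
    have i1 : Integrable (fun q : (ι → ℝ) × (ι → ℝ) => pd F q.1 e ^ 2 / 2)
        ((stdPi ι).prod (stdPi ι)) :=
      (integrable_bdd ((hp.comp continuous_fst).pow 2) fun q => hpb q.1).div_const 2
    have i2 : Integrable (fun q : (ι → ℝ) × (ι → ℝ) => pd F (rot u q.1 q.2) e ^ 2 / 2)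
        ((stdPi ι).prod (stdPi ι)) :=
      (integrable_bdd ((hp.comp (by unfold rot; fun_prop)).pow 2) fun q => hpb _).div_const 2
    have hprod : Integrable (fun q : (ι → ℝ) × (ι → ℝ) => pd F q.1 e * pd F (rot u q.1 q.2) e)
        ((stdPi ι).prod (stdPi ι)) :=
      integrable_bdd ((hp.comp continuous_fst).mul (hp.comp (by unfold rot; fun_prop))) (B := B * B)
        fun q => by
          rw [abs_mul]
          exact mul_le_mul (abs_pd_le (fun x => (hB x).2) _ e) (abs_pd_le (fun x => (hB x).2) _ e)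
            (abs_nonneg _) ((abs_nonneg _).trans (hB 0).1)
    refine (integral_mono hprod (i1.add i2) fun q => by
      simp only [Pi.add_apply]
      nlinarith [sq_nonneg (pd F q.1 e - pd F (rot u q.1 q.2) e)]).trans (le_of_eq ?_)
    simp only [Pi.add_apply]
    rw [integral_add i1 i2, integral_div, integral_div,
      integral_rot_snd hu2 (F := fun x => pd F x e ^ 2) (hp.pow 2)]
    simp [integral_fun_fst (fun y : ι → ℝ => pd F y e ^ 2)]
  have := intervalIntegral.integral_mono_on zero_le_one ((continuous_dcor hF hF).intervalIntegrable 0 1)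
    (intervalIntegrable_const (μ := volume)) hb
  simpa using this

end Vale.Agent.P146.Chaos
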