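import Vale.Agent.P150.SlowIBP

/-! # P146: laws of linear images of standard Gaussian vectors -/

namespace Vale.Agent.P146.Chaos

open Finset MeasureTheory ProbabilityTheory
open Vale.Agent.P150.Slow

variable {ι κ : Type*} [Fintype ι] [Fintype κ]

lemma charFunDual_stdPi [DecidableEq ι] (φ : StrongDual ℝ (ι → ℝ)) :
    charFunDual (stdPi ι) φ =
      Complex.exp (-((∑ i, φ (Pi.single i 1) ^ 2 : ℝ) : ℂ) / 2) := by
  rw [stdPi, charFunDual_pi]
  rw [show (-((∑ i, φ (Pi.single i 1) ^ 2 : ℝ) : ℂ) / 2)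
    = ∑ i, -((φ (Pi.single i 1) : ℂ) ^ 2) / 2 by
      push_cast; rw [← sum_neg_distrib, sum_div], Complex.exp_sum]
  refine prod_congr rfl fun i _ => ?_
  have hsm : ∀ x : ℝ, φ (Pi.single i x) = x * φ (Pi.single i 1) := fun x => by
    rw [← smul_eq_mul, ← map_smul, ← Pi.single_smul, smul_eq_mul, mul_one]
  rw [IsGaussian.charFunDual_eq]
  have e : ⇑(φ.comp (ContinuousLinearMap.single ℝ (fun _ : ι => ℝ) i)) =
      fun x : ℝ => φ (Pi.single i 1) * x := by
    funext x
    rw [ContinuousLinearMap.comp_apply, ContinuousLinearMap.single_apply, hsm, mul_comm]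
  rw [e, variance_const_mul, integral_complex_ofReal, integral_const_mul]
  rw [integral_id_gaussianReal, show Var[fun x : ℝ => x; gaussianReal 0 1] = 1 by simp]
  congr 1
  push_cast
  ring

/-- Linear images of standard Gaussian vectors with the same covariance have the same law. -/
theorem map_eq_of_cov [DecidableEq ι] [DecidableEq κ] {V : Type*} [NormedAddCommGroup V]
    [NormedSpace ℝ V] [MeasurableSpace V] [BorelSpace V] [FiniteDimensional ℝ V]
    (L : (ι → ℝ) →L[ℝ] V) (L' : (κ → ℝ) →L[ℝ] V)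
    (h : ∀ φ : StrongDual ℝ V,
      ∑ i, φ (L (Pi.single i 1)) ^ 2 = ∑ k, φ (L' (Pi.single k 1)) ^ 2) :
    (stdPi ι).map L = (stdPi κ).map L' := by
  have : CompleteSpace V := FiniteDimensional.complete ℝ V
  have : SecondCountableTopology V := secondCountable_of_proper
  refine Measure.ext_of_charFunDual ?_
  ext φ
  rw [charFunDual_map, charFunDual_map, charFunDual_stdPi, charFunDual_stdPi]
  simp only [ContinuousLinearMap.coe_comp, Function.comp_apply, h φ]

/-- the interpolated system `√r b + √(1-r) z` -/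
noncomputable def sys (r : ℝ) (b z : ι → ℝ) : ι → ℝ := √r • b + √(1 - r) • z

/-- a vector with correlation `u` to `y` -/
noncomputable def rot (u : ℝ) (y z : ι → ℝ) : ι → ℝ := u • y + √(1 - u ^ 2) • z

omit [Fintype ι] in
@[fun_prop] lemma continuous_sys (r : ℝ) :
    Continuous fun p : (ι → ℝ) × (ι → ℝ) => sys r p.1 p.2 := by unfold sys; fun_prop

lemma mp_sum : MeasurePreserving (fun g : ι ⊕ κ → ℝ => (g ∘ Sum.inl, g ∘ Sum.inr))
    (stdPi (ι ⊕ κ)) ((stdPi ι).prod (stdPi κ)) :=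
  measurePreserving_sumPiEquivProdPi (fun _ : ι ⊕ κ => gaussianReal 0 1)

/-- `α x + β z` is distributed as `γ x` when `γ² = α² + β²`. -/
theorem integral_merge [DecidableEq ι] {E : Type*} [NormedAddCommGroup E] [NormedSpace ℝ E]
    (α β γ : ℝ) (h : γ ^ 2 = α ^ 2 + β ^ 2) {F : (ι → ℝ) → E} (hF : Continuous F) :
    ∫ q, F (α • q.1 + β • q.2) ∂(stdPi ι).prod (stdPi ι) = ∫ x, F (γ • x) ∂stdPi ι := by
  let P1 : (ι ⊕ ι → ℝ) →L[ℝ] (ι → ℝ) := ContinuousLinearMap.pi fun i => .proj (Sum.inl i)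
  let P2 : (ι ⊕ ι → ℝ) →L[ℝ] (ι → ℝ) := ContinuousLinearMap.pi fun i => .proj (Sum.inr i)
  let L : (ι ⊕ ι → ℝ) →L[ℝ] (ι → ℝ) := α • P1 + β • P2
  let L' : (ι → ℝ) →L[ℝ] (ι → ℝ) := γ • .id ℝ _
  have e := map_eq_of_cov L L' fun φ => by
    have e1 : ∀ i, L (Pi.single (Sum.inl i) 1) = α • Pi.single i 1 := fun i => by
      funext j; simp [L, P1, P2, Pi.single_apply]
    have e2 : ∀ i, L (Pi.single (Sum.inr i) 1) = β • Pi.single i 1 := fun i => by
      funext j; simp [L, P1, P2, Pi.single_apply]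
    simp only [Fintype.sum_sum_type, e1, e2, L', ContinuousLinearMap.smul_apply,
      ContinuousLinearMap.id_apply, map_smul, smul_eq_mul, mul_pow, h, add_mul, sum_add_distrib]
  have hm := mp_sum (ι := ι) (κ := ι)
  calc ∫ q, F (α • q.1 + β • q.2) ∂(stdPi ι).prod (stdPi ι)
      = ∫ g, F (L g) ∂stdPi (ι ⊕ ι) := by
        rw [← hm.map_eq, integral_map hm.measurable.aemeasurable]
        · rfl
        · exact (hF.comp (by fun_prop)).aestronglyMeasurable
    _ = ∫ x, F x ∂(stdPi (ι ⊕ ι)).map L :=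
        (integral_map L.continuous.measurable.aemeasurable hF.aestronglyMeasurable).symm
    _ = _ := by
        rw [e, integral_map L'.continuous.measurable.aemeasurable hF.aestronglyMeasurable]
        rfl

/-- Rotations preserve the law of an independent pair. -/
theorem integral_rotate [DecidableEq ι] {E : Type*} [NormedAddCommGroup E] [NormedSpace ℝ E]
    {u : ℝ} (hu : u ^ 2 ≤ 1) {F : (ι → ℝ) × (ι → ℝ) → E} (hF : Continuous F) :
    ∫ q, F (rot u q.1 q.2, (-√(1 - u ^ 2)) • q.1 + u • q.2) ∂(stdPi ι).prod (stdPi ι) =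
      ∫ q, F q ∂(stdPi ι).prod (stdPi ι) := by
  let P1 : (ι ⊕ ι → ℝ) →L[ℝ] (ι → ℝ) := ContinuousLinearMap.pi fun i => .proj (Sum.inl i)
  let P2 : (ι ⊕ ι → ℝ) →L[ℝ] (ι → ℝ) := ContinuousLinearMap.pi fun i => .proj (Sum.inr i)
  set v := √(1 - u ^ 2) with hv
  have hv2 : v ^ 2 = 1 - u ^ 2 := Real.sq_sqrt (by linarith)
  let L : (ι ⊕ ι → ℝ) →L[ℝ] (ι → ℝ) × (ι → ℝ) :=
    (u • P1 + v • P2).prod ((-v) • P1 + u • P2)
  let L' : (ι ⊕ ι → ℝ) →L[ℝ] (ι → ℝ) × (ι → ℝ) := P1.prod P2
  have e := map_eq_of_cov L L' fun φ => by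
    have hlin : ∀ (a b : ℝ) (x : ι → ℝ), φ (a • x, b • x) = a * φ (x, 0) + b * φ (0, x) := by
      intro a b x
      rw [← smul_eq_mul, ← smul_eq_mul, ← map_smul, ← map_smul, ← map_add]
      simp
    have e1 : ∀ i, L (Pi.single (Sum.inl i) 1) = (u • Pi.single i 1, (-v) • Pi.single i 1) := by
      intro i; ext j <;> simp [L, P1, P2, Pi.single_apply] <;> split_ifs <;> simp
    have e2 : ∀ i, L (Pi.single (Sum.inr i) 1) = (v • Pi.single i 1, u • Pi.single i 1) := by
      intro i; ext j <;> simp [L, P1, P2, Pi.single_apply]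
    have e3 : ∀ i, L' (Pi.single (Sum.inl i) 1) = (Pi.single i 1, 0) := by
      intro i; ext j <;> simp [L', P1, P2, Pi.single_apply]
    have e4 : ∀ i, L' (Pi.single (Sum.inr i) 1) = (0, Pi.single i 1) := by
      intro i; ext j <;> simp [L', P1, P2, Pi.single_apply]
    simp only [Fintype.sum_sum_type, e1, e2, e3, e4, hlin, ← sum_add_distrib]
    refine sum_congr rfl fun i _ => ?_
    linear_combination
      (φ (Pi.single i 1, 0) ^ 2 + φ (0, Pi.single i 1) ^ 2) * hv2
  have hm := mp_sum (ι := ι) (κ := ι)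
  calc ∫ q, F (rot u q.1 q.2, (-v) • q.1 + u • q.2) ∂(stdPi ι).prod (stdPi ι)
      = ∫ g, F (L g) ∂stdPi (ι ⊕ ι) := by
        rw [← hm.map_eq, integral_map hm.measurable.aemeasurable]
        · rfl
        · exact (hF.comp (by unfold rot; fun_prop)).aestronglyMeasurable
    _ = ∫ x, F x ∂(stdPi (ι ⊕ ι)).map L :=
        (integral_map L.continuous.measurable.aemeasurable hF.aestronglyMeasurable).symm
    _ = _ := by
        rw [e, integral_map L'.continuous.measurable.aemeasurable hF.aestronglyMeasurable,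
          ← hm.map_eq, integral_map hm.measurable.aemeasurable]
        · rfl
        · exact hF.aestronglyMeasurable

/-- Two systems over a common base form a pair with correlation `r`. -/
theorem integral_sys_pair [DecidableEq ι] {E : Type*} [NormedAddCommGroup E] [NormedSpace ℝ E]
    {r : ℝ} (h0 : 0 ≤ r) (h1 : r ≤ 1) {F : (ι → ℝ) × (ι → ℝ) → E} (hF : Continuous F) :
    ∫ q, F (sys r q.1 q.2.1, sys r q.1 q.2.2)
        ∂(stdPi ι).prod ((stdPi ι).prod (stdPi ι)) =
      ∫ q, F (q.1, rot r q.1 q.2) ∂(stdPi ι).prod (stdPi ι) := by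
  let A : (ι ⊕ (ι ⊕ ι) → ℝ) →L[ℝ] (ι → ℝ) := ContinuousLinearMap.pi fun i => .proj (Sum.inl i)
  let B : (ι ⊕ (ι ⊕ ι) → ℝ) →L[ℝ] (ι → ℝ) :=
    ContinuousLinearMap.pi fun i => .proj (Sum.inr (Sum.inl i))
  let C : (ι ⊕ (ι ⊕ ι) → ℝ) →L[ℝ] (ι → ℝ) :=
    ContinuousLinearMap.pi fun i => .proj (Sum.inr (Sum.inr i))
  let P1 : (ι ⊕ ι → ℝ) →L[ℝ] (ι → ℝ) := ContinuousLinearMap.pi fun i => .proj (Sum.inl i)
  let P2 : (ι ⊕ ι → ℝ) →L[ℝ] (ι → ℝ) := ContinuousLinearMap.pi fun i => .proj (Sum.inr i)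
  let L := (√r • A + √(1 - r) • B).prod (√r • A + √(1 - r) • C)
  let L' := P1.prod (r • P1 + √(1 - r ^ 2) • P2)
  have e := map_eq_of_cov L L' fun φ => by
    have hlin : ∀ (a b : ℝ) (x : ι → ℝ), φ (a • x, b • x) = a * φ (x, 0) + b * φ (0, x) := by
      intro a b x
      rw [← smul_eq_mul, ← smul_eq_mul, ← map_smul, ← map_smul, ← map_add]
      simp
    have e1 : ∀ i, L (Pi.single (Sum.inl i) 1) = (√r • Pi.single i 1, √r • Pi.single i 1) := by
      intro i; ext j <;> simp [L, A, B, C, Pi.single_apply]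
    have e2 : ∀ i, L (Pi.single (Sum.inr (Sum.inl i)) 1) =
        (√(1 - r) • Pi.single i 1, (0 : ℝ) • Pi.single i 1) := by
      intro i; ext j <;> simp [L, A, B, C, Pi.single_apply]
    have e3 : ∀ i, L (Pi.single (Sum.inr (Sum.inr i)) 1) =
        ((0 : ℝ) • Pi.single i 1, √(1 - r) • Pi.single i 1) := by
      intro i; ext j <;> simp [L, A, B, C, Pi.single_apply]
    have e4 : ∀ i, L' (Pi.single (Sum.inl i) 1) = ((1 : ℝ) • Pi.single i 1, r • Pi.single i 1) := by
      intro i; ext j <;> simp [L', P1, P2, Pi.single_apply]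
    have e5 : ∀ i, L' (Pi.single (Sum.inr i) 1) =
        ((0 : ℝ) • Pi.single i 1, √(1 - r ^ 2) • Pi.single i 1) := by
      intro i; ext j <;> simp [L', P1, P2, Pi.single_apply]
    simp only [Fintype.sum_sum_type, e1, e2, e3, e4, e5, hlin, ← sum_add_distrib]
    refine sum_congr rfl fun i _ => ?_
    linear_combination
      (φ (Pi.single i 1, 0) + φ (0, Pi.single i 1)) ^ 2 * Real.sq_sqrt h0
      + (φ (Pi.single i 1, 0) ^ 2 + φ (0, Pi.single i 1) ^ 2) * Real.sq_sqrt (sub_nonneg.2 h1)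
      - φ (0, Pi.single i 1) ^ 2 * Real.sq_sqrt (show (0 : ℝ) ≤ 1 - r ^ 2 by nlinarith)
  have hm := mp_sum (ι := ι) (κ := ι)
  have hm3 := ((MeasurePreserving.id (stdPi ι)).prod hm).comp (mp_sum (ι := ι) (κ := ι ⊕ ι))
  calc ∫ q, F (sys r q.1 q.2.1, sys r q.1 q.2.2) ∂(stdPi ι).prod ((stdPi ι).prod (stdPi ι))
      = ∫ g, F (L g) ∂stdPi (ι ⊕ (ι ⊕ ι)) := by
        rw [← hm3.map_eq, integral_map hm3.measurable.aemeasurable]
        · rfl
        · exact (hF.comp (by unfold sys; fun_prop)).aestronglyMeasurable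
    _ = ∫ x, F x ∂(stdPi (ι ⊕ (ι ⊕ ι))).map L :=
        (integral_map L.continuous.measurable.aemeasurable hF.aestronglyMeasurable).symm
    _ = _ := by
        rw [e, integral_map L'.continuous.measurable.aemeasurable hF.aestronglyMeasurable,
          ← hm.map_eq, integral_map hm.measurable.aemeasurable]
        · rfl
        · exact (hF.comp (by unfold rot; fun_prop)).aestronglyMeasurable

lemma integral_eval_sq (i : ι) : ∫ x, x i ^ 2 ∂stdPi ι = 1 := by
  have h := measurePreserving_eval (fun _ : ι => gaussianReal 0 1) i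
  have e1 := integral_map (μ := stdPi ι) (measurable_pi_apply (X := fun _ : ι => ℝ) i).aemeasurable
    (f := fun y : ℝ => y ^ 2) (by fun_prop)
  rw [← e1, stdPi, h.map_eq]
  have := variance_fun_id_gaussianReal (μ := 0) (v := 1)
  rw [variance_eq_integral (by fun_prop)] at this
  simpa using this

/-- second moment of a linear form -/
lemma integral_lin_sq [DecidableEq ι] (c : ι → ℝ) :
    ∫ x, (∑ i, c i * x i) ^ 2 ∂stdPi ι = ∑ i, c i ^ 2 := by
  let L : (ι → ℝ) →L[ℝ] ℝ := ∑ i, c i • ContinuousLinearMap.proj i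
  let L' : (Fin 1 → ℝ) →L[ℝ] ℝ := √(∑ i, c i ^ 2) • ContinuousLinearMap.proj 0
  have h0 : 0 ≤ ∑ i, c i ^ 2 := sum_nonneg fun i _ => sq_nonneg _
  have e := map_eq_of_cov L L' fun φ => by
    have hφ : ∀ x, φ x = x * φ 1 := fun x => by
      rw [← smul_eq_mul, ← map_smul, smul_eq_mul, mul_one]
    have e1 : ∀ i, L (Pi.single i 1) = c i := fun i => by simp [L, Pi.single_apply]
    have e2 : L' (Pi.single 0 1) = √(∑ i, c i ^ 2) := by simp [L']
    rw [Fin.sum_univ_one, e2, hφ, mul_pow, Real.sq_sqrt h0, sum_mul]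
    exact sum_congr rfl fun i _ => by rw [e1, hφ, mul_pow]
  have hc : Continuous fun y : ℝ => y ^ 2 := by fun_prop
  have h1 := integral_map (μ := stdPi ι) L.continuous.measurable.aemeasurable
    (f := fun y : ℝ => y ^ 2) hc.aestronglyMeasurable
  rw [e, integral_map L'.continuous.measurable.aemeasurable hc.aestronglyMeasurable] at h1
  simp only [L, L', ContinuousLinearMap.coe_sum', ContinuousLinearMap.coe_smul', Finset.sum_apply,
    Pi.smul_apply, ContinuousLinearMap.proj_apply, smul_eq_mul, mul_pow, Real.sq_sqrt h0] at h1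
  rw [← h1, integral_const_mul, integral_eval_sq, mul_one]

end Vale.Agent.P146.Chaos
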