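import Vale.Agent.P146.Chaos.Ident

/-! # P146: reindexing Gaussian vectors; nice observables -/

namespace Vale.Agent.P146.Chaos

open Finset MeasureTheory ProbabilityTheory
open Vale.Agent.P150 Vale.Agent.P150.Slow

set_option linter.unusedSectionVars false

section Reindex

variable {ι κ : Type*} [Fintype ι] [Fintype κ] [DecidableEq ι] [DecidableEq κ]

lemma mp_reindex (e : κ ≃ ι) :
    MeasurePreserving (fun g : ι → ℝ => g ∘ e) (stdPi ι) (stdPi κ) := by
  refine ⟨(by fun_prop : Continuous fun g : ι → ℝ => g ∘ e).measurable, ?_⟩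
  let L : (ι → ℝ) →L[ℝ] (κ → ℝ) := ContinuousLinearMap.pi fun k => .proj (e k)
  have h := map_eq_of_cov L (.id ℝ (κ → ℝ)) fun φ => by
    refine Fintype.sum_equiv e.symm _ _ fun i => ?_
    have : L (Pi.single i 1) = Pi.single (e.symm i) 1 := by
      funext k
      simp [L, Pi.single_apply, Equiv.eq_symm_apply]
    rw [this]; rfl
  rw [show (fun g : ι → ℝ => g ∘ e) = ⇑L from rfl, h]
  exact Measure.map_id

variable {A B : Type*} [Fintype A] [Fintype B] [DecidableEq A] [DecidableEq B]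

/-- splitting sources -/
def splitMap (g : (A ⊕ B) × ι → ℝ) : (A × ι → ℝ) × (B × ι → ℝ) :=
  (fun p => g (Sum.inl p.1, p.2), fun p => g (Sum.inr p.1, p.2))

lemma mp_split : MeasurePreserving (splitMap (A := A) (B := B) (ι := ι))
    (stdPi ((A ⊕ B) × ι)) ((stdPi (A × ι)).prod (stdPi (B × ι))) :=
  mp_sum.comp (mp_reindex (Equiv.sumProdDistrib A B ι).symm)

lemma continuous_splitMap : Continuous (splitMap (A := A) (B := B) (ι := ι)) := by
  unfold splitMap; fun_prop

lemma integral_of_mp {α γ : Type*} [MeasurableSpace α] [TopologicalSpace γ] [MeasurableSpace γ]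
    [OpensMeasurableSpace γ] [SecondCountableTopology γ] {μ : Measure α} {ν : Measure γ} {f : α → γ}
    (h : MeasurePreserving f μ ν) {F : γ → ℝ} (hF : Continuous F) :
    ∫ x, F (f x) ∂μ = ∫ y, F y ∂ν := by
  rw [← h.map_eq, integral_map h.measurable.aemeasurable hF.aestronglyMeasurable]

/-- the law of two combinations of sources -/
lemma integral_comb_pair {K : Type*} [Fintype K] [DecidableEq K] (c : Fin 2 → K → ℝ) {u : ℝ}
    (hu : u ^ 2 ≤ 1) (h1 : ∀ S, ∑ k, c S k ^ 2 = 1) (h01 : ∑ k, c 0 k * c 1 k = u)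
    {F : (ι → ℝ) × (ι → ℝ) → ℝ} (hF : Continuous F) :
    ∫ x, F (comb c x 0, comb c x 1) ∂stdPi (K × ι) =
      ∫ q, F (q.1, rot u q.1 q.2) ∂(stdPi ι).prod (stdPi ι) := by
  let c' : Fin 2 → Unit ⊕ Unit → ℝ := fun S k =>
    k.elim (fun _ => if S = 0 then 1 else u) (fun _ => if S = 0 then 0 else √(1 - u ^ 2))
  have hG : ∀ S T, ∑ k, c S k * c T k = ∑ k, c' S k * c' T k := by
    intro S T
    have hs : √(1 - u ^ 2) * √(1 - u ^ 2) = 1 - u ^ 2 := Real.mul_self_sqrt (by linarith)
    have e0 := h1 0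
    have e1 := h1 1
    simp only [sq] at e0 e1
    simp only [c', Fintype.sum_sum_type, Finset.univ_unique, Finset.sum_singleton, Sum.elim_inl,
      Sum.elim_inr]
    fin_cases S <;> fin_cases T
    · simpa using e0
    · simpa using h01
    · simpa [mul_comm] using h01
    · simp only [Fin.mk_one, one_ne_zero, if_false, hs]
      linear_combination e1
  have h := integral_comb (ι := ι) c c' hG (F := fun X => F (X 0, X 1))
    (hF.comp ((continuous_apply 0).prodMk (continuous_apply 1)))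
  rw [h]
  have hm : MeasurePreserving (fun g : (Unit ⊕ Unit) × ι → ℝ =>
      ((fun e => g (Sum.inl (), e)), fun e => g (Sum.inr (), e)))
      (stdPi ((Unit ⊕ Unit) × ι)) ((stdPi ι).prod (stdPi ι)) :=
    ((mp_reindex (Equiv.punitProd ι).symm).prod (mp_reindex (Equiv.punitProd ι).symm)).comp
      (mp_split (A := Unit) (B := Unit))
  rw [← integral_of_mp hm (F := fun q => F (q.1, rot u q.1 q.2))
    (hF.comp (by unfold rot; fun_prop))]
  refine integral_congr_ae (ae_of_all _ fun g => ?_)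
  show F (comb c' g 0, comb c' g 1) = _
  congr 1
  ext e <;> simp [comb, c', rot]

end Reindex

section BC

/-- bounded continuous real functions -/
def BC {α : Type*} [TopologicalSpace α] (f : α → ℝ) : Prop :=
  Continuous f ∧ ∃ B, ∀ x, |f x| ≤ B

variable {α γ δ : Type*} [TopologicalSpace α] [TopologicalSpace γ] [TopologicalSpace δ]
  [MeasurableSpace α] [MeasurableSpace γ] [BorelSpace α] [BorelSpace γ] [SecondCountableTopology α]
  [SecondCountableTopology γ] {μ : Measure α} {ν : Measure γ} [IsProbabilityMeasure μ]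
  [IsProbabilityMeasure ν]

lemma BC.comp {f : γ → ℝ} (hf : BC f) {g : δ → γ} (hg : Continuous g) : BC fun a => f (g a) :=
  ⟨hf.1.comp hg, hf.2.imp fun B h x => h (g x)⟩

lemma BC.integrable {f : α → ℝ} (hf : BC f) : Integrable f μ :=
  hf.2.elim fun B h => integrable_bdd hf.1 h

lemma BC.abs_integral_le {f : α → ℝ} {B : ℝ} (hB : ∀ x, |f x| ≤ B) : |∫ x, f x ∂μ| ≤ B :=
  abs_integral_le_integral_abs.trans ((integral_mono_of_nonneg (ae_of_all _ fun _ => abs_nonneg _)
    (integrable_const B) (ae_of_all _ hB)).trans (by simp))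

lemma BC.int [FirstCountableTopology δ] {f : δ × α → ℝ} (hf : BC f) :
    BC fun a => ∫ x, f (a, x) ∂μ :=
  hf.2.elim fun B h => ⟨cont_int hf.1 h, B, fun a => BC.abs_integral_le fun x => h (a, x)⟩

lemma BC.prod_eq {f : α × γ → ℝ} (hf : BC f) :
    ∫ p, f p ∂μ.prod ν = ∫ x, ∫ y, f (x, y) ∂ν ∂μ :=
  hf.2.elim fun _B h => integral_prod f (integrable_bdd2 hf.1 h)

lemma BC.swap {f : α → γ → ℝ} (hf : BC fun p : α × γ => f p.1 p.2) :
    ∫ x, ∫ y, f x y ∂ν ∂μ = ∫ y, ∫ x, f x y ∂μ ∂ν :=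
  hf.2.elim fun _B h => integral_integral_swap (integrable_bdd2 hf.1 h)

/-- Fubini for the five layers of randomness -/
lemma reorder5 {S Y D Z W : Type*} [TopologicalSpace S] [TopologicalSpace Y] [TopologicalSpace D]
    [TopologicalSpace Z] [TopologicalSpace W] [MeasurableSpace S] [MeasurableSpace Y]
    [MeasurableSpace D] [MeasurableSpace Z] [MeasurableSpace W] [BorelSpace S] [BorelSpace Y]
    [BorelSpace D] [BorelSpace Z] [BorelSpace W] [SecondCountableTopology S]
    [SecondCountableTopology Y] [SecondCountableTopology D] [SecondCountableTopology Z]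
    [SecondCountableTopology W] (a : Measure S) (b : Measure Y) (c : Measure D) (d : Measure Z)
    (e : Measure W) [IsProbabilityMeasure a] [IsProbabilityMeasure b] [IsProbabilityMeasure c]
    [IsProbabilityMeasure d] [IsProbabilityMeasure e] {G : S × ((Y × D × W) × Z) → ℝ} (hG : BC G) :
    ∫ y, ∫ o, ∫ z, ∫ w, G (o.1, ((y, o.2, w), z)) ∂e ∂d ∂(a.prod c) ∂b =
      ∫ s, ∫ q, G (s, q) ∂((b.prod (c.prod e)).prod d) ∂a := by
  have h1 : BC fun p : (Y × (S × D)) => ∫ z, ∫ w, G (p.2.1, ((p.1, p.2.2, w), z)) ∂e ∂d :=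
    BC.int (f := fun p : (Y × (S × D)) × Z => ∫ w, G (p.1.2.1, ((p.1.1, p.1.2.2, w), p.2)) ∂e)
      (BC.int (f := fun p : ((Y × (S × D)) × Z) × W =>
        G (p.1.1.2.1, ((p.1.1.1, p.1.1.2.2, p.2), p.1.2))) (hG.comp (by fun_prop)))
  rw [BC.swap h1, BC.prod_eq (f := fun o : S × D => ∫ y, ∫ z, ∫ w, G (o.1, ((y, o.2, w), z)) ∂e ∂d ∂b)
    (BC.int (f := fun p : (S × D) × Y => ∫ z, ∫ w, G (p.1.1, ((p.2, p.1.2, w), z)) ∂e ∂d)
      (h1.comp (g := fun p : (S × D) × Y => (p.2, p.1)) (by fun_prop)))]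
  refine integral_congr_ae (ae_of_all _ fun s => ?_)
  have h2 : BC fun q => G (s, q) := hG.comp (by fun_prop)
  simp only
  rw [BC.prod_eq h2, BC.prod_eq (f := fun θ : Y × D × W => ∫ z, G (s, (θ, z)) ∂d)
    (BC.int (f := fun p : (Y × D × W) × Z => G (s, p)) h2),
    BC.swap (f := fun x y => ∫ z, ∫ w, G (s, ((y, x, w), z)) ∂e ∂d)
      (h1.comp (g := fun p : D × Y => (p.2, (s, p.1))) (by fun_prop))]
  refine integral_congr_ae (ae_of_all _ fun y => ?_)
  simp only
  rw [BC.prod_eq (f := fun q : D × W => ∫ z, G (s, ((y, q), z)) ∂d)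
    (BC.int (f := fun p : (D × W) × Z => G (s, ((y, p.1), p.2))) (hG.comp (by fun_prop)))]
  refine integral_congr_ae (ae_of_all _ fun dd => ?_)
  exact BC.swap (f := fun z w => G (s, ((y, dd, w), z))) (hG.comp (by fun_prop))

end BC

section Nice

variable {n : ℕ} (β : ℝ)

/-- affine maps -/
def Aff {V W : Type*} [NormedAddCommGroup V] [NormedSpace ℝ V] [NormedAddCommGroup W]
    [NormedSpace ℝ W] (f : V → W) : Prop :=
  ∃ (L : V →L[ℝ] W) (c : W), ∀ u, f u = L u + c

variable {V : Type*} [NormedAddCommGroup V] [NormedSpace ℝ V] {f g : V → Ed n → ℝ}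

lemma nice_avg_aff (hf : Aff f) (F : Cfg n → ℝ) : Nice fun u => avg β (f u) F := by
  obtain ⟨L, c, h⟩ := hf
  simp only [h]
  exact (nice_avg β F).comp_affine L c

lemma nice_w_aff (hf : Aff f) (p : Ed n) : Nice fun u => w β (f u) p := by
  obtain ⟨L, c, h⟩ := hf
  simp only [h]
  exact (nice_w β p).comp_affine L c

lemma nice_ovl (hf : Aff f) (hg : Aff g) : Nice fun u => ovl β (f u) (g u) :=
  Nice.sum _ fun p _ => (nice_w_aff β hf p).mul (nice_w_aff β hg p)

lemma nice_asite (i : Fin n) (hf : Aff f) (hg : Aff g) : Nice fun u => asite β i (f u) (g u) := by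
  have h := (Nice.sum univ fun j (_ : j ∈ univ) =>
    (nice_avg_aff β hf fun x => sp x i * sp x j).mul
      (nice_avg_aff β hg fun x => sp x i * sp x j)).const_mul (n : ℝ)⁻¹
  simpa [asite, col, div_eq_inv_mul] using h

lemma aff_ins (i : Fin n) (hf : Aff f) (y : V → Fin n → ℝ) (hy : Aff y) :
    Aff fun u => ins i (f u) (y u) := by
  obtain ⟨L, c, h⟩ := hf
  obtain ⟨L', c', h'⟩ := hy
  refine ⟨(ovrL (row_injective i)).comp (L.prod L'), ovr (row i) c c', fun u => ?_⟩
  simp only [h, h', ins, ContinuousLinearMap.comp_apply, ContinuousLinearMap.prod_apply, ovrL_apply,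
    ← ovr_add (row_injective i)]

lemma aff_rmix (i : Fin n) (s : ℝ) (d : Fin n → ℝ) (hf : Aff f) :
    Aff fun u => rmix i s (f u) d := by
  refine aff_ins i hf (fun u => √s • rown i (f u) + √(1 - s) • d) ?_
  obtain ⟨L, c, h⟩ := hf
  let R : (Ed n → ℝ) →L[ℝ] (Fin n → ℝ) := ContinuousLinearMap.pi fun l => .proj (row i l)
  refine ⟨√s • R.comp L, √s • rown i c + √(1 - s) • d, fun u => ?_⟩
  funext l
  simp [h, rown, R, mul_add, add_assoc]

lemma nice_chi (i : Fin n) (hf : Aff f) (hg : Aff g) : Nice fun u => chi β i (f u) (g u) := by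
  have hz : Aff fun _ : V => (0 : Fin n → ℝ) := ⟨0, 0, fun u => by simp⟩
  have hg0 := aff_ins i hg (fun _ => 0) hz
  have hq : ∀ {h : V → Ed n → ℝ}, Aff h → ∀ p, Nice fun u => wq β i (h u) p := fun hh p =>
    (nice_w_aff β hh p).const_mul (msk i p)
  have e : (fun u => chi β i (f u) (g u)) = fun u =>
      ∑ p, wq β i (ins i (g u) 0) p * wq β i (f u) p -
      ∑ p, wq β i (ins i (g u) 0) p * (msk i p / n * (col β i (f u) p.1 * col β i (f u) p.2)) := by
    funext u
    simp only [chi, ip, cq]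
    congr 1
    exact sum_congr rfl fun p _ => by ring
  rw [e]
  exact (Nice.sum _ fun p _ => (hq hg0 p).mul (hq hf p)).sub
    (Nice.sum _ fun p _ => (hq hg0 p).mul
      (((nice_avg_aff β hf _).mul (nice_avg_aff β hf _)).const_mul _))

lemma aff_blk {M : Type} [Fintype M] (S : M) : Aff (blk (n := n) S) :=
  ⟨ContinuousLinearMap.pi fun e => .proj (S, e), 0, fun u => by funext e; simp [blk]⟩

end Nice

end Vale.Agent.P146.Chaos
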