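import Vale.Agent.P146.Chaos.Bridge
import Vale.Agent.P146.Chaos.End
import Vale.Agent.P146.Chaos.Excess

/-! # P146: the master inequality -/

namespace Vale.Agent.P146.Chaos

open Finset MeasureTheory ProbabilityTheory
open Vale.Agent.P150 Vale.Agent.P150.Slow

set_option linter.unusedSectionVars false

attribute [local irreducible] chi ovl asite ymat site

variable {n : ℕ}

lemma cont_fam2 {α : Type*} [TopologicalSpace α] (r0 : ℝ) (k : Fin 3 → ℝ)
    {x : α → Fin 3 × Ed n → ℝ} {z : α → Ed n → ℝ} (hx : Continuous x) (hz : Continuous z) :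
    Continuous fun a => fam r0 (x a) k (z a) := by
  unfold fam sys; fun_prop

lemma cont_ref2 {α : Type*} [TopologicalSpace α] (ρ : ℝ)
    {x : α → Fin 3 × Ed n → ℝ} {z : α → Ed n → ℝ} (hx : Continuous x) (hz : Continuous z) :
    Continuous fun a => ref ρ (x a) (z a) := by
  unfold ref sys; fun_prop

lemma bc_dref2 (β r0 ρ : ℝ) (k : Fin 3 → ℝ) :
    BC fun v : (Fin 3 × Ed n → ℝ) × (Ed n → ℝ) => dref β r0 ρ v.1 k v.2 := by
  refine ⟨?_, 1, fun v => abs_dref_le β r0 ρ v.1 k v.2⟩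
  refine cont_ip (continuous_pi fun p => ?_) (cont_w β (cont_fam2 r0 k continuous_fst continuous_snd))
  exact cont_int (F := fun v : ((Fin 3 × Ed n → ℝ) × (Ed n → ℝ)) × (Ed n → ℝ) =>
    w β (ref ρ v.1.1 v.2) p) ((continuous_apply p).comp
      (cont_w β (cont_ref2 ρ (continuous_fst.comp continuous_fst) continuous_snd)))
    fun v => abs_w_le_one β _ p

lemma bc_xref2 (β r0 ρ : ℝ) (k : Fin 3 → ℝ) :
    BC fun v : (Fin 3 × Ed n → ℝ) × ((Fin n × ℝ) × (Ed n → ℝ)) => xref β r0 ρ v.1 k v.2 := by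
  refine BC.int (f := fun p : ((Fin 3 × Ed n → ℝ) × ((Fin n × ℝ) × (Ed n → ℝ))) × (Fin n → ℝ) =>
    ∫ z, chi β p.1.2.1.1 (rmix p.1.2.1.1 p.1.2.1.2 (fam r0 p.1.1 k p.1.2.2) p.2) (ref ρ p.1.1 z)
      ∂stdPi (Ed n))
    (BC.int (f := fun p : (((Fin 3 × Ed n → ℝ) × ((Fin n × ℝ) × (Ed n → ℝ))) × (Fin n → ℝ)) ×
        (Ed n → ℝ) =>
      chi β p.1.1.2.1.1 (rmix p.1.1.2.1.1 p.1.1.2.1.2 (fam r0 p.1.1.1 k p.1.1.2.2) p.1.2)
        (ref ρ p.1.1.1 p.2)) ?_)
  refine ⟨?_, 1, fun p => abs_chi_le β _ _ _⟩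
  have h : Continuous fun q : Fin n × (ℝ × (Fin 3 × Ed n → ℝ) × (Ed n → ℝ) × (Fin n → ℝ) ×
      (Ed n → ℝ)) =>
      chi β q.1 (rmix q.1 q.2.1 (fam r0 q.2.2.1 k q.2.2.2.1) q.2.2.2.2.1)
        (ref ρ q.2.2.1 q.2.2.2.2.2) :=
    continuous_prod_of_discrete_left.2 fun i => cont_chi β i
      (cont_rmix i continuous_fst (cont_fam2 r0 k (by fun_prop) (by fun_prop)) (by fun_prop))
      (cont_ref2 ρ (by fun_prop) (by fun_prop))
  exact h.comp
    (f := fun p : (((Fin 3 × Ed n → ℝ) × ((Fin n × ℝ) × (Ed n → ℝ))) × (Fin n → ℝ)) ×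
        (Ed n → ℝ) =>
      (p.1.1.2.1.1, (p.1.1.2.1.2, p.1.1.1, p.1.1.2.2, p.1.2, p.2))) (by fun_prop)

lemma bc_exc [NeZero n] (β r0 ρ : ℝ) (k : Fin 3 → ℝ) :
    BC fun x : Fin 3 × Ed n → ℝ =>
      exc (siteLaw n) (stdPi (Ed n)) (xref β r0 ρ x k) (dref β r0 ρ x k) := by
  refine BC.int (f := fun v : (Fin 3 × Ed n → ℝ) × (Fin n × ℝ) =>
    ∫ o, max (xref β r0 ρ v.1 k (v.2, o) - dref β r0 ρ v.1 k o) 0 ∂stdPi (Ed n))
    (BC.int (f := fun v : ((Fin 3 × Ed n → ℝ) × (Fin n × ℝ)) × (Ed n → ℝ) =>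
      max (xref β r0 ρ v.1.1 k (v.1.2, v.2) - dref β r0 ρ v.1.1 k v.2) 0) ?_)
  refine ⟨?_, 1, fun v => ?_⟩
  · exact (((bc_xref2 β r0 ρ k).1.comp (f := fun v : ((Fin 3 × Ed n → ℝ) × (Fin n × ℝ)) ×
        (Ed n → ℝ) => (v.1.1, (v.1.2, v.2))) (by fun_prop)).sub
      ((bc_dref2 β r0 ρ k).1.comp (f := fun v : ((Fin 3 × Ed n → ℝ) × (Fin n × ℝ)) ×
        (Ed n → ℝ) => (v.1.1, v.2)) (by fun_prop))).max continuous_const
  · rw [abs_of_nonneg (le_max_right _ _)]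
    refine max_le ?_ zero_le_one
    linarith [(xref_mem β r0 ρ v.1.1 k (v.1.2, v.2)).2, (dref_mem β r0 ρ v.1.1 k v.2).1]

lemma bc_Wm (β r0 ρ : ℝ) (k : Fin 3 → ℝ) (p q : Ed n) :
    BC fun x : Fin 3 × Ed n → ℝ => Wm β r0 ρ x k p q := by
  refine BC.int (f := fun v : (Fin 3 × Ed n → ℝ) × (Ed n → ℝ) => dref β r0 ρ v.1 k v.2 *
    (w β (fam r0 v.1 k v.2) p * w β (fam r0 v.1 k v.2) q)) ⟨?_, 1, fun v => ?_⟩
  · have h := cont_w β (cont_fam2 (n := n) r0 k continuous_fst continuous_snd)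
    exact (bc_dref2 β r0 ρ k).1.mul
      (((continuous_apply p).comp h).mul ((continuous_apply q).comp h))
  · rw [abs_mul, abs_mul]
    exact mul_le_one₀ (abs_dref_le β r0 ρ v.1 k v.2) (by positivity)
      (mul_le_one₀ (abs_w_le_one β _ p) (abs_nonneg _) (abs_w_le_one β _ q))

lemma conf_ok {ε r0 ρ : ℝ} (h0 : 0 < r0) (h0' : r0 ≤ 1 - ε) (hρ : 0 ≤ ρ) (hρ' : ρ ≤ 1 - ε)
    {kS kT : Fin 3 → ℝ} (hS : ∑ j, kS j ^ 2 = 1) (hT : ∑ j, kT j ^ 2 = 1) {r : ℝ}
    (hr : r0 * ∑ j, kS j * kT j = r) (hr0 : 0 < r) (hr1 : r ≤ 1) :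
    (conf r0 ρ kS kT).Ok ε r where
  hk S := by fin_cases S <;> simp [conf, hS, hT, kA, Fin.sum_univ_three]
  h0 S := by fin_cases S <;> simp [conf, h0.le, hρ]
  h1 S := by fin_cases S <;> simp [conf, h0', hρ']
  hr := by
    show √r0 * √r0 * ∑ j, kS j * kT j = r
    rw [Real.mul_self_sqrt h0.le]
    exact hr
  hr0 := hr0
  hr1 := hr1

/-- the bound on the squared residual -/
noncomputable def resB (β : ℝ) (n : ℕ) (ε : ℝ) : ℝ :=
  (β ^ 2 + 2) * (β ^ 2 * (14 * (kap β n ε + √(2 / n)) + 208 * √(kap β n ε)) +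
    2 * (6 * (kap β n ε + √(2 / n)) + 1 / n)) + (β ^ 2 + 2) ^ 2 * √(8 / (ε * n))

/-- the residual norm of a pair of families -/
noncomputable def vn (β r : ℝ) (P : Conf) (x : Fin 3 × Ed n → ℝ) : ℝ :=
  √(∑ pq, vres β r P x pq ^ 2)

lemma frob_resid [NeZero n] (β r0 ρ r : ℝ) (x : Fin 3 × Ed n → ℝ) (kS kT : Fin 3 → ℝ) :
    frob (resid (siteLaw n) (Am β r0 ρ x kS) (Am β r0 ρ x kT) r⁻¹ (Wm β r0 ρ x kS)
      (Wm β r0 ρ x kT)) = vn β r (conf r0 ρ kS kT) x := by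
  rw [frob, vn]
  simp only [resid_conf]
  rw [Fintype.sum_prod_type (f := fun pq => vres β r (conf r0 ρ kS kT) x pq ^ 2)]

lemma vn_small [NeZero n] {β ε r : ℝ} (hβ : 0 < β) (hε : 0 < ε) {P : Conf} (hP : P.Ok ε r)
    (hr : 1 / 2 ≤ r) :
    Integrable (vn β r P) (stdPi (Fin 3 × Ed n)) ∧
      ∫ x, vn β r P x ∂stdPi (Fin 3 × Ed n) ≤ √(resB β n ε) := by
  have hn : 0 < n := NeZero.pos n
  have hc : Continuous fun x : Fin 3 × Ed n → ℝ => ∑ pq, vres β r P x pq ^ 2 :=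
    continuous_finsetSum _ fun pq _ => (cont_vres β r P hP.hr0 pq).pow 2
  have hb : ∀ x : Fin 3 × Ed n → ℝ, |vn β r P x| ≤ β ^ 2 + r⁻¹ := fun x => by
    rw [vn, abs_of_nonneg (Real.sqrt_nonneg _), Real.sqrt_le_iff]
    exact ⟨by have := hP.hr0; positivity, sum_vres_sq β r P hP.hr0 hn x⟩
  have hi : Integrable (vn β r P) (stdPi (Fin 3 × Ed n)) :=
    integrable_bdd (Real.continuous_sqrt.comp hc) hb
  have he : ∀ x : Fin 3 × Ed n → ℝ, vn β r P x ^ 2 = ∑ pq, vres β r P x pq ^ 2 := fun x =>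
    Real.sq_sqrt (sum_nonneg fun pq _ => sq_nonneg _)
  have hi2 : Integrable (fun x => vn β r P x ^ 2) (stdPi (Fin 3 × Ed n)) := by
    simp only [he]
    exact integrable_bdd hc (B := (β ^ 2 + r⁻¹) ^ 2) fun x => by
      rw [abs_of_nonneg (sum_nonneg fun pq _ => sq_nonneg _)]
      exact sum_vres_sq β r P hP.hr0 hn x
  refine ⟨hi, Real.le_sqrt_of_sq_le ((sq_integral_le hi hi2).trans ?_)⟩
  simp only [he]
  refine (resid_small hβ hε hP hn).trans ?_
  have h2 : r⁻¹ ≤ 2 := by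
    have := inv_anti₀ (show (0 : ℝ) < 1 / 2 by norm_num) hr
    norm_num at this
    exact this
  have hk : 0 ≤ kap β n ε := by unfold kap; positivity
  have := hP.hr0
  rw [resB]
  gcongr

/-- **Master inequality.** -/
theorem master [NeZero n] {β ε t η l : ℝ} (hβ : 0 < β) (hε : 0 < ε) (hεt : 2 * ε ≤ t)
    (ht : t ≤ 1 / 2) (hη : 0 < η) (hη1 : η ≤ 1) (hl : 0 < l) :
    phiC β n (1 - t) ^ 4 ≤ η + 4 / t * (β ^ 2 * l +
      β ^ 2 * (√η + 6 * (kap β n ε + √(2 / n))) / l +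
      (1 + β ^ 2) / η ^ 2 * (3 * √(resB β n ε))) := by
  have ht0 : 0 < t := by linarith
  set r0 := 1 - ε with hr0
  set ρ := 1 - t with hρ
  set r1 := ρ / r0 with hr1
  have h00 : 0 < r0 := by linarith
  have hρ0 : 0 < ρ := by linarith
  have hr11 : r1 ≤ 1 := by rw [hr1, div_le_one h00]; linarith
  have hr10 : 0 ≤ r1 := by positivity
  have hprod : r0 * r1 = ρ := by rw [hr1]; field_simp
  have hs1 : √r1 * √r1 = r1 := Real.mul_self_sqrt hr10
  have hs2 : √(1 - r1) * √(1 - r1) = 1 - r1 := Real.mul_self_sqrt (by linarith)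
  have hG : ∑ j, kG r1 j ^ 2 = 1 := by simp [kG, Fin.sum_univ_three, sq, hs1, hs2]
  have hH : ∑ j, kH r1 j ^ 2 = 1 := by simp [kH, Fin.sum_univ_three, sq, hs1, hs2]
  have dGG : r0 * ∑ j, kG r1 j * kG r1 j = r0 := by
    simp only [← sq, hG, mul_one]
  have dHH : r0 * ∑ j, kH r1 j * kH r1 j = r0 := by
    simp only [← sq, hH, mul_one]
  have dGH : r0 * ∑ j, kG r1 j * kH r1 j = ρ := by
    simp [kG, kH, Fin.sum_univ_three, hs1, hprod]
  set μ := stdPi (Fin 3 × Ed n)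
  set W := fun k x => Wm β r0 ρ x k with hW
  set X := fun k x => exc (siteLaw n) (stdPi (Ed n)) (xref β r0 ρ x k) (dref β r0 ρ x k) with hX
  set U := fun kS kT r x => vn β r (conf r0 ρ kS kT) (x : Fin 3 × Ed n → ℝ) with hU
  have he : 1 ≤ r0⁻¹ := one_le_inv_iff₀.2 ⟨h00, by linarith⟩
  have hgap : t / 2 ≤ ρ⁻¹ - r0⁻¹ := by
    rw [inv_sub_inv hρ0.ne' h00.ne', show r0 - ρ = t - ε by rw [hr0, hρ]; ring]
    rw [le_div_iff₀ (by positivity)]
    have h1 : ρ * r0 ≤ 1 := mul_le_one₀ (by linarith) h00.le (by linarith)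
    nlinarith
  have hef : r0⁻¹ < ρ⁻¹ := by linarith
  set c := 4 / t
  have pt : ∀ x, (W (kG r1) x * W (kH r1) x).trace ≤ η + c * (β ^ 2 * l +
      β ^ 2 * (√η + X (kG r1) x + X (kH r1) x) / l +
      (1 + β ^ 2) / η ^ 2 * (U (kG r1) (kH r1) ρ x + U (kG r1) (kG r1) r0 x +
        U (kH r1) (kH r1) r0 x)) := by
    intro x
    have h := op_bound (κ := siteLaw n) (ν := stdPi (Ed n)) (v := fun z => w β (fam r0 x (kG r1) z))
      (v' := fun z => w β (fam r0 x (kH r1) z)) (D := dref β r0 ρ x (kG r1))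
      (D' := dref β r0 ρ x (kH r1)) (x := xref β r0 ρ x (kG r1)) (x' := xref β r0 ρ x (kH r1))
      hβ.le he hef hη hη1 hl (cont_w β (cont_fam r0 x _)) (cont_w β (cont_fam r0 x _))
      (cont_dref β r0 ρ x _) (cont_dref β r0 ρ x _) (bc_xref β r0 ρ x _).1 (bc_xref β r0 ρ x _).1
      (fun o => ip_w_self_le β _) (fun o => ip_w_self_le β _) (dref_mem β r0 ρ x _)
      (dref_mem β r0 ρ x _) (xref_mem β r0 ρ x _) (xref_mem β r0 ρ x _)
    have h' : (Wm β r0 ρ x (kG r1) * Wm β r0 ρ x (kH r1)).trace ≤ η + 2 / (ρ⁻¹ - r0⁻¹) *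
      (β ^ 2 * l + β ^ 2 * (√η + X (kG r1) x + X (kH r1) x) / l + (1 + β ^ 2) / η ^ 2 *
        (frob (resid (siteLaw n) (Am β r0 ρ x (kG r1)) (Am β r0 ρ x (kH r1)) ρ⁻¹
            (Wm β r0 ρ x (kG r1)) (Wm β r0 ρ x (kH r1))) +
          frob (resid (siteLaw n) (Am β r0 ρ x (kG r1)) (Am β r0 ρ x (kG r1)) r0⁻¹
            (Wm β r0 ρ x (kG r1)) (Wm β r0 ρ x (kG r1))) +
          frob (resid (siteLaw n) (Am β r0 ρ x (kH r1)) (Am β r0 ρ x (kH r1)) r0⁻¹
            (Wm β r0 ρ x (kH r1)) (Wm β r0 ρ x (kH r1))))) := h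
    refine h'.trans ?_
    rw [frob_resid β r0 ρ ρ x, frob_resid β r0 ρ r0 x, frob_resid β r0 ρ r0 x]
    refine add_le_add le_rfl (mul_le_mul_of_nonneg_right ?_ ?_)
    · rw [show c = 2 / (t / 2) by simp only [c]; ring]
      exact div_le_div_of_nonneg_left two_pos.le (by positivity) hgap
    · have a1 : ∀ k, 0 ≤ exc (siteLaw n) (stdPi (Ed n)) (xref β r0 ρ x k) (dref β r0 ρ x k) :=
        fun k => integral_nonneg fun _ => integral_nonneg fun _ => le_max_right _ _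
      have := a1 (kG r1)
      have := a1 (kH r1)
      unfold vn
      positivity
  have okGH := conf_ok (ε := ε) h00 le_rfl hρ0.le (by linarith) hG hH dGH hρ0 (by linarith)
  have okGG := conf_ok (ε := ε) (ρ := ρ) h00 le_rfl hρ0.le (by linarith) hG hG dGG h00 (by linarith)
  have okHH := conf_ok (ε := ε) (ρ := ρ) h00 le_rfl hρ0.le (by linarith) hH hH dHH h00 (by linarith)
  obtain ⟨i1, b1⟩ := vn_small (n := n) hβ hε okGH (by linarith)
  obtain ⟨i2, b2⟩ := vn_small (n := n) hβ hε okGG (by linarith)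
  obtain ⟨i3, b3⟩ := vn_small (n := n) hβ hε okHH (by linarith)
  have iX : ∀ k, Integrable (X k) μ := fun k => (bc_exc β r0 ρ k).integrable
  have bX : ∀ k, ∑ j, k j ^ 2 = 1 → ∫ x, X k x ∂μ ≤ 3 * (kap β n ε + √(2 / n)) := fun k hk =>
    exc_small hβ hε h00.le le_rfl hρ0.le (by linarith) hk
  have itr : Integrable (fun x => (W (kG r1) x * W (kH r1) x).trace) μ := by
    simp only [hW, Matrix.trace, Matrix.diag_apply, Matrix.mul_apply]
    refine integrable_finsetSum _ fun p _ => integrable_finsetSum _ fun q _ => ?_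
    obtain ⟨c1, B1, h1⟩ := bc_Wm β r0 ρ (kG r1) p q
    obtain ⟨c2, B2, h2⟩ := bc_Wm β r0 ρ (kH r1) q p
    exact integrable_bdd (c1.mul c2) (B := B1 * B2) fun x => by
      rw [abs_mul]; exact mul_le_mul (h1 x) (h2 x) (abs_nonneg _) ((abs_nonneg _).trans (h1 x))
  have j1 : Integrable (fun x => √η + X (kG r1) x + X (kH r1) x) μ :=
    ((integrable_const _).add (iX _)).add (iX _)
  have j2 : Integrable (fun x => U (kG r1) (kH r1) ρ x + U (kG r1) (kG r1) r0 x +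
      U (kH r1) (kH r1) r0 x) μ := (i1.add i2).add i3
  have j3 : Integrable (fun x => β ^ 2 * l + β ^ 2 * (√η + X (kG r1) x + X (kH r1) x) / l +
      (1 + β ^ 2) / η ^ 2 * (U (kG r1) (kH r1) ρ x + U (kG r1) (kG r1) r0 x +
        U (kH r1) (kH r1) r0 x)) μ :=
    ((integrable_const _).add ((j1.const_mul _).div_const _)).add (j2.const_mul _)
  have key := integral_mono itr ((integrable_const η).add (j3.const_mul c)) pt
  have low : phiC β n ρ ^ 4 ≤ ∫ x, (W (kG r1) x * W (kH r1) x).trace ∂μ := by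
    have h := trace_low (n := n) β h00.le (by linarith) hr10 hr11
    rw [hprod] at h
    exact h
  refine low.trans (key.trans ?_)
  simp only [Pi.add_apply]
  simp only [hU] at j2 j3 ⊢
  rw [integral_add (integrable_const η) (j3.const_mul c), integral_const_mul,
    integral_add ((integrable_const _).fun_add ((j1.const_mul _).div_const _)) (j2.const_mul _),
    integral_add (integrable_const _) ((j1.const_mul _).div_const _), integral_div,
    integral_const_mul (β ^ 2) (fun x => √η + X (kG r1) x + X (kH r1) x),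
    integral_const_mul ((1 + β ^ 2) / η ^ 2) (fun x => vn β ρ (conf r0 ρ (kG r1) (kH r1)) x +
      vn β r0 (conf r0 ρ (kG r1) (kG r1)) x + vn β r0 (conf r0 ρ (kH r1) (kH r1)) x),
    integral_add ((integrable_const _).fun_add (iX _)) (iX _),
    integral_add (integrable_const _) (iX _),
    integral_add (i1.fun_add i2) i3, integral_add i1 i2]
  simp only [integral_const, probReal_univ, one_smul, c]
  have a1 := bX _ hG
  have a2 := bX _ hH
  have h1 : √η + (∫ x, X (kG r1) x ∂μ) + ∫ x, X (kH r1) x ∂μ ≤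
      √η + 6 * (kap β n ε + √(2 / n)) := by linarith
  have h2 : (∫ x, vn β ρ (conf r0 ρ (kG r1) (kH r1)) x ∂μ) +
      (∫ x, vn β r0 (conf r0 ρ (kG r1) (kG r1)) x ∂μ) +
      ∫ x, vn β r0 (conf r0 ρ (kH r1) (kH r1)) x ∂μ ≤ 3 * √(resB β n ε) := by
    linarith
  gcongr

end Vale.Agent.P146.Chaos
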