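import Vale.Agent.P146.Chaos.Gibbs

/-! # P146: finite dimensional estimates for mixtures of rank one matrices -/

namespace Vale.Agent.P146.Chaos

open Finset MeasureTheory Matrix

variable {P : Type*} [Fintype P] [DecidableEq P]

/-- the Frobenius norm -/
noncomputable def frob (M : Matrix P P ℝ) : ℝ := √(∑ p, ∑ q, M p q ^ 2)

/-- Euclidean length -/
noncomputable def len (u : P → ℝ) : ℝ := √(ip u u)

/-- the entrywise pairing of two matrices -/
def pr2 (M N : Matrix P P ℝ) : ℝ := ∑ p, ∑ q, M p q * N p q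

omit [DecidableEq P] in
lemma ip_self_nonneg (u : P → ℝ) : 0 ≤ ip u u := sum_nonneg fun _ _ => mul_self_nonneg _

omit [DecidableEq P] in
lemma len_nonneg (u : P → ℝ) : 0 ≤ len u := Real.sqrt_nonneg _

omit [DecidableEq P] in
lemma len_sq (u : P → ℝ) : len u ^ 2 = ip u u := Real.sq_sqrt (ip_self_nonneg u)

omit [DecidableEq P] in
lemma abs_ip_le_len (u v : P → ℝ) : |ip u v| ≤ len u * len v := abs_ip_le u v

omit [DecidableEq P] in
lemma ip_eq_dot (u v : P → ℝ) : ip u v = u ⬝ᵥ v := rfl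

omit [DecidableEq P] in
lemma ip_mulVec (u z : P → ℝ) (M : Matrix P P ℝ) : ip u (M *ᵥ z) = ip (Mᵀ *ᵥ u) z := by
  rw [ip_eq_dot, ip_eq_dot, dotProduct_mulVec, mulVec_transpose]

omit [DecidableEq P] in
lemma bil_eq_pr2 (u z : P → ℝ) (M : Matrix P P ℝ) :
    ip u (M *ᵥ z) = pr2 (vecMulVec u z) M := by
  simp only [ip, mulVec, dotProduct, pr2, vecMulVec_apply, mul_sum]
  exact sum_congr rfl fun p _ => sum_congr rfl fun q _ => by ring

omit [DecidableEq P] in
lemma frob_nonneg (M : Matrix P P ℝ) : 0 ≤ frob M := Real.sqrt_nonneg _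

omit [DecidableEq P] in
lemma frob_sq (M : Matrix P P ℝ) : frob M ^ 2 = ∑ p, ∑ q, M p q ^ 2 :=
  Real.sq_sqrt (sum_nonneg fun _ _ => sum_nonneg fun _ _ => sq_nonneg _)

omit [DecidableEq P] in
lemma frob_transpose (M : Matrix P P ℝ) : frob Mᵀ = frob M := by
  unfold frob; congr 1; rw [sum_comm]; rfl

omit [DecidableEq P] in
lemma abs_entry_le (M : Matrix P P ℝ) (p q : P) : |M p q| ≤ frob M := by
  refine Real.abs_le_sqrt ?_
  exact (single_le_sum (f := fun q => M p q ^ 2) (fun _ _ => sq_nonneg _) (mem_univ q)).trans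
    (single_le_sum (f := fun p => ∑ q, M p q ^ 2) (fun _ _ => sum_nonneg fun _ _ => sq_nonneg _)
      (mem_univ p))

omit [DecidableEq P] in
lemma frob_smul (c : ℝ) (M : Matrix P P ℝ) : frob (c • M) = |c| * frob M := by
  unfold frob
  simp only [Matrix.smul_apply, smul_eq_mul, mul_pow, ← mul_sum]
  rw [Real.sqrt_mul (sq_nonneg _), Real.sqrt_sq_eq_abs]

omit [DecidableEq P] in
lemma abs_pr2_le (M N : Matrix P P ℝ) : |pr2 M N| ≤ frob M * frob N := by
  have e : ∀ M N : Matrix P P ℝ, pr2 M N = ∑ x : P × P, M x.1 x.2 * N x.1 x.2 := fun M N => by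
    rw [pr2, Fintype.sum_prod_type]
  have e2 : ∀ M : Matrix P P ℝ, frob M = √(∑ x : P × P, M x.1 x.2 * M x.1 x.2) := fun M => by
    rw [frob, Fintype.sum_prod_type]; simp only [sq]
  rw [e, e2, e2]
  exact abs_ip_le (fun x : P × P => M x.1 x.2) fun x => N x.1 x.2

omit [DecidableEq P] in
lemma frob_sq_pr2 (M : Matrix P P ℝ) : frob M ^ 2 = pr2 M M := by
  rw [frob_sq]; simp only [pr2, sq]

omit [DecidableEq P] in
lemma pr2_add (M N N' : Matrix P P ℝ) : pr2 M (N + N') = pr2 M N + pr2 M N' := by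
  simp [pr2, mul_add, sum_add_distrib]

omit [DecidableEq P] in
lemma pr2_smul (c : ℝ) (M N : Matrix P P ℝ) : pr2 M (c • N) = c * pr2 M N := by
  simp only [pr2, Matrix.smul_apply, smul_eq_mul, mul_sum]
  exact sum_congr rfl fun p _ => sum_congr rfl fun q _ => by ring

omit [DecidableEq P] in
lemma pr2_smul_left (c : ℝ) (M N : Matrix P P ℝ) : pr2 (c • M) N = c * pr2 M N := by
  simp only [pr2, Matrix.smul_apply, smul_eq_mul, mul_sum]
  exact sum_congr rfl fun p _ => sum_congr rfl fun q _ => by ring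

omit [DecidableEq P] in
lemma frob_add_sq (M N : Matrix P P ℝ) : frob (M + N) ^ 2 ≤ 2 * frob M ^ 2 + 2 * frob N ^ 2 := by
  simp only [frob_sq, mul_sum, ← sum_add_distrib]
  refine sum_le_sum fun p _ => sum_le_sum fun q _ => ?_
  rw [Matrix.add_apply]
  nlinarith [sq_nonneg (M p q - N p q)]

omit [DecidableEq P] in
lemma pr2_trace (M N : Matrix P P ℝ) : pr2 M N = (Mᵀ * N).trace := by
  simp only [pr2, Matrix.trace, diag_apply, Matrix.mul_apply, transpose_apply]
  rw [sum_comm]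

omit [DecidableEq P] in
lemma pr2_mul_left (X M N : Matrix P P ℝ) : pr2 (X * M) N = pr2 M (Xᵀ * N) := by
  rw [pr2_trace, pr2_trace, transpose_mul, Matrix.mul_assoc]

omit [DecidableEq P] in
lemma pr2_mul_right (M Y N : Matrix P P ℝ) : pr2 (M * Y) N = pr2 M (N * Yᵀ) := by
  rw [pr2_trace, pr2_trace, transpose_mul, Matrix.trace_mul_comm (Mᵀ),
    Matrix.trace_mul_cycle]

omit [DecidableEq P] in
lemma pr2_mul_snd (M X Y : Matrix P P ℝ) : pr2 M (X * Y) = pr2 (Xᵀ * M) Y := by
  rw [pr2_mul_left, transpose_transpose]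

/-- operator bound -/
def Bnd (M : Matrix P P ℝ) (c : ℝ) : Prop := ∀ z, len (M *ᵥ z) ≤ c * len z

omit [DecidableEq P] in
lemma bnd_of_bil {M : Matrix P P ℝ} {c : ℝ} (hc : 0 ≤ c)
    (h : ∀ u z, |ip u (M *ᵥ z)| ≤ c * len u * len z) : Bnd M c := by
  intro z
  have h1 := (le_abs_self _).trans (h (M *ᵥ z) z)
  rw [← len_sq] at h1
  by_contra hlt
  push Not at hlt
  have h0 : 0 < len (M *ᵥ z) := lt_of_le_of_lt (mul_nonneg hc (len_nonneg z)) hlt
  nlinarith

omit [DecidableEq P] in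
lemma bnd_transpose_of_bil {M : Matrix P P ℝ} {c : ℝ} (hc : 0 ≤ c)
    (h : ∀ u z, |ip u (M *ᵥ z)| ≤ c * len u * len z) : Bnd Mᵀ c := by
  refine bnd_of_bil hc fun u z => ?_
  rw [ip_mulVec, transpose_transpose, ip_eq_dot, dotProduct_comm, ← ip_eq_dot]
  exact (h z u).trans (le_of_eq (by ring))

omit [DecidableEq P] in
lemma frob_mul_le {X : Matrix P P ℝ} {c : ℝ} (hc : 0 ≤ c) (hX : Bnd X c) (M : Matrix P P ℝ) :
    frob (X * M) ≤ c * frob M := by
  refine (pow_le_pow_iff_left₀ (frob_nonneg _) (mul_nonneg hc (frob_nonneg _)) two_ne_zero).1 ?_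
  rw [mul_pow, frob_sq, frob_sq, sum_comm, sum_comm (f := fun p q => M p q ^ 2), mul_sum]
  refine sum_le_sum fun q _ => ?_
  have h := pow_le_pow_left₀ (len_nonneg _) (hX fun r => M r q) 2
  rw [mul_pow, len_sq, len_sq] at h
  simp only [ip, ← sq] at h
  refine le_trans (le_of_eq ?_) h
  exact sum_congr rfl fun p _ => by rw [mulVec, dotProduct, Matrix.mul_apply]

omit [DecidableEq P] in
lemma frob_mul_right_le {X : Matrix P P ℝ} {c : ℝ} (hc : 0 ≤ c) (hX : Bnd Xᵀ c)
    (M : Matrix P P ℝ) : frob (M * X) ≤ c * frob M := by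
  rw [← frob_transpose (M * X), transpose_mul]
  exact (frob_mul_le hc hX _).trans (le_of_eq (by rw [frob_transpose]))

omit [DecidableEq P] in
lemma abs_pr2_mul_le {Z : Matrix P P ℝ} (hZ : Bnd Zᵀ 1) (X Y : Matrix P P ℝ) :
    |pr2 Z (X * Y)| ≤ frob X * frob Y := by
  rw [pr2_mul_snd]
  refine (abs_pr2_le _ _).trans (mul_le_mul_of_nonneg_right ?_ (frob_nonneg _))
  rw [← frob_transpose, transpose_mul, transpose_transpose]
  exact (frob_mul_le zero_le_one hZ X).trans (le_of_eq (one_mul _))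

/-! ### entrywise integrals -/

section Mint

variable {K : Type*} [TopologicalSpace K] [MeasurableSpace K] [OpensMeasurableSpace K]
  (κ : Measure K) [IsProbabilityMeasure κ] {M : K → Matrix P P ℝ} {B : ℝ}

/-- the entrywise integral -/
noncomputable def mint (M : K → Matrix P P ℝ) : Matrix P P ℝ := fun p q => ∫ k, M k p q ∂κ

omit [DecidableEq P] in
lemma integrable_entry (hM : Continuous M) (hB : ∀ k, frob (M k) ≤ B) (p q : P) :
    Integrable (fun k => M k p q) κ :=
  integrable_bdd ((continuous_apply q).comp ((continuous_apply p).comp hM))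
    fun k => (abs_entry_le _ p q).trans (hB k)

omit [DecidableEq P] in
lemma pr2_mint (hM : Continuous M) (hB : ∀ k, frob (M k) ≤ B) (G : Matrix P P ℝ) :
    pr2 G (mint κ M) = ∫ k, pr2 G (M k) ∂κ ∧ Integrable (fun k => pr2 G (M k)) κ := by
  have hi := fun p q => (integrable_entry κ hM hB p q).const_mul (G p q)
  refine ⟨?_, integrable_finsetSum _ fun p _ => integrable_finsetSum _ fun q _ => hi p q⟩
  simp only [pr2, mint]
  rw [integral_finsetSum _ fun p _ => integrable_finsetSum _ fun q _ => hi p q]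
  refine sum_congr rfl fun p _ => ?_
  rw [integral_finsetSum _ fun q _ => hi p q]
  exact sum_congr rfl fun q _ => (integral_const_mul _ _).symm

omit [DecidableEq P] in
lemma frob_mint_le (hM : Continuous M) (hB : ∀ k, frob (M k) ≤ B) {f : K → ℝ}
    (hf : Integrable f κ) (hle : ∀ k, frob (M k) ≤ f k) : frob (mint κ M) ≤ ∫ k, f k ∂κ := by
  set G := mint κ M
  obtain ⟨h, hi⟩ := pr2_mint κ hM hB G
  have h1 : frob G ^ 2 ≤ frob G * ∫ k, f k ∂κ := by
    rw [frob_sq_pr2, h, ← integral_const_mul]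
    exact integral_mono hi (hf.const_mul _) fun k => ((le_abs_self _).trans (abs_pr2_le _ _)).trans
      (mul_le_mul_of_nonneg_left (hle k) (frob_nonneg _))
  have hf0 : 0 ≤ ∫ k, f k ∂κ := integral_nonneg fun k => (frob_nonneg _).trans (hle k)
  nlinarith [frob_nonneg G]

end Mint

end Vale.Agent.P146.Chaos
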