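import Vale.Agent.P146.Chaos.Master

/-! # P146: polynomial bounds -/

namespace Vale.Agent.P146.Chaos

open Finset MeasureTheory ProbabilityTheory
open Vale.Agent.P150 Vale.Agent.P150.Slow

variable {n : ℕ}

lemma sqrt_sq_mul {a y : ℝ} (ha : 0 ≤ a) (hy : 0 ≤ y) (k m : ℕ) (hm : m = 2 * k) :
    √(a * y ^ m) = √a * y ^ k := by
  rw [hm, Real.sqrt_mul ha, pow_mul', Real.sqrt_sq (pow_nonneg hy k)]

lemma scale_bound {β : ℝ} (hβ : 0 < β) : ∃ K, 1 ≤ K ∧ ∀ n : ℕ, 0 < n →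
    ∀ y : ℝ, 0 < y → y ≤ 1 → (n : ℝ) * y ^ 3200 = 1 → phiC β n (1 - y ^ 2 / 2) ≤ K * y ^ 2 := by
  set c1 := Real.exp (β ^ 2) * √(Real.exp (β ^ 2 / 2) * (4 / β)) with hc1
  set D := c1 + 2 with hD
  set R := (β ^ 2 + 2) * (β ^ 2 * (14 * D + 208 * √c1) + 2 * (6 * D + 1)) +
    (β ^ 2 + 2) ^ 2 * 8 with hR
  set K1 := 1 + 8 * (β ^ 2 + β ^ 2 * (1 + 6 * D) + (1 + β ^ 2) * (3 * √R)) with hK1
  have hc10 : 0 ≤ c1 := by positivity
  have hD0 : 0 ≤ D := by positivity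
  have hR0 : 0 ≤ R := by positivity
  have hK11 : 1 ≤ K1 := le_add_of_nonneg_right (by positivity)
  refine ⟨K1, hK11, fun n hn y hy hy1 hny => ?_⟩
  have : NeZero n := ⟨hn.ne'⟩
  have hn' : (0 : ℝ) < n := by exact_mod_cast hn
  have hny' : (n : ℝ)⁻¹ = y ^ 3200 := by rw [inv_eq_one_div, div_eq_iff hn'.ne']; linarith
  have mono : ∀ {a b : ℕ}, b ≤ a → y ^ a ≤ y ^ b := fun h => pow_le_pow_of_le_one hy.le hy1 h
  set ε := y ^ 1600 / 8 with hε
  have hεn : (ε * n)⁻¹ = 8 * y ^ 1600 := by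
    rw [mul_inv, hny', hε, inv_div]
    field_simp
  have hkap : kap β n ε = c1 * y ^ 400 := by
    have e1 : 2 / (β ^ 2 * n * ε) = (4 / β) ^ 2 * y ^ 1600 := by
      rw [mul_assoc, div_mul_eq_div_div, mul_comm (n : ℝ) ε, div_eq_mul_inv _ (ε * n), hεn]
      ring
    have e2 : √(2 / (β ^ 2 * n * ε)) = 4 / β * y ^ 800 := by
      rw [e1, sqrt_sq_mul (sq_nonneg _) hy.le 800 1600 (by norm_num), Real.sqrt_sq (by positivity)]
    rw [kap, v0, e2, ← mul_assoc, sqrt_sq_mul (by positivity) hy.le 400 800 (by norm_num), hc1]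
    ring
  have hsk : √(kap β n ε) = √c1 * y ^ 200 := by
    rw [hkap, sqrt_sq_mul hc10 hy.le 200 400 (by norm_num)]
  have h2n : √(2 / (n : ℝ)) ≤ 2 * y ^ 400 := by
    rw [div_eq_mul_inv, hny', sqrt_sq_mul two_pos.le hy.le 1600 3200 (by norm_num)]
    refine mul_le_mul ?_ (mono (by norm_num)) (by positivity) two_pos.le
    rw [Real.sqrt_le_iff]; norm_num
  have hd : kap β n ε + √(2 / n) ≤ D * y ^ 400 := by
    rw [hkap, hD, add_mul]; linarith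
  have hk0 : 0 ≤ kap β n ε + √(2 / n) := by rw [hkap]; positivity
  have hres : √(resB β n ε) ≤ √R * y ^ 100 := by
    rw [← sqrt_sq_mul hR0 hy.le 100 200 (by norm_num)]
    refine Real.sqrt_le_sqrt ?_
    have e3 : √(8 / (ε * n)) = 8 * y ^ 800 := by
      rw [div_eq_mul_inv, hεn, ← mul_assoc, sqrt_sq_mul (by norm_num) hy.le 800 1600 (by norm_num),
        show (8 : ℝ) * 8 = 8 ^ 2 by norm_num, Real.sqrt_sq (by norm_num)]
    rw [resB, hsk, one_div, hny', e3]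
    have h4 : kap β n ε + √(2 / n) ≤ D * y ^ 200 :=
      hd.trans (mul_le_mul_of_nonneg_left (mono (by norm_num)) hD0)
    have h8 : y ^ 800 ≤ y ^ 200 := mono (by norm_num)
    have h3 : y ^ 3200 ≤ y ^ 200 := mono (by norm_num)
    calc _ ≤ (β ^ 2 + 2) * (β ^ 2 * (14 * (D * y ^ 200) + 208 * (√c1 * y ^ 200)) +
          2 * (6 * (D * y ^ 200) + y ^ 200)) + (β ^ 2 + 2) ^ 2 * (8 * y ^ 200) := by gcongr
      _ = R * y ^ 200 := by rw [hR]; ring
  have hy2 : 2 * ε ≤ y ^ 2 / 2 := by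
    have := mono (show 2 ≤ 1600 by norm_num)
    have : 0 ≤ y ^ 2 := sq_nonneg y
    rw [hε]; linarith
  have hy12 : y ^ 2 / 2 ≤ 1 / 2 := by
    have := pow_le_one₀ (n := 2) hy.le hy1
    linarith
  have hm := master (n := n) (η := y ^ 40) (l := y ^ 10) hβ (show 0 < ε by positivity) hy2 hy12
    (by positivity) (pow_le_one₀ hy.le hy1) (by positivity)
  rw [show √(y ^ 40) = y ^ 20 by
    rw [show y ^ 40 = (y ^ 20) ^ 2 by ring, Real.sqrt_sq (by positivity)]] at hm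
  have key : y ^ 40 + 4 / (y ^ 2 / 2) * (β ^ 2 * y ^ 10 +
      β ^ 2 * (y ^ 20 + 6 * (kap β n ε + √(2 / n))) / y ^ 10 +
      (1 + β ^ 2) / (y ^ 40) ^ 2 * (3 * √(resB β n ε))) ≤ K1 * y ^ 8 := by
    have a1 : y ^ 20 + 6 * (kap β n ε + √(2 / n)) ≤ (1 + 6 * D) * y ^ 20 := by
      have := hd.trans (mul_le_mul_of_nonneg_left (mono (show 20 ≤ 400 by norm_num)) hD0)
      linarith
    calc _ ≤ y ^ 8 + 4 / (y ^ 2 / 2) * (β ^ 2 * y ^ 10 +
          β ^ 2 * ((1 + 6 * D) * y ^ 20) / y ^ 10 +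
          (1 + β ^ 2) / (y ^ 40) ^ 2 * (3 * (√R * y ^ 100))) := by
          refine add_le_add (mono (show 8 ≤ 40 by norm_num)) ?_
          gcongr
      _ ≤ y ^ 8 + 8 * (β ^ 2 + β ^ 2 * (1 + 6 * D) + (1 + β ^ 2) * (3 * √R)) * y ^ 8 := by
          refine add_le_add le_rfl ?_
          have e : 4 / (y ^ 2 / 2) * (β ^ 2 * y ^ 10 + β ^ 2 * ((1 + 6 * D) * y ^ 20) / y ^ 10 +
              (1 + β ^ 2) / (y ^ 40) ^ 2 * (3 * (√R * y ^ 100))) =
              8 * (β ^ 2 * y ^ 8 + β ^ 2 * (1 + 6 * D) * y ^ 8 +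
                (1 + β ^ 2) * (3 * √R) * y ^ 18) := by
            field_simp
            ring
          rw [e, mul_assoc (8 : ℝ)]
          refine mul_le_mul_of_nonneg_left (le_trans (add_le_add le_rfl (mul_le_mul_of_nonneg_left
            (mono (show 8 ≤ 18 by norm_num)) (by positivity))) (le_of_eq (by ring))) (by norm_num)
      _ = _ := by rw [hK1]; ring
  have h4 := hm.trans key
  have h5 : phiC β n (1 - y ^ 2 / 2) ^ 4 ≤ (K1 * y ^ 2) ^ 4 := by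
    refine h4.trans ?_
    rw [mul_pow, show (y ^ 2) ^ 4 = y ^ 8 by ring]
    exact mul_le_mul_of_nonneg_right (le_self_pow₀ hK11 (by norm_num)) (by positivity)
  exact (pow_le_pow_iff_left₀ (phiC_nonneg β _) (by positivity) (by norm_num)).1 h5

/-- **Disorder chaos at polynomially small perturbations.** -/
theorem chaos_poly {β : ℝ} (hβ : 0 < β) : ∃ K, 0 ≤ K ∧ ∀ n : ℕ, 0 < n → ∀ u : ℝ, 0 ≤ u →
    u ≤ 1 - (n : ℝ) ^ (-(1 / 1600 : ℝ)) / 2 → phiC β n u ≤ K * (n : ℝ) ^ (-(1 / 1600 : ℝ)) := by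
  obtain ⟨K, hK, h⟩ := scale_bound hβ
  refine ⟨K, zero_le_one.trans hK, fun n hn u hu hu1 => ?_⟩
  have hn' : (0 : ℝ) < n := by exact_mod_cast hn
  set y := (n : ℝ) ^ (-(1 / 3200 : ℝ)) with hy
  have hy0 : 0 < y := Real.rpow_pos_of_pos hn' _
  have hy1 : y ≤ 1 := Real.rpow_le_one_of_one_le_of_nonpos (by exact_mod_cast hn) (by norm_num)
  have hny : (n : ℝ) * y ^ 3200 = 1 := by
    rw [hy, ← Real.rpow_natCast ((n : ℝ) ^ (-(1 / 3200 : ℝ))) 3200, ← Real.rpow_mul hn'.le]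
    rw [show (-(1 / 3200) : ℝ) * ((3200 : ℕ) : ℝ) = -1 by norm_num, Real.rpow_neg_one]
    exact mul_inv_cancel₀ hn'.ne'
  have hy2 : y ^ 2 = (n : ℝ) ^ (-(1 / 1600 : ℝ)) := by
    rw [hy, ← Real.rpow_natCast ((n : ℝ) ^ (-(1 / 3200 : ℝ))) 2, ← Real.rpow_mul hn'.le]
    norm_num
  have h1 := h n hn y hy0 hy1 hny
  rw [hy2] at h1
  refine (phiC_mono β hu hu1 ?_).trans h1
  have : 0 ≤ (n : ℝ) ^ (-(1 / 1600 : ℝ)) := by positivity
  linarith

/-- **The fluctuations of `log Z` are polynomially smaller than `√n`.** -/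
theorem var_poly {β : ℝ} (hβ : 0 < β) : ∃ C : ℝ, ∀ n : ℕ,
    Var[lg (cpl n β); stdPi (Ed n)] ≤ C * (n : ℝ) ^ (1 - 1 / 1600 : ℝ) := by
  obtain ⟨K, hK, h⟩ := chaos_poly hβ
  refine ⟨β ^ 2 / 2 * (K + 1 / 2), fun n => ?_⟩
  rcases Nat.eq_zero_or_pos n with rfl | hn
  · refine (var_lg_le β 0 zero_le_one le_rfl).trans (le_of_eq ?_)
    rw [Nat.cast_zero, Real.zero_rpow (by norm_num)]
    simp
  have hn' : (0 : ℝ) < n := by exact_mod_cast hn
  set e := (n : ℝ) ^ (-(1 / 1600 : ℝ)) with he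
  have he0 : 0 ≤ e := by positivity
  have he1 : e ≤ 1 := Real.rpow_le_one_of_one_le_of_nonpos (by exact_mod_cast hn) (by norm_num)
  have hp : (n : ℝ) ^ (1 - 1 / 1600 : ℝ) = n * e := by
    rw [he, sub_eq_add_neg, Real.rpow_add hn', Real.rpow_one]
  refine (var_lg_le β n (t := e / 2) (by linarith) (by linarith)).trans ?_
  have h1 := h n hn (1 - e / 2) (by linarith) le_rfl
  rw [hp, show β ^ 2 / 2 * (K + 1 / 2) * (n * e) = β ^ 2 * n / 2 * (K * e + e / 2) by ring]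
  exact mul_le_mul_of_nonneg_left (by linarith) (by positivity)

end Vale.Agent.P146.Chaos
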