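import Vale.Agent.P146.Chaos.Weak

/-! # P146: the susceptibility multiplier and averaged weak rank one -/

namespace Vale.Agent.P146.Chaos

open Finset MeasureTheory ProbabilityTheory
open Vale.Agent.P150 Vale.Agent.P150.Slow

variable {n : ℕ}

/-- correlations of site `i` -/
noncomputable def col (β : ℝ) (i : Fin n) (g : Ed n → ℝ) (j : Fin n) : ℝ :=
  avg β g fun x => sp x i * sp x j

/-- the quadratic form of the column -/
noncomputable def cq (β : ℝ) (i : Fin n) (Z : Ed n → ℝ) (g : Ed n → ℝ) : ℝ :=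
  ∑ p, Z p * (msk i p * (col β i g p.1 * col β i g p.2) / n)

/-- the rescaled row derivative of the correlations -/
noncomputable def uu (β : ℝ) (i : Fin n) (g : Ed n → ℝ) (p : Ed n) : ℝ :=
  msk i p * (w β g p - col β i g p.1 * col β i g p.2 / n)

/-- the susceptibility multiplier, weighted by the overlap with the reference -/
noncomputable def chi (β : ℝ) (i : Fin n) (g o : Ed n → ℝ) : ℝ :=
  ip (wq β i (ins i o 0)) (wq β i g) - cq β i (wq β i (ins i o 0)) g

/-- Gibbs weight of a configuration -/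
noncomputable def pw (β : ℝ) (g : Ed n → ℝ) (a : Cfg n) : ℝ :=
  avg β g fun x => if x = a then 1 else 0

/-- masked spins -/
def tv (i : Fin n) (a : Cfg n) (j : Fin n) : ℝ := if j = i then 0 else sp a j

/-- masked difference vector -/
noncomputable def dv (i : Fin n) (a : Cfg n × Cfg n) (j : Fin n) : ℝ :=
  if j = i then 0 else (sp a.1 i * sp a.1 j - sp a.2 i * sp a.2 j) / √2

/-- mixture of rank one matrices -/
noncomputable def mat {A : Type*} [Fintype A] (P : A → ℝ) (τ : A → Fin n → ℝ) (p : Ed n) : ℝ :=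
  ∑ a, P a * r1 (τ a) (τ a) p

variable (β : ℝ) (g : Ed n → ℝ) (i : Fin n)

lemma avg_eq_sum (f : Cfg n → ℝ) : avg β g f = ∑ a, pw β g a * f a := by
  have h : f = fun x => ∑ a, f a * if x = a then (1 : ℝ) else 0 := by funext x; simp
  conv_lhs => rw [h]
  rw [avg_sum]
  refine sum_congr rfl fun a _ => ?_
  rw [avg_const_mul, mul_comm, pw]

lemma pw_nonneg (a : Cfg n) : 0 ≤ pw β g a :=
  avg_nonneg _ _ fun x => by split_ifs <;> norm_num

lemma sum_pw : ∑ a, pw β g a = 1 := by
  simpa [avg_const] using (avg_eq_sum β g fun _ => 1).symm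

lemma continuous_pw (a : Cfg n) : Continuous fun g : Ed n → ℝ => pw β g a := continuous_avg β _

lemma tv_self (a : Cfg n) : tv i a i = 0 := by simp [tv]

lemma dv_self (a : Cfg n × Cfg n) : dv i a i = 0 := by simp [dv]

lemma sum_tv_sq (a : Cfg n) : ∑ j, tv i a j ^ 2 ≤ 2 * n := by
  refine (sum_le_sum (g := fun _ => (2 : ℝ)) fun j _ => ?_).trans (by simp [mul_comm])
  unfold tv
  split_ifs <;> norm_num [sq, sp_sq]

lemma sum_dv_sq (a : Cfg n × Cfg n) : ∑ j, dv i a j ^ 2 ≤ 2 * n := by
  refine (sum_le_sum (g := fun _ => (2 : ℝ)) fun j _ => ?_).trans (by simp [mul_comm])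
  unfold dv
  split_ifs
  · norm_num
  · rw [div_pow, Real.sq_sqrt two_pos.le, div_le_iff₀ two_pos]
    have h : ∀ x : Cfg n, |sp x i * sp x j| = 1 := fun x => by rw [abs_mul, abs_sp, abs_sp, one_mul]
    rw [← sq_abs]
    nlinarith [abs_sub (sp a.1 i * sp a.1 j) (sp a.2 i * sp a.2 j), h a.1, h a.2,
      abs_nonneg (sp a.1 i * sp a.1 j - sp a.2 i * sp a.2 j)]

lemma wq_eq_mat : wq β i g = mat (pw β g) (tv i) := by
  funext p
  rw [wq, w, avg_eq_sum, mat, sum_div, mul_sum]
  refine sum_congr rfl fun a _ => ?_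
  unfold r1 tv msk
  by_cases h1 : p.1 = i <;> by_cases h2 : p.2 = i <;> simp [h1, h2] <;> ring

lemma uu_eq_mat : uu β i g = mat (fun a : Cfg n × Cfg n => pw β g a.1 * pw β g a.2) (dv i) := by
  funext p
  have e : ∀ j k : Fin n, j ≠ i → k ≠ i →
      ∑ a : Cfg n × Cfg n, pw β g a.1 * pw β g a.2 * (dv i a j * dv i a k / n) =
        (avg β g (fun x => sp x j * sp x k) - col β i g j * col β i g k) / n := by
    intro j k hj hk
    have h1 : ∀ a b : Cfg n, dv i (a, b) j * dv i (a, b) k = (sp a j * sp a k + sp b j * sp b k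
        - (sp a i * sp a j) * (sp b i * sp b k) - (sp b i * sp b j) * (sp a i * sp a k)) / 2 := by
      intro a b
      have h2 : (√2 : ℝ) * √2 = 2 := Real.mul_self_sqrt two_pos.le
      simp only [dv, hj, hk, if_false, div_mul_div_comm, h2]
      linear_combination (sp a j * sp a k / 2) * sp_sq a i + (sp b j * sp b k / 2) * sp_sq b i
    have hsum : ∑ a : Cfg n × Cfg n, pw β g a.1 * pw β g a.2 * (dv i a j * dv i a k / n) =
        ∑ a, ∑ b, (pw β g a * (sp a j * sp a k) * pw β g b / (2 * n) +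
          pw β g b * (sp b j * sp b k) * pw β g a / (2 * n) -
          pw β g a * (sp a i * sp a j) * (pw β g b * (sp b i * sp b k)) / (2 * n) -
          pw β g b * (sp b i * sp b j) * (pw β g a * (sp a i * sp a k)) / (2 * n)) := by
      rw [Fintype.sum_prod_type]
      refine sum_congr rfl fun a _ => sum_congr rfl fun b _ => ?_
      rw [h1]; ring
    rw [hsum]
    simp only [sum_add_distrib, sum_sub_distrib, ← sum_div, ← mul_sum, ← sum_mul, sum_pw,
      ← avg_eq_sum, col]
    ring
  rw [uu, mat]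
  unfold r1
  by_cases h : p.1 = i ∨ p.2 = i
  · rw [sum_eq_zero fun a _ => by rcases h with h | h <;> simp [h, dv_self]]
    simp [msk, h]
  · push Not at h
    rw [e _ _ h.1 h.2, w]
    simp [msk, h.1, h.2]
    ring

lemma ip_uu (Z : Ed n → ℝ) : ip Z (uu β i g) = ip Z (wq β i g) - cq β i Z g := by
  simp only [ip, cq, ← sum_sub_distrib, uu, wq]
  exact sum_congr rfl fun p _ => by ring

lemma ip_mat {A : Type*} [Fintype A] (P : A → ℝ) (τ : A → Fin n → ℝ) (hτ : ∀ a, τ a i = 0) :
    ip (mat P τ) (wq β i g) = ∑ a, P a * avg β g (fun s => ov (τ a) s * ov (τ a) s) := by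
  simp only [ip, mat, sum_mul]
  rw [sum_comm]
  refine sum_congr rfl fun a _ => ?_
  rw [← show quad i (r1 (τ a) (τ a)) = fun s => ov (τ a) s * ov (τ a) s from
    funext (quad_r1 (hτ a) (hτ a)), avg_quad, ip, mul_sum]
  exact sum_congr rfl fun p _ => by ring

lemma cq_mat {A : Type*} [Fintype A] (P : A → ℝ) (τ : A → Fin n → ℝ) (hτ : ∀ a, τ a i = 0) :
    cq β i (mat P τ) g = ∑ a, P a *
      avg β g (fun x => avg β g fun x' => sp x i * sp x' i * (ov (τ a) x * ov (τ a) x')) := by
  have e : ∀ a, avg β g (fun x => avg β g fun x' => sp x i * sp x' i * (ov (τ a) x * ov (τ a) x')) =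
      ((∑ j, τ a j * col β i g j) / n) * ((∑ j, τ a j * col β i g j) / n) := by
    intro a
    have h : ∀ x x', sp x i * sp x' i * (ov (τ a) x * ov (τ a) x') =
        (sp x i * ov (τ a) x) * (sp x' i * ov (τ a) x') := fun x x' => by ring
    have h2 : avg β g (fun x => sp x i * ov (τ a) x) = (∑ j, τ a j * col β i g j) / n := by
      have h3 : (fun x => sp x i * ov (τ a) x) =
          fun x => ∑ j, τ a j / n * (sp x i * sp x j) := by
        funext x
        rw [ov, sum_div, mul_sum]
        exact sum_congr rfl fun j _ => by ring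
      rw [h3, avg_sum, sum_div]
      refine sum_congr rfl fun j _ => ?_
      rw [avg_const_mul, col]; ring
    simp only [h, avg_const_mul]
    rw [show (fun x => sp x i * ov (τ a) x * avg β g fun x' => sp x' i * ov (τ a) x') =
      fun x => (avg β g fun x' => sp x' i * ov (τ a) x') * (sp x i * ov (τ a) x) by
        funext x; ring, avg_const_mul, h2]
  simp only [cq, mat, e, sum_mul]
  rw [sum_comm]
  refine sum_congr rfl fun a _ => ?_
  rw [div_mul_div_comm, sum_mul_sum, sum_div, mul_sum, Fintype.sum_prod_type]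
  refine sum_congr rfl fun j _ => ?_
  rw [sum_div, mul_sum]
  refine sum_congr rfl fun k _ => ?_
  have h : msk i (j, k) * (τ a j * τ a k) = τ a j * τ a k := by
    unfold msk
    simp only
    split_ifs with h
    · rcases h with rfl | rfl <;> simp [hτ]
    · ring
  rw [r1]
  calc P a * (τ a j * τ a k / n) * (msk i (j, k) * (col β i g j * col β i g k) / n)
      = P a * ((msk i (j, k) * (τ a j * τ a k)) * (col β i g j * col β i g k) / (n * n)) := by ring
    _ = _ := by rw [h]; ring

/-- deterministic weak rank one for mixtures -/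
theorem rank_one_mat {A B : Type*} [Fintype A] [Fintype B] (P : A → ℝ) (Q : B → ℝ)
    (τ : A → Fin n → ℝ) (ω : B → Fin n → ℝ) (hP : ∀ a, 0 ≤ P a) (hQ : ∀ b, 0 ≤ Q b)
    (hτ0 : ∀ a, τ a i = 0) (hω0 : ∀ b, ω b i = 0)
    (hτ : ∀ a, ∑ j, τ a j ^ 2 ≤ 2 * n) (hω : ∀ b, ∑ j, ω b j ^ 2 ≤ 2 * n) :
    |ip (mat Q ω) (wq β i g) * cq β i (mat P τ) g - ip (mat P τ) (wq β i g) * cq β i (mat Q ω) g| ≤
      ∑ a, ∑ b, P a * Q b * (4 * √(gvar β g (quad i (r1 (ω b) (ω b)))) +
        8 * √(gvar β g (quad i (r1 (τ a) (ω b)))) + 4 * √(gvar β g (quad i (r1 (τ a) (τ a))))) := by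
  rw [ip_mat β g i P τ hτ0, ip_mat β g i Q ω hω0, cq_mat β g i P τ hτ0, cq_mat β g i Q ω hω0]
  rw [mul_comm (∑ b, Q b * _), sum_mul_sum, sum_mul_sum, ← sum_sub_distrib]
  refine (abs_sum_le_sum_abs _ _).trans (sum_le_sum fun a _ => ?_)
  rw [← sum_sub_distrib]
  refine (abs_sum_le_sum_abs _ _).trans (sum_le_sum fun b _ => ?_)
  set Mw := avg β g (fun s => ov (ω b) s * ov (ω b) s) with hMw
  set mt := avg β g (fun s => ov (τ a) s * ov (τ a) s) with hmt
  set ct := avg β g (fun x => avg β g fun x' => sp x i * sp x' i * (ov (τ a) x * ov (τ a) x'))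
  set cw := avg β g (fun x => avg β g fun x' => sp x i * sp x' i * (ov (ω b) x * ov (ω b) x'))
  have e1 : P a * ct * (Q b * Mw) - P a * mt * (Q b * cw) = P a * Q b *
      avg β g (fun x => avg β g fun x' => sp x i * sp x' i *
        (ov (τ a) x * ov (τ a) x' * Mw - mt * (ov (ω b) x * ov (ω b) x'))) := by
    have e2 : ∀ x x', sp x i * sp x' i * (ov (τ a) x * ov (τ a) x' * Mw -
        mt * (ov (ω b) x * ov (ω b) x')) =
        Mw * (sp x i * sp x' i * (ov (τ a) x * ov (τ a) x')) -
          mt * (sp x i * sp x' i * (ov (ω b) x * ov (ω b) x')) := fun x x' => by ring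
    simp only [e2, avg_sub, avg_const_mul]
    ring
  rw [e1, abs_mul, abs_of_nonneg (mul_nonneg (hP a) (hQ b))]
  refine mul_le_mul_of_nonneg_left ?_ (mul_nonneg (hP a) (hQ b))
  refine le_trans ?_ (rank_one g (hτ0 a) (hω0 b) (hτ a) (hω b))
  have habs : ∀ f : Cfg n → ℝ, |avg β g f| ≤ avg β g fun x => |f x| := fun f =>
    abs_le.2 ⟨by
      have := avg_mono β g (f := fun x => (-1) * |f x|) (h := f) fun x => by
        linarith [neg_abs_le (f x)]
      rw [avg_const_mul] at this
      linarith, avg_mono β g fun x => le_abs_self _⟩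
  refine (habs _).trans (avg_mono _ _ fun x => (habs _).trans (le_of_eq ?_))
  congr 1
  funext x'
  rw [abs_mul, abs_mul, abs_sp, abs_sp, one_mul, one_mul]

section Averaged

variable {M : Type} [Fintype M] [DecidableEq M] {Θ : Type} [TopologicalSpace Θ] [MeasurableSpace Θ]
  [BorelSpace Θ] [SecondCountableTopology Θ] (P : Measure Θ) [IsProbabilityMeasure P]
  {A B : Type*} [Fintype A] [Fintype B]

/-- **Averaged weak rank one.** -/
theorem rank_one_avg {β : ℝ} (hβ : 0 < β) (b : Ed n → ℝ) {r ε : ℝ} (h0 : 0 ≤ r) (hε : 0 < ε)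
    (hr : r ≤ 1 - ε) (S : M) {y : Θ → Fin n → ℝ} (hy : Continuous y)
    (hmp : MeasurePreserving y P (stdPi (Fin n)))
    (WA : A → Θ × (M × Ed n → ℝ) → ℝ) (WB : B → Θ × (M × Ed n → ℝ) → ℝ)
    (τ : A → Fin n → ℝ) (ω : B → Fin n → ℝ) (hAc : ∀ a, Continuous (WA a))
    (hBc : ∀ a, Continuous (WB a)) (hA0 : ∀ a q, 0 ≤ WA a q) (hB0 : ∀ a q, 0 ≤ WB a q)
    (hA1 : ∀ q, ∑ a, WA a q = 1) (hB1 : ∀ q, ∑ a, WB a q = 1)
    (hAi : ∀ a θ z v, WA a (θ, upd S z v) = WA a (θ, z))
    (hBi : ∀ a θ z v, WB a (θ, upd S z v) = WB a (θ, z))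
    (hτ0 : ∀ a, τ a i = 0) (hω0 : ∀ a, ω a i = 0) (hτ : ∀ a, ∑ j, τ a j ^ 2 ≤ 2 * n)
    (hω : ∀ a, ∑ j, ω a j ^ 2 ≤ 2 * n) :
    ∫ q, |ip (mat (fun a => WB a q) ω) (wq β i (gS i b r S y q)) *
        ip (mat (fun a => WA a q) τ) (uu β i (gS i b r S y q)) -
      (ip (mat (fun a => WB a q) ω) (wq β i (gS i b r S y q)) -
          cq β i (mat (fun a => WB a q) ω) (gS i b r S y q)) *
        ip (mat (fun a => WA a q) τ) (wq β i (gS i b r S y q))| ∂P.prod (stdPi (M × Ed n)) ≤
      104 * √(kap β n ε) := by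
  have hn : 0 < n := i.pos
  have hk : 0 < kap β n ε := by
    have := v0_pos hβ hn hε
    unfold kap; positivity
  set l := √(kap β n ε) with hl
  have hl0 : 0 < l := Real.sqrt_pos.2 hk
  set μ := P.prod (stdPi (M × Ed n))
  set G := fun q => gS i b r S y q with hG
  set T := fun q : Θ × (M × Ed n → ℝ) => √(tlt2 β (sys r b (blk S q.2)) i (y q.1)) with hT
  -- the three variance sums
  set E : (A → B → Ed n → ℝ) → Θ × (M × Ed n → ℝ) → ℝ := fun Z q => T q *
    ∑ c : A × B, WA c.1 q * WB c.2 q *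
      √(gvar β (ins i (sys r b (blk S q.2)) 0) (quad i (Z c.1 c.2))) with hE
  have hgS : Continuous G := by
    have h1 : Continuous fun q : Θ × (M × Ed n → ℝ) => blk S q.2 :=
      (continuous_pi fun e => continuous_apply (S, e)).comp continuous_snd
    exact (continuous_ovr (row_injective i)).comp
      (((continuous_sys r).comp (continuous_const.prodMk h1)).prodMk (hy.comp continuous_fst))
  have hEc : ∀ Z, Continuous (E Z) := by
    intro Z
    have h1 : Continuous fun q : Θ × (M × Ed n → ℝ) => blk S q.2 :=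
      (continuous_pi fun e => continuous_apply (S, e)).comp continuous_snd
    have h2 : Continuous fun q : Θ × (M × Ed n → ℝ) => ins i (sys r b (blk S q.2)) 0 :=
      (continuous_ovr (row_injective i)).comp
        (((continuous_sys r).comp (continuous_const.prodMk h1)).prodMk continuous_const)
    have h3 : ∀ x, Continuous fun q : Θ × (M × Ed n → ℝ) => tilt β i (y q.1) x := fun x => by
      unfold tilt; fun_prop
    refine (Real.continuous_sqrt.comp ?_).mul (continuous_finsetSum _ fun c _ =>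
      ((hAc c.1).mul (hBc c.2)).mul (Real.continuous_sqrt.comp ?_))
    · simp only [tlt2]
      unfold avg av en
      exact Continuous.div (by fun_prop) (by fun_prop) fun q => (part_pos (cpl n β) _).ne'
    · simp only [gvar_eq]
      exact ((continuous_avg β _).comp h2).sub
        (((continuous_avg β _).comp h2).mul ((continuous_avg β _).comp h2))
  have hEint : ∀ Z, (∀ a c, ip (Z a c) (Z a c) ≤ 4) → Integrable (E Z) μ →
      ∫ q, E Z q ∂μ ≤ kap β n ε * 2 := by
    intro Z hZ _
    have h4 : √(4 : ℝ) = 2 := by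
      rw [show (4 : ℝ) = 2 ^ 2 by norm_num, Real.sqrt_sq two_pos.le]
    rw [← h4]
    refine core_bound (C := A × B) P hβ i b h0 hε hr S hy hmp (fun c q => WA c.1 q * WB c.2 q)
      (fun c _ => Z c.1 c.2) (fun c => (hAc c.1).mul (hBc c.2)) (fun c => continuous_const)
      (fun c q => mul_nonneg (hA0 _ q) (hB0 _ q)) (fun q => le_of_eq ?_) (by norm_num)
      (fun c _ => hZ c.1 c.2) (fun c θ z v => by rw [hAi, hBi]) (fun c θ z v => rfl) (hEc Z)
      (fun q => mul_nonneg (Real.sqrt_nonneg _) (sum_nonneg fun c _ =>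
        mul_nonneg (mul_nonneg (hA0 _ q) (hB0 _ q)) (Real.sqrt_nonneg _))) (fun q => le_rfl)
    simp only [Fintype.sum_prod_type]; rw [← sum_mul_sum, hA1, hB1, one_mul]
  -- integrability of the tilt sums
  have hT2 : Integrable (fun q : Θ × (M × Ed n → ℝ) =>
      tlt2 β (sys r b (blk S q.2)) i (y q.1)) μ := by
    have hc : Continuous fun q : Θ × (M × Ed n → ℝ) => tlt2 β (sys r b (blk S q.2)) i (y q.1) := by
      have h1 : Continuous fun q : Θ × (M × Ed n → ℝ) => blk S q.2 :=
        (continuous_pi fun e => continuous_apply (S, e)).comp continuous_snd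
      have h2 : Continuous fun q : Θ × (M × Ed n → ℝ) => ins i (sys r b (blk S q.2)) 0 :=
        (continuous_ovr (row_injective i)).comp
          (((continuous_sys r).comp (continuous_const.prodMk h1)).prodMk continuous_const)
      have h3 : ∀ x, Continuous fun q : Θ × (M × Ed n → ℝ) => tilt β i (y q.1) x := fun x => by
        unfold tilt; fun_prop
      simp only [tlt2]
      unfold avg av en
      exact Continuous.div (by fun_prop) (by fun_prop) fun q => (part_pos (cpl n β) _).ne'
    have hTs : ∀ z, Integrable (fun θ => tlt2 β (sys r b (blk S z)) i (y θ)) P ∧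
        ∫ θ, tlt2 β (sys r b (blk S z)) i (y θ) ∂P ≤ Real.exp (2 * β ^ 2) := by
      intro z
      have h := integral_tlt2_le β (sys r b (blk S z)) i
      refine ⟨hmp.integrable_comp_of_integrable h.1, ?_⟩
      have e := integral_map (μ := P) hmp.measurable.aemeasurable
        (f := fun v => tlt2 β (sys r b (blk S z)) i v) (hmp.map_eq ▸ h.1.aestronglyMeasurable)
      rw [hmp.map_eq] at e
      exact e.symm.trans_le h.2
    rw [integrable_prod_iff' hc.aestronglyMeasurable]
    refine ⟨ae_of_all _ fun z => (hTs z).1, ?_⟩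
    refine (integrable_const (Real.exp (2 * β ^ 2))).mono'
      (((hc.norm.comp continuous_swap).aestronglyMeasurable
        (μ := (stdPi (M × Ed n)).prod P)).integral_prod_right') (ae_of_all _ fun z => ?_)
    have hp : ∀ θ, 0 ≤ tlt2 β (sys r b (blk S z)) i (y θ) := fun θ =>
      avg_nonneg _ _ fun x => sq_nonneg _
    simp only [Real.norm_eq_abs, abs_of_nonneg (hp _)]
    rw [abs_of_nonneg (integral_nonneg hp)]
    exact (hTs z).2
  have hEi : ∀ Z, (∀ a c, ip (Z a c) (Z a c) ≤ 4) → Integrable (E Z) μ := by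
    intro Z hZ
    refine ((integrable_const (1 : ℝ)).add hT2 |>.const_mul 4).mono' (hEc Z).aestronglyMeasurable
      (ae_of_all _ fun q => ?_)
    have hT0 : 0 ≤ tlt2 β (sys r b (blk S q.2)) i (y q.1) := avg_nonneg _ _ fun x => sq_nonneg _
    have hs : ∑ c : A × B, WA c.1 q * WB c.2 q *
        √(gvar β (ins i (sys r b (blk S q.2)) 0) (quad i (Z c.1 c.2))) ≤ 4 := by
      calc _ ≤ ∑ c : A × B, WA c.1 q * WB c.2 q * 4 := sum_le_sum fun c _ => by
            refine mul_le_mul_of_nonneg_left ?_ (mul_nonneg (hA0 _ q) (hB0 _ q))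
            have h4 : √(4 : ℝ) = 2 := by
              rw [show (4 : ℝ) = 2 ^ 2 by norm_num, Real.sqrt_sq two_pos.le]
            have hq : ∀ x, |quad i (Z c.1 c.2) x| ≤ 2 := fun x =>
              abs_quad_le i ((Real.sqrt_le_sqrt (hZ _ _)).trans h4.le) x
            rw [Real.sqrt_le_iff]
            refine ⟨by norm_num, (avg_mono _ _ fun x => ?_).trans (avg_const _ _ _).le⟩
            rw [← sq_abs]
            refine pow_le_pow_left₀ (abs_nonneg _) ?_ 2
            linarith [abs_sub (quad i (Z c.1 c.2) x) (avg β (ins i (sys r b (blk S q.2)) 0)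
              (quad i (Z c.1 c.2))), hq x, abs_avg_le β (ins i (sys r b (blk S q.2)) 0) hq]
        _ = 4 := by rw [← sum_mul]; simp only [Fintype.sum_prod_type]; rw [← sum_mul_sum, hA1, hB1]; norm_num
    have hs0 : 0 ≤ ∑ c : A × B, WA c.1 q * WB c.2 q *
        √(gvar β (ins i (sys r b (blk S q.2)) 0) (quad i (Z c.1 c.2))) :=
      sum_nonneg fun c _ => mul_nonneg (mul_nonneg (hA0 _ q) (hB0 _ q)) (Real.sqrt_nonneg _)
    simp only [hE, hT, Pi.add_apply, Real.norm_eq_abs]
    rw [abs_of_nonneg (mul_nonneg (Real.sqrt_nonneg _) hs0), mul_comm (4 : ℝ)]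
    refine mul_le_mul ?_ hs hs0 (by positivity)
    rw [Real.sqrt_le_left (by positivity)]
    nlinarith
  set Z1 : A → B → Ed n → ℝ := fun _ c => r1 (ω c) (ω c)
  set Z2 : A → B → Ed n → ℝ := fun a c => r1 (τ a) (ω c)
  set Z3 : A → B → Ed n → ℝ := fun a _ => r1 (τ a) (τ a)
  have z1 : ∀ a c, ip (Z1 a c) (Z1 a c) ≤ 4 := fun a c => ip_r1_le (hω c) (hω c)
  have z2 : ∀ a c, ip (Z2 a c) (Z2 a c) ≤ 4 := fun a c => ip_r1_le (hτ a) (hω c)
  have z3 : ∀ a c, ip (Z3 a c) (Z3 a c) ≤ 4 := fun a c => ip_r1_le (hτ a) (hτ a)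
  refine (integral_mono_of_nonneg (ae_of_all _ fun q => abs_nonneg _)
    ((integrable_const (8 * l)).add ((((hEi Z1 z1).const_mul 8).add
      ((hEi Z2 z2).const_mul 16)).add ((hEi Z3 z3).const_mul 8) |>.const_mul (1 / l)))
    (ae_of_all _ fun q => ?_)).trans ?_
  · have hd : ∀ Z : Ed n → ℝ, ip Z Z ≤ 4 → √(gvar β (G q) (quad i Z)) ≤
        l / 2 + 2 / l * (T q * √(gvar β (ins i (sys r b (blk S q.2)) 0) (quad i Z))) := by
      intro Z hZ
      have h4 : √(4 : ℝ) = 2 := by
        rw [show (4 : ℝ) = 2 ^ 2 by norm_num, Real.sqrt_sq two_pos.le]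
      have hq : ∀ x, |quad i Z x| ≤ 2 := fun x =>
        abs_quad_le i ((Real.sqrt_le_sqrt hZ).trans h4.le) x
      have h1 := gvar_tilt_le β (sys r b (blk S q.2)) i (y q.1) (quad i Z) hq
      set X := gvar β (G q) (quad i Z) with hX
      have hX0 : 0 ≤ X := gvar_nonneg _ _ _
      set s := √X
      have hs : s * s = X := Real.mul_self_sqrt hX0
      have key : s ≤ l / 2 + X / (2 * l) := by
        rw [← hs]
        have e : l / 2 + s * s / (2 * l) = s + (l - s) ^ 2 / (2 * l) := by field_simp; ring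
        have : 0 ≤ (l - s) ^ 2 / (2 * l) := by positivity
        linarith
      refine key.trans (add_le_add le_rfl ?_)
      rw [div_le_iff₀ (by positivity)]
      refine le_trans h1 (le_of_eq ?_)
      simp only [hT]
      field_simp
    simp only [Pi.add_apply]
    rw [show gS i b r S y q = G q from rfl, ip_uu]
    refine le_trans (le_of_eq ?_) ((rank_one_mat β (G q) i _ _ τ ω (fun a => hA0 a q)
      (fun a => hB0 a q) hτ0 hω0 hτ hω).trans ?_)
    · rw [← abs_neg]; congr 1; ring
    · have e : ∀ Z : A → B → Ed n → ℝ, E Z q =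
          ∑ a, ∑ c, WA a q * WB c q * (T q *
            √(gvar β (ins i (sys r b (blk S q.2)) 0) (quad i (Z a c)))) := fun Z => by
        simp only [hE, mul_sum, Fintype.sum_prod_type]
        exact sum_congr rfl fun a _ => sum_congr rfl fun c _ => by ring
      have one : ∑ a, ∑ c, WA a q * WB c q = 1 := by rw [← sum_mul_sum, hA1, hB1, one_mul]
      rw [e, e, e]
      simp only [mul_sum, mul_add, ← sum_add_distrib]
      have : 8 * l = ∑ a, ∑ c, WA a q * WB c q * (8 * l) := by
        simp only [← sum_mul, one, one_mul]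
      rw [this, ← sum_add_distrib]
      refine sum_le_sum fun a _ => ?_
      rw [← sum_add_distrib]
      refine sum_le_sum fun c _ => ?_
      have hW : 0 ≤ WA a q * WB c q := mul_nonneg (hA0 a q) (hB0 c q)
      have h1 := mul_le_mul_of_nonneg_left (hd _ (z1 a c)) hW
      have h2 := mul_le_mul_of_nonneg_left (hd _ (z2 a c)) hW
      have h3 := mul_le_mul_of_nonneg_left (hd _ (z3 a c)) hW
      simp only [Z1, Z2, Z3] at h1 h2 h3 ⊢
      ring_nf at h1 h2 h3 ⊢
      linarith
  · have i1 := hEi Z1 z1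
    have i2 := hEi Z2 z2
    have i3 := hEi Z3 z3
    simp only [Pi.add_apply]
    have i12 : Integrable (fun a => 8 * E Z1 a + 16 * E Z2 a) μ :=
      (i1.const_mul 8).add (i2.const_mul 16)
    have i123 : Integrable (fun a => 8 * E Z1 a + 16 * E Z2 a + 8 * E Z3 a) μ :=
      i12.add (i3.const_mul 8)
    rw [integral_add (integrable_const _) (i123.const_mul _), integral_const, integral_const_mul,
      integral_add i12 (i3.const_mul 8), integral_add (i1.const_mul 8) (i2.const_mul 16),
      integral_const_mul, integral_const_mul, integral_const_mul]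
    simp only [probReal_univ, one_smul]
    have b1 := hEint Z1 z1 i1
    have b2 := hEint Z2 z2 i2
    have b3 := hEint Z3 z3 i3
    have hll : kap β n ε = l * l := (Real.mul_self_sqrt hk.le).symm
    have h5 : 1 / l * (8 * ∫ a, E Z1 a ∂μ + 16 * ∫ a, E Z2 a ∂μ + 8 * ∫ a, E Z3 a ∂μ) ≤
        1 / l * (32 * (kap β n ε * 2)) := mul_le_mul_of_nonneg_left (by linarith) (by positivity)
    have h6 : 1 / l * (32 * (kap β n ε * 2)) = 64 * l := by rw [hll]; field_simp; ring
    linarith

end Averaged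

end Vale.Agent.P146.Chaos
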