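import Vale.Agent.P146.Chaos.Site

/-! # P146: replacing a row by zero; integration by parts in one row -/

namespace Vale.Agent.P146.Chaos

open Finset MeasureTheory ProbabilityTheory
open Vale.Agent.P150 Vale.Agent.P150.Slow

variable {n : ℕ} {M : Type} [Fintype M] [DecidableEq M]

set_option linter.unusedSectionVars false

/-- the rest of system `S` -/
noncomputable def g0 (i : Fin n) (b : Ed n → ℝ) (r : ℝ) (S : M) (z : M × Ed n → ℝ) : Ed n → ℝ :=
  ins i (sys r b (blk S z)) 0

lemma gS_eq_ins {Θ : Type} (i : Fin n) (b : Ed n → ℝ) (r : ℝ) (S : M) (y : Θ → Fin n → ℝ)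
    (q : Θ × (M × Ed n → ℝ)) : gS i b r S y q = ins i (g0 i b r S q.2) (y q.1) := by
  rw [gS, g0, ins_ins]

lemma cont_blk (S : M) : Continuous fun z : M × Ed n → ℝ => blk S z :=
  continuous_pi fun e => continuous_apply (S, e)

lemma cont_g0 (i : Fin n) (b : Ed n → ℝ) (r : ℝ) (S : M) : Continuous (g0 i b r S) :=
  cont_ins i ((continuous_sys r).comp (continuous_const.prodMk (cont_blk S))) continuous_const

lemma g0_upd_ne (i : Fin n) (b : Ed n → ℝ) (r : ℝ) {S T : M} (h : T ≠ S) (z : M × Ed n → ℝ)
    (v : Ed n → ℝ) : g0 i b r T (upd S z v) = g0 i b r T z := by simp only [g0, blk_upd_ne h]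

section Replace

variable {Θ : Type} [TopologicalSpace Θ] [MeasurableSpace Θ] [BorelSpace Θ]
  [SecondCountableTopology Θ] (P : Measure Θ) [IsProbabilityMeasure P]
  {β : ℝ} (hβ : 0 < β) (i : Fin n) (b : Ed n → ℝ) {r ε : ℝ} (h0 : 0 ≤ r) (hε : 0 < ε)
  (hr : r ≤ 1 - ε) (S : M) {y : Θ → Fin n → ℝ} (hy : Continuous y)
  (hmp : MeasurePreserving y P (stdPi (Fin n))) {Z : Θ × (M × Ed n → ℝ) → Ed n → ℝ}
  (hZc : Continuous Z) (hZB : ∀ q, ip (Z q) (Z q) ≤ 1)
  (hZi : ∀ θ z v, Z (θ, upd S z v) = Z (θ, z))

omit [MeasurableSpace Θ] [BorelSpace Θ] [SecondCountableTopology Θ] in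
include hy in
lemma cont_gS : Continuous fun q : Θ × (M × Ed n → ℝ) => gS i b r S y q :=
  cont_ins i ((continuous_sys r).comp (continuous_const.prodMk ((cont_blk S).comp continuous_snd)))
    (hy.comp continuous_fst)

include hβ h0 hε hr hy hmp hZc hZB hZi in
/-- replacing row `i` by zero in one system, masked -/
theorem repl_wq :
    ∫ q, |ip (Z q) (wq β i (gS i b r S y q)) - ip (Z q) (wq β i (g0 i b r S q.2))|
      ∂P.prod (stdPi (M × Ed n)) ≤ kap β n ε := by
  rw [← mul_one (kap β n ε), ← Real.sqrt_one]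
  refine core_bound (C := Unit) P hβ i b h0 hε hr S hy hmp (fun _ _ => 1) (fun _ q => Z q)
    (fun _ => continuous_const) (fun _ => hZc) (fun _ _ => zero_le_one) (fun _ => by simp) one_pos
    (fun _ q => hZB q) (fun _ _ _ _ => rfl) (fun _ θ z v => hZi θ z v) ?_ (fun q => abs_nonneg _)
    fun q => ?_
  · exact ((cont_ip hZc (cont_wq β i (cont_gS i b S hy))).sub
      (cont_ip hZc (cont_wq β i ((cont_g0 i b r S).comp continuous_snd)))).abs
  · simp only [← avg_quad, gS, g0]
    simpa using abs_tilt_sub_le β (sys r b (blk S q.2)) i (y q.1) (quad i (Z q))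

include hβ h0 hε hr hy hmp hZc hZB hZi in
/-- replacing row `i` by zero in one system -/
theorem repl_w :
    ∫ q, |ip (Z q) (w β (gS i b r S y q)) - ip (Z q) (wq β i (g0 i b r S q.2))|
      ∂P.prod (stdPi (M × Ed n)) ≤ kap β n ε + √(2 / n) := by
  set μ := P.prod (stdPi (M × Ed n))
  have hc : Continuous fun q => |ip (Z q) (wq β i (gS i b r S y q)) -
      ip (Z q) (wq β i (g0 i b r S q.2))| := ((cont_ip hZc (cont_wq β i (cont_gS i b S hy))).sub
      (cont_ip hZc (cont_wq β i ((cont_g0 i b r S).comp continuous_snd)))).abs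
  have hi : Integrable (fun q => |ip (Z q) (wq β i (gS i b r S y q)) -
      ip (Z q) (wq β i (g0 i b r S q.2))|) μ := integrable_bdd2 hc (B := 2) fun q => by
    rw [abs_abs]
    refine (abs_sub _ _).trans ?_
    linarith [abs_ip_le_one (hZB q) (ip_wq_self_le β (gS i b r S y q) i),
      abs_ip_le_one (hZB q) (ip_wq_self_le β (g0 i b r S q.2) i)]
  refine (integral_mono_of_nonneg (ae_of_all _ fun q => abs_nonneg _)
    (hi.add (integrable_const (√(2 / n)))) (ae_of_all _ fun q => ?_)).trans ?_
  · simp only [Pi.add_apply]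
    refine (abs_sub_le _ (ip (Z q) (wq β i (gS i b r S y q))) _).trans ?_
    rw [add_comm]
    exact add_le_add le_rfl (abs_ip_mask_le β i _ (hZB q))
  · simp only [Pi.add_apply]
    rw [integral_add hi (integrable_const _), integral_const]
    simpa using repl_wq P hβ i b h0 hε hr S hy hmp hZc hZB hZi

end Replace

/-! ### integration by parts in one row -/

lemma integral_neg_std {ι : Type*} [Fintype ι] [DecidableEq ι] {F : (ι → ℝ) → ℝ}
    (hF : Continuous F) : ∫ y, F (-y) ∂stdPi ι = ∫ y, F y ∂stdPi ι := by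
  have h := integral_merge (ι := ι) (-1) 0 1 (by norm_num) hF
  simpa [integral_fun_fst (fun y : ι → ℝ => F (-y))] using h

lemma cpl_row (β : ℝ) (i l : Fin n) (x : Cfg n) :
    cpl n β (row i l) x = if l = i then 0 else β / √n * (sp x i * sp x l) := by
  split_ifs with hl
  · subst hl
    simp [cpl, mk', pairs]
  · rw [cpl, if_pos (mk'_mem (Ne.symm hl)), X_mk']
    rfl

lemma col_neg (β : ℝ) (i : Fin n) (g : Ed n → ℝ) (y : Fin n → ℝ) {j : Fin n} (hj : j ≠ i) :
    col β i (ins i g (-y)) j = -col β i (ins i g y) j := by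
  have ht : ∀ x, tilt β i (-y) x = tilt β i y (flp i x) := fun x => by
    rw [tilt_flp, tilt, tilt, ← sum_neg_distrib]
    exact sum_congr rfl fun l _ => by simp only [Pi.neg_apply]; ring
  simp only [col, avg_ins β g i (-y), ht]
  rw [avg_flp β g i fun x => Real.exp (tilt β i y x), avg_ins β g i y, ← neg_div]
  congr 1
  rw [← avg_flp β g i fun x => Real.exp (tilt β i y (flp i x)) * (sp x i * sp x j)]
  simp only [flp_flp, sp_flp_self, sp_flp_ne hj, neg_mul, mul_neg]
  rw [show (fun x => -(Real.exp (tilt β i y x) * (sp x i * sp x j))) =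
    fun x => (-1 : ℝ) * (Real.exp (tilt β i y x) * (sp x i * sp x j)) by funext x; ring,
    avg_const_mul, neg_one_mul]

/-- **Integration by parts in row `i`.** -/
theorem integral_asite (β : ℝ) (i : Fin n) (ga gb : Ed n → ℝ) {r : ℝ} (h0 : 0 ≤ r) (h1 : r ≤ 1) :
    |∫ q, asite β i (ins i ga q.1) (ins i gb (rot r q.1 q.2))
        ∂(stdPi (Fin n)).prod (stdPi (Fin n)) -
      r * β ^ 2 * ∫ s in 0..1, ∫ q, ip (uu β i (ins i ga q.1)) (uu β i (ins i gb (rot (r * s) q.1 q.2)))
        ∂(stdPi (Fin n)).prod (stdPi (Fin n))| ≤ 1 / n := by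
  have hn : (0 : ℝ) < n := by exact_mod_cast i.pos
  let L : (Fin n → ℝ) →L[ℝ] (Ed n → ℝ) :=
    (ovrL (row_injective i)).comp (ContinuousLinearMap.inr ℝ (Ed n → ℝ) (Fin n → ℝ))
  have hL : ∀ (g : Ed n → ℝ) y, ins i g y = L y + ins i g 0 := by
    intro g y
    show ovr (row i) g y = ovr (row i) 0 y + ovr (row i) g 0
    rw [← ovr_add (row_injective i), zero_add, add_zero]
  have hLs : ∀ l, L (Pi.single l 1) = Pi.single (row i l) 1 := by
    intro l
    show ovr (row i) 0 (Pi.single l 1) = _
    funext e
    by_cases h : ∃ k, row i k = e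
    · obtain ⟨k, rfl⟩ := h
      rw [ovr_apply (row_injective i), Pi.single_apply, Pi.single_apply]
      simp [(row_injective i).eq_iff]
    · push Not at h
      rw [ovr_of_not _ _ h, Pi.single_apply, if_neg fun hh => h l hh.symm]
      rfl
  set f : (Ed n → ℝ) → Fin n → (Fin n → ℝ) → ℝ := fun g j y => col β i (ins i g y) j with hf
  have hnice : ∀ g j, Nice (f g j) := fun g j => by
    have := (nice_avg β fun x => sp x i * sp x j).comp_affine L (ins i g 0)
    simp only [← hL] at this
    exact this
  have hpd : ∀ g j y l, pd (f g j) y l = (β / √n) * ((n : ℝ) * uu β i (ins i g y) (j, l)) := by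
    intro g j y l
    have e : f g j = fun y => avg β (L y + ins i g 0) fun x => sp x i * sp x j := by
      funext y; rw [← hL]; rfl
    have hd : HasFDerivAt (f g j)
        ((fderiv ℝ (fun g => avg β g fun x => sp x i * sp x j) (L y + ins i g 0)).comp L) y := by
      rw [e]
      exact ((nice_avg β _).differentiable _).hasFDerivAt.comp y (L.hasFDerivAt.add_const _)
    have h2 := pd_avg β (ins i g y) (fun x => sp x i * sp x j) (row i l)
    rw [pd, ← hL] at *
    rw [hd.fderiv, ContinuousLinearMap.comp_apply, hLs, h2]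
    rw [show cpl n β (row i l) = fun x => if l = i then 0 else β / √n * (sp x i * sp x l) from
      funext (cpl_row β i l)]
    by_cases hl : l = i
    · simp [hl, avg_const, uu, msk]
    simp only [if_neg hl]
    set G := ins i g y
    rw [show (fun x => sp x i * sp x j * (β / √n * (sp x i * sp x l))) =
      fun x => β / √n * (sp x j * sp x l) by
        funext x; linear_combination (β / √n * sp x j * sp x l) * sp_sq x i,
      avg_const_mul, avg_const_mul]
    show _ - col β i G j * (β / √n * col β i G l) = _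
    by_cases hj : j = i
    · subst hj
      simp [uu, msk, col_self]
      simp [col]
    · simp only [uu, msk, hj, hl, or_self, if_false, one_mul, w]
      field_simp
  have hc0 : ∀ j, cor (f ga j) (f gb j) 0 = if j = i then 1 else 0 := by
    intro j
    simp only [cor, rot_zero]
    rw [integral_prod_mul]
    split_ifs with hj
    · subst hj; simp [hf, col_self]
    · have h3 : ∫ y, f ga j y ∂stdPi (Fin n) = 0 := by
        have := integral_neg_std (ι := Fin n) (hnice ga j).continuous
        simp only [hf, col_neg β i ga _ hj, integral_neg] at this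
        simp only [hf]
        linarith
      rw [h3, zero_mul]
  -- the derivative, summed over sites
  set J : ℝ → ℝ := fun u => ∫ q, ip (uu β i (ins i ga q.1)) (uu β i (ins i gb (rot u q.1 q.2)))
    ∂(stdPi (Fin n)).prod (stdPi (Fin n)) with hJ
  have hsum : ∀ u, (∑ j, dcor (f ga j) (f gb j) u) / n = β ^ 2 * J u := by
    intro u
    simp only [dcor, cor, hJ]
    rw [← integral_const_mul]
    have hi : ∀ j l, Integrable (fun q : (Fin n → ℝ) × (Fin n → ℝ) => pd (f ga j) q.1 l *
        pd (f gb j) (rot u q.1 q.2) l) ((stdPi (Fin n)).prod (stdPi (Fin n))) := by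
      intro j l
      obtain ⟨A, hA⟩ := (hnice ga j).bdd
      obtain ⟨B, hB⟩ := (hnice gb j).bdd
      refine integrable_bdd2 (((continuous_pd (hnice ga j) l).comp continuous_fst).mul
        ((continuous_pd (hnice gb j) l).comp (by unfold rot; fun_prop))) (B := A * B) fun q => ?_
      rw [abs_mul]
      exact mul_le_mul (abs_pd_le (fun x => (hA x).2) _ l) (abs_pd_le (fun x => (hB x).2) _ l)
        (abs_nonneg _) ((abs_nonneg _).trans (hA 0).1)
    simp only [← integral_finsetSum _ fun l _ => hi _ l]
    rw [← integral_finsetSum _ fun j _ => integrable_finsetSum _ fun l _ => hi j l, ← integral_div]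
    refine integral_congr_ae (ae_of_all _ fun q => ?_)
    simp only [hpd, ip, Fintype.sum_prod_type, mul_sum, sum_div]
    refine sum_congr rfl fun j _ => sum_congr rfl fun l _ => ?_
    field_simp
    rw [Real.sq_sqrt hn.le]
  have hint : ∀ j, IntervalIntegrable (dcor (f ga j) (f gb j)) volume 0 r := fun j =>
    (continuous_dcor (hnice ga j) (hnice gb j)).intervalIntegrable _ _
  have key : (∑ j, cor (f ga j) (f gb j) r) / n = 1 / n + r * β ^ 2 * ∫ s in 0..1, J (r * s) := by
    have e : ∀ j, cor (f ga j) (f gb j) r = cor (f ga j) (f gb j) 0 +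
        ∫ u in 0..r, dcor (f ga j) (f gb j) u := fun j => by
      rw [← cor_sub (hnice ga j) (hnice gb j) h0 h1]; ring
    rw [sum_congr rfl fun j _ => e j, sum_add_distrib,
      ← intervalIntegral.integral_finsetSum fun j _ => hint j, add_div,
      ← intervalIntegral.integral_div]
    simp only [hsum]
    rw [intervalIntegral.integral_const_mul, mul_comm r, mul_assoc,
      intervalIntegral.mul_integral_comp_mul_left, mul_zero, mul_one]
    simp [hc0]
  have lhs : ∫ q, asite β i (ins i ga q.1) (ins i gb (rot r q.1 q.2))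
      ∂(stdPi (Fin n)).prod (stdPi (Fin n)) = (∑ j, cor (f ga j) (f gb j) r) / n := by
    simp only [asite, cor, hf]
    rw [integral_div, integral_finsetSum]
    intro j _
    refine integrable_bdd2 (((hnice ga j).continuous.comp continuous_fst).mul
      ((hnice gb j).continuous.comp (by unfold rot; fun_prop))) (B := 1) fun q => ?_
    rw [abs_mul]
    exact mul_le_one₀ (abs_col_le β i _ j) (abs_nonneg _) (abs_col_le β i _ j)
  rw [lhs, key, hJ, add_sub_cancel_right, abs_of_nonneg (by positivity)]

end Vale.Agent.P146.Chaos
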