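import Vale.Agent.P146.Chaos.SiteVec

/-! # P146: the residual of the operator identity is small -/

namespace Vale.Agent.P146.Chaos

open Finset MeasureTheory ProbabilityTheory
open Vale.Agent.P150 Vale.Agent.P150.Slow

set_option linter.unusedSectionVars false

attribute [local irreducible] ymat site

variable {n : ℕ} (β r : ℝ) (P : Conf)

/-- the residual -/
noncomputable def vres (x : Fin 3 × Ed n → ℝ) (pq : Ed n × Ed n) : ℝ :=
  (∑ i, vsite β r P i x pq) / n

/-- the residual averaged over row `i` of the sources -/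
noncomputable def vrow (i : Fin n) (x : Fin 3 × Ed n → ℝ) (pq : Ed n × Ed n) : ℝ :=
  ∫ y, vres β r P (ovr (rows3 i) x y) pq ∂stdPi (Fin 3 × Fin n)

lemma sum_vres_sq (hr : 0 < r) (hn : 0 < n) (x : Fin 3 × Ed n → ℝ) :
    ∑ pq, vres β r P x pq ^ 2 ≤ (β ^ 2 + r⁻¹) ^ 2 := by
  have hn' : (0 : ℝ) < n := by exact_mod_cast hn
  calc ∑ pq, vres β r P x pq ^ 2 ≤ ∑ pq, (∑ i, vsite β r P i x pq ^ 2) / n :=
        sum_le_sum fun pq _ => by
          rw [vres, div_pow, div_le_div_iff₀ (by positivity) hn']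
          have h := sq_sum_le_card_mul_sum_sq (s := (univ : Finset (Fin n)))
            (f := fun i => vsite β r P i x pq)
          simp only [card_univ, Fintype.card_fin] at h
          nlinarith [mul_le_mul_of_nonneg_right h hn'.le]
    _ = (∑ i, ∑ pq, vsite β r P i x pq ^ 2) / n := by rw [← sum_div, sum_comm]
    _ ≤ (∑ _i : Fin n, (β ^ 2 + r⁻¹) ^ 2) / n :=
        div_le_div_of_nonneg_right (sum_le_sum fun i _ => sum_vsite_sq β r P hr i x) hn'.le
    _ = _ := by simp; field_simp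

lemma cont_vres (hr : 0 < r) (pq : Ed n × Ed n) : Continuous fun x => vres β r P x pq :=
  (continuous_finsetSum _ fun i _ => cont_vsite β r P hr i pq).div_const _

lemma abs_vres_le (hr : 0 < r) (hn : 0 < n) (x : Fin 3 × Ed n → ℝ) (pq : Ed n × Ed n) :
    |vres β r P x pq| ≤ β ^ 2 + r⁻¹ :=
  abs_le_of_sq_le_sq ((single_le_sum (f := fun pq => vres β r P x pq ^ 2)
    (fun q _ => sq_nonneg _) (mem_univ pq)).trans (sum_vres_sq β r P hr hn x)) (by positivity)

lemma bc_vres_ovr (hr : 0 < r) (i : Fin n) (pq : Ed n × Ed n) :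
    BC fun p : (Fin 3 × Ed n → ℝ) × (Fin 3 × Fin n → ℝ) =>
      vres β r P (ovr (rows3 i) p.1 p.2) pq :=
  ⟨(cont_vres β r P hr pq).comp (continuous_ovr (rows3_injective i)), _,
    fun p => abs_vres_le β r P hr i.pos _ pq⟩

lemma vrow_invariant (i : Fin n) (x : Fin 3 × Ed n → ℝ) (y : Fin 3 × Fin n → ℝ) :
    vrow β r P i (ovr (rows3 i) x y) = vrow β r P i x := by
  funext pq
  simp only [vrow, ovr_ovr (rows3_injective i)]

lemma sum_vrow_sq (hr : 0 < r) (i : Fin n) (x : Fin 3 × Ed n → ℝ) :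
    ∑ pq, vrow β r P i x pq ^ 2 ≤ (β ^ 2 + r⁻¹) ^ 2 := by
  have hc : ∀ pq, BC fun y => vres β r P (ovr (rows3 i) x y) pq := fun pq =>
    (bc_vres_ovr β r P hr i pq).comp (g := fun y => (x, y)) (by fun_prop)
  have h2 : ∀ pq, Integrable (fun y => vres β r P (ovr (rows3 i) x y) pq ^ 2)
      (stdPi (Fin 3 × Fin n)) := fun pq =>
    integrable_bdd ((hc pq).1.pow 2) (B := (β ^ 2 + r⁻¹) ^ 2) fun y => by
      rw [abs_pow]
      exact pow_le_pow_left₀ (abs_nonneg _) (abs_vres_le β r P hr i.pos _ pq) 2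
  calc ∑ pq, vrow β r P i x pq ^ 2
      ≤ ∑ pq, ∫ y, vres β r P (ovr (rows3 i) x y) pq ^ 2 ∂stdPi (Fin 3 × Fin n) :=
        sum_le_sum fun pq _ => sq_integral_le (hc pq).integrable (h2 pq)
    _ = ∫ y, ∑ pq, vres β r P (ovr (rows3 i) x y) pq ^ 2 ∂stdPi (Fin 3 × Fin n) :=
        (integral_finsetSum _ fun pq _ => h2 pq).symm
    _ ≤ ∫ _y, (β ^ 2 + r⁻¹) ^ 2 ∂stdPi (Fin 3 × Fin n) := integral_mono_of_nonneg
        (ae_of_all _ fun y => sum_nonneg fun pq _ => sq_nonneg _) (integrable_const _)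
        (ae_of_all _ fun y => sum_vres_sq β r P hr i.pos _)
    _ = _ := by simp

lemma cont_vrow (hr : 0 < r) (i : Fin n) : Continuous fun x => vrow β r P i x :=
  continuous_pi fun pq => (BC.int (μ := stdPi (Fin 3 × Fin n)) (bc_vres_ovr β r P hr i pq)).1

lemma ymat_energy (hr : 0 < r) (k : Fin n) (o : ℝ × (Fin 2 × Fin n → ℝ)) :
    ∑ pq, ∫ x, ∫ z, ymat β r k o (sysv P.k P.rr x z) pq ^ 2 ∂stdPi (Fin 4 × Ed n)
      ∂stdPi (Fin 3 × Ed n) ≤ (β ^ 2 + r⁻¹) ^ 2 := by
  set μ := (stdPi (Fin 3 × Ed n)).prod (stdPi (Fin 4 × Ed n))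
  set f := fun pq (q : (Fin 3 × Ed n → ℝ) × (Fin 4 × Ed n → ℝ)) =>
    ymat β r k o (sysv P.k P.rr q.1 q.2) pq ^ 2 with hf
  have hi : ∀ pq, Integrable (f pq) μ := fun pq => by
    refine integrable_bdd2 (((continuous_apply pq).comp (cont_ymat β r k continuous_const
      (cont_sysv P continuous_fst continuous_snd))).pow 2) (B := (β ^ 2 + r⁻¹) ^ 2) fun q => ?_
    show |(ymat β r k o (sysv P.k P.rr q.1 q.2) pq) ^ 2| ≤ _
    rw [abs_pow]
    exact pow_le_pow_left₀ (abs_nonneg _) (abs_ymat_apply_le β hr k _ _ pq) 2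
  have e : ∀ pq, ∫ x, ∫ z, ymat β r k o (sysv P.k P.rr x z) pq ^ 2 ∂stdPi (Fin 4 × Ed n)
      ∂stdPi (Fin 3 × Ed n) = ∫ q, f pq q ∂μ := fun pq => (integral_prod _ (hi pq)).symm
  simp only [e]
  rw [← integral_finsetSum _ fun pq _ => hi pq]
  refine (integral_mono_of_nonneg (ae_of_all _ fun q => sum_nonneg fun pq _ => sq_nonneg _)
    (integrable_const ((β ^ 2 + r⁻¹) ^ 2)) (ae_of_all _ fun q => ?_)).trans (by simp)
  exact abs_ymat_le β hr k o _

variable {β r P}

/-- the smoothed residual depends little on one row -/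
lemma vres_rows {ε : ℝ} (hε : 0 < ε) (hP : P.Ok ε r) (hn : 0 < n) :
    (∑ i : Fin n, ∫ x, ∑ pq, (vres β r P x pq - vrow β r P i x pq) ^ 2 ∂stdPi (Fin 3 × Ed n)) ≤
      8 / ε * (β ^ 2 + r⁻¹) ^ 2 := by
  have hr := hP.hr0
  have hn' : (0 : ℝ) < n := by exact_mod_cast hn
  set C := β ^ 2 + r⁻¹ with hC
  set S := fun (k : Fin n) (pq : Ed n × Ed n) (p : (Fin 3 × Ed n → ℝ) × (ℝ × (Fin 2 × Fin n → ℝ))) =>
    ∫ z, ymat β r k p.2 (sysv P.k P.rr p.1 z) pq ∂stdPi (Fin 4 × Ed n) with hS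
  have bS : ∀ k pq, BC (S k pq) := fun k pq => BC.int
    (f := fun p : ((Fin 3 × Ed n → ℝ) × (ℝ × (Fin 2 × Fin n → ℝ))) × (Fin 4 × Ed n → ℝ) =>
      ymat β r k p.1.2 (sysv P.k P.rr p.1.1 p.2) pq)
    ⟨(continuous_apply pq).comp (cont_ymat β r k (continuous_snd.comp continuous_fst)
      (cont_sysv P (continuous_fst.comp continuous_fst) continuous_snd)), C,
      fun p => abs_ymat_apply_le β hr k _ _ pq⟩
  set D := fun (i k : Fin n) (pq : Ed n × Ed n)
      (p : (Fin 3 × Ed n → ℝ) × (ℝ × (Fin 2 × Fin n → ℝ))) =>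
    S k pq p - ∫ y, S k pq (ovr (rows3 i) p.1 y, p.2) ∂stdPi (Fin 3 × Fin n) with hD
  have bD : ∀ i k pq, BC (D i k pq) := fun i k pq => by
    have h := BC.int (μ := stdPi (Fin 3 × Fin n))
      (f := fun p : ((Fin 3 × Ed n → ℝ) × (ℝ × (Fin 2 × Fin n → ℝ))) × (Fin 3 × Fin n → ℝ) =>
        S k pq (ovr (rows3 i) p.1.1 p.2, p.1.2))
      ((bS k pq).comp (g := fun p : ((Fin 3 × Ed n → ℝ) × (ℝ × (Fin 2 × Fin n → ℝ))) ×
          (Fin 3 × Fin n → ℝ) => (ovr (rows3 i) p.1.1 p.2, p.1.2))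
        (((continuous_ovr (rows3_injective i)).comp
          ((continuous_fst.comp continuous_fst).prodMk continuous_snd)).prodMk
          (continuous_snd.comp continuous_fst)))
    obtain ⟨hc, B, hB⟩ := bS k pq
    obtain ⟨hc', B', hB'⟩ := h
    exact ⟨hc.sub hc', B + B', fun p => (abs_sub _ _).trans (add_le_add (hB p) (hB' p))⟩
  have bD2 : ∀ i k pq, BC fun p => D i k pq p ^ 2 := fun i k pq => by
    obtain ⟨hc, B, hB⟩ := bD i k pq
    exact ⟨hc.pow 2, B ^ 2, fun p => by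
      rw [abs_pow]; exact pow_le_pow_left₀ (abs_nonneg _) (hB p) 2⟩
  have ediff : ∀ i pq x, vres β r P x pq - vrow β r P i x pq =
      (∑ k, ∫ o, D i k pq (x, o) ∂aux n) / n := by
    intro i pq x
    have hV : ∀ k x, vsite β r P k x pq = ∫ o, S k pq (x, o) ∂aux n := fun k x => rfl
    have bR : ∀ k, BC fun p : (ℝ × (Fin 2 × Fin n → ℝ)) × (Fin 3 × Fin n → ℝ) =>
        S k pq (ovr (rows3 i) x p.2, p.1) := fun k =>
      (bS k pq).comp (g := fun p : (ℝ × (Fin 2 × Fin n → ℝ)) × (Fin 3 × Fin n → ℝ) =>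
          (ovr (rows3 i) x p.2, p.1))
        (((continuous_ovr (rows3_injective i)).comp
          (continuous_const.prodMk continuous_snd)).prodMk continuous_fst)
    have e2 : vrow β r P i x pq =
        (∑ k, ∫ o, ∫ y, S k pq (ovr (rows3 i) x y, o) ∂stdPi (Fin 3 × Fin n) ∂aux n) / n := by
      simp only [vrow, vres, hV]
      rw [integral_div, integral_finsetSum _ fun k _ => (BC.int
        (f := fun p : (Fin 3 × Fin n → ℝ) × (ℝ × (Fin 2 × Fin n → ℝ)) =>
          S k pq (ovr (rows3 i) x p.1, p.2))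
        ((bR k).comp (g := fun p : (Fin 3 × Fin n → ℝ) × (ℝ × (Fin 2 × Fin n → ℝ)) => (p.2, p.1))
          (by fun_prop))).integrable]
      congr 1
      refine sum_congr rfl fun k _ => BC.swap (f := fun y o => S k pq (ovr (rows3 i) x y, o)) ?_
      exact (bR k).comp (g := fun p : (Fin 3 × Fin n → ℝ) × (ℝ × (Fin 2 × Fin n → ℝ)) => (p.2, p.1))
        (by fun_prop)
    rw [e2, vres, ← sub_div, ← sum_sub_distrib]
    congr 1
    refine sum_congr rfl fun k _ => ?_
    simp only [hV, hD]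
    exact (integral_sub (((bS k pq).comp (g := fun o => (x, o)) (by fun_prop)).integrable)
      (BC.int (f := fun p : (ℝ × (Fin 2 × Fin n → ℝ)) × (Fin 3 × Fin n → ℝ) =>
        S k pq (ovr (rows3 i) x p.2, p.1)) (bR k)).integrable).symm
  have hJ : ∀ i pq x, (vres β r P x pq - vrow β r P i x pq) ^ 2 ≤
      (∑ k, ∫ o, D i k pq (x, o) ^ 2 ∂aux n) / n := by
    intro i pq x
    rw [ediff, div_pow, div_le_div_iff₀ (by positivity) hn']
    have h := sq_sum_le_card_mul_sum_sq (s := (univ : Finset (Fin n)))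
      (f := fun k => ∫ o, D i k pq (x, o) ∂aux n)
    simp only [card_univ, Fintype.card_fin] at h
    have h2 : ∑ k, (∫ o, D i k pq (x, o) ∂aux n) ^ 2 ≤ ∑ k, ∫ o, D i k pq (x, o) ^ 2 ∂aux n :=
      sum_le_sum fun k _ => sq_integral_le
        (((bD i k pq).comp (g := fun o => (x, o)) (by fun_prop)).integrable)
        (((bD2 i k pq).comp (g := fun o => (x, o)) (by fun_prop)).integrable)
    nlinarith [mul_le_mul_of_nonneg_right (h.trans (mul_le_mul_of_nonneg_left h2 hn'.le)) hn'.le]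
  have iT : ∀ i k pq, Integrable (fun x => ∫ o, D i k pq (x, o) ^ 2 ∂aux n)
      (stdPi (Fin 3 × Ed n)) := fun i k pq =>
    (BC.int (f := fun p => D i k pq p ^ 2) (bD2 i k pq)).integrable
  have hb : ∀ i, ∫ x, ∑ pq, (vres β r P x pq - vrow β r P i x pq) ^ 2 ∂stdPi (Fin 3 × Ed n) ≤
      (∑ pq, ∑ k, ∫ o, ∫ x, D i k pq (x, o) ^ 2 ∂stdPi (Fin 3 × Ed n) ∂aux n) / n := by
    intro i
    refine (integral_mono_of_nonneg (ae_of_all _ fun x => sum_nonneg fun pq _ => sq_nonneg _)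
      ((integrable_finsetSum univ fun pq _ => integrable_finsetSum univ fun k _ =>
        iT i k pq).div_const
        (n : ℝ)) (ae_of_all _ fun x => ?_)).trans (le_of_eq ?_)
    · refine (sum_le_sum fun pq _ => hJ i pq x).trans (le_of_eq ?_)
      rw [← sum_div]
    · rw [integral_div, integral_finsetSum _ fun pq _ => integrable_finsetSum _ fun k _ => iT i k pq]
      congr 1
      refine sum_congr rfl fun pq _ => ?_
      rw [integral_finsetSum _ fun k _ => iT i k pq]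
      exact sum_congr rfl fun k _ => BC.swap (f := fun x o => D i k pq (x, o) ^ 2) (bD2 i k pq)
  refine (sum_le_sum fun i _ => hb i).trans ?_
  rw [← sum_div, div_le_iff₀ hn', sum_congr rfl fun i _ => sum_comm, sum_comm]
  have ha : ∀ k : Fin n, ∑ pq : Ed n × Ed n, ∑ i : Fin n,
      ∫ o, ∫ x, D i k pq (x, o) ^ 2 ∂stdPi (Fin 3 × Ed n) ∂aux n ≤ 8 / ε * C ^ 2 := by
    intro k
    set E := fun (pq : Ed n × Ed n) (o : ℝ × (Fin 2 × Fin n → ℝ)) =>
      ∫ x, ∫ z, ymat β r k o (sysv P.k P.rr x z) pq ^ 2 ∂stdPi (Fin 4 × Ed n)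
        ∂stdPi (Fin 3 × Ed n) with hE
    have bY : ∀ pq, BC fun p : ((ℝ × (Fin 2 × Fin n → ℝ)) × (Fin 3 × Ed n → ℝ)) ×
        (Fin 4 × Ed n → ℝ) => ymat β r k p.1.1 (sysv P.k P.rr p.1.2 p.2) pq ^ 2 := fun pq =>
      ⟨((continuous_apply pq).comp (cont_ymat β r k (continuous_fst.comp continuous_fst)
        (cont_sysv P (continuous_snd.comp continuous_fst) continuous_snd))).pow 2, C ^ 2, fun p => by
        rw [abs_pow]
        exact pow_le_pow_left₀ (abs_nonneg _) (abs_ymat_apply_le β hr k _ _ pq) 2⟩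
    have bE : ∀ pq, BC (E pq) := fun pq => BC.int
      (f := fun p : (ℝ × (Fin 2 × Fin n → ℝ)) × (Fin 3 × Ed n → ℝ) =>
        ∫ z, ymat β r k p.1 (sysv P.k P.rr p.2 z) pq ^ 2 ∂stdPi (Fin 4 × Ed n)) (BC.int (bY pq))
    have iD : ∀ i pq, Integrable (fun o => ∫ x, D i k pq (x, o) ^ 2 ∂stdPi (Fin 3 × Ed n)) (aux n) :=
      fun i pq => (BC.int (f := fun p : (ℝ × (Fin 2 × Fin n → ℝ)) × (Fin 3 × Ed n → ℝ) =>
        D i k pq (p.2, p.1) ^ 2)
        ((bD2 i k pq).comp (g := fun p : (ℝ × (Fin 2 × Fin n → ℝ)) × (Fin 3 × Ed n → ℝ) => (p.2, p.1))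
          (by fun_prop))).integrable
    have hs : ∀ pq o, ∑ i : Fin n, ∫ x, D i k pq (x, o) ^ 2 ∂stdPi (Fin 3 × Ed n) ≤
        8 / ε * E pq o := by
      intro pq o
      have h := (smooth_rows P.k P.rr hε hP.hk hP.h0 hP.h1
        (F := fun u => ymat β r k o u pq) (nice_ymat β r k o pq)).2
      simp only [Fintype.card_fin] at h
      norm_num at h
      exact h
    calc ∑ pq, ∑ i : Fin n, ∫ o, ∫ x, D i k pq (x, o) ^ 2 ∂stdPi (Fin 3 × Ed n) ∂aux n
        ≤ ∑ pq, ∫ o, 8 / ε * E pq o ∂aux n := sum_le_sum fun pq _ => by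
          rw [← integral_finsetSum _ fun i _ => iD i pq]
          exact integral_mono (integrable_finsetSum _ fun i _ => iD i pq)
            ((bE pq).integrable.const_mul _) fun o => hs pq o
      _ = 8 / ε * ∫ o, ∑ pq, E pq o ∂aux n := by
          rw [integral_finsetSum _ fun pq _ => (bE pq).integrable, mul_sum]
          exact sum_congr rfl fun pq _ => integral_const_mul _ _
      _ ≤ 8 / ε * C ^ 2 := by
          refine mul_le_mul_of_nonneg_left ?_ (by positivity)
          refine (integral_mono (integrable_finsetSum _ fun pq _ => (bE pq).integrable)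
            (integrable_const (C ^ 2)) fun o => ?_).trans (by simp)
          exact ymat_energy β r P hr k o
  refine (sum_le_sum (g := fun _ => 8 / ε * C ^ 2) fun k _ => ?_).trans (le_of_eq ?_)
  · exact le_trans (le_of_eq sum_comm) (ha k)
  · simp [mul_comm]

/-- **The residual is small.** -/
theorem resid_small {ε : ℝ} (hβ : 0 < β) (hε : 0 < ε) (hP : P.Ok ε r) (hn : 0 < n) :
    ∫ x, ∑ pq, vres β r P x pq ^ 2 ∂stdPi (Fin 3 × Ed n) ≤
      (β ^ 2 + r⁻¹) * (β ^ 2 * (14 * (kap β n ε + √(2 / n)) + 208 * √(kap β n ε)) +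
        r⁻¹ * (6 * (kap β n ε + √(2 / n)) + 1 / n)) +
      (β ^ 2 + r⁻¹) ^ 2 * √(8 / (ε * n)) := by
  have hr := hP.hr0
  have hn' : (0 : ℝ) < n := by exact_mod_cast hn
  set C := β ^ 2 + r⁻¹ with hC
  have hC0 : 0 < C := by positivity
  set Sb := β ^ 2 * (14 * (kap β n ε + √(2 / n)) + 208 * √(kap β n ε)) +
    r⁻¹ * (6 * (kap β n ε + √(2 / n)) + 1 / n) with hSb
  set Q := √(8 / (ε * n)) * C with hQ
  have hQ0 : 0 < Q := by positivity
  set μ := stdPi (Fin 3 × Ed n)
  set U := fun (i : Fin n) (x : Fin 3 × Ed n → ℝ) =>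
    ∑ pq, vrow β r P i x pq * vsite β r P i x pq with hU
  set R := fun (i : Fin n) (x : Fin 3 × Ed n → ℝ) =>
    ∑ pq, (vres β r P x pq - vrow β r P i x pq) ^ 2 with hR
  have cr := fun i => cont_vrow β r P hr (i : Fin n)
  have cU : ∀ i, Continuous (U i) := fun i => continuous_finsetSum _ fun pq _ =>
    ((continuous_apply pq).comp (cr i)).mul (cont_vsite β r P hr i pq)
  have cR : ∀ i, Continuous (R i) := fun i => continuous_finsetSum _ fun pq _ =>
    ((cont_vres β r P hr pq).sub ((continuous_apply pq).comp (cr i))).pow 2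
  have iU : ∀ i, Integrable (U i) μ := fun i => integrable_bdd (cU i) (B := C * C) fun x => by
    refine abs_le_of_sq_le_sq ((sum_mul_sq_le_sq_mul_sq univ _ _).trans ?_) (by positivity)
    rw [mul_pow]
    exact mul_le_mul (sum_vrow_sq β r P hr i x) (sum_vsite_sq β r P hr i x)
      (sum_nonneg fun pq _ => sq_nonneg _) (sq_nonneg _)
  have iR : ∀ i, Integrable (R i) μ := fun i => integrable_bdd (cR i) (B := 4 * C ^ 2) fun x => by
    rw [abs_of_nonneg (sum_nonneg fun pq _ => sq_nonneg _)]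
    refine (sum_le_sum (g := fun pq => 2 * vres β r P x pq ^ 2 + 2 * vrow β r P i x pq ^ 2)
      fun pq _ => by nlinarith [sq_nonneg (vres β r P x pq + vrow β r P i x pq)]).trans ?_
    rw [sum_add_distrib, ← mul_sum, ← mul_sum]
    linarith [sum_vres_sq β r P hr hn x, sum_vrow_sq β r P hr i x]
  have key : ∀ x, ∑ pq, vres β r P x pq ^ 2 ≤
      (∑ i, (U i x + (C * Q / 2 + C / (2 * Q) * R i x))) / n := by
    intro x
    have e : ∑ pq, vres β r P x pq ^ 2 =
        (∑ i, ∑ pq, vres β r P x pq * vsite β r P i x pq) / n := by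
      rw [sum_comm, sum_div]
      refine sum_congr rfl fun pq _ => ?_
      rw [← mul_sum, mul_div_assoc, sq]
      rfl
    rw [e]
    refine div_le_div_of_nonneg_right (sum_le_sum fun i _ => ?_) hn'.le
    have e2 : ∑ pq, vres β r P x pq * vsite β r P i x pq =
        U i x + ∑ pq, (vres β r P x pq - vrow β r P i x pq) * vsite β r P i x pq := by
      rw [hU, ← sum_add_distrib]
      exact sum_congr rfl fun pq _ => by ring
    rw [e2]
    refine add_le_add le_rfl ?_
    have hcs := (sum_mul_sq_le_sq_mul_sq univ (fun pq => vres β r P x pq - vrow β r P i x pq)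
      (fun pq => vsite β r P i x pq)).trans (mul_le_mul_of_nonneg_left (sum_vsite_sq β r P hr i x)
        (sum_nonneg fun pq _ => sq_nonneg _))
    set a := ∑ pq, (vres β r P x pq - vrow β r P i x pq) * vsite β r P i x pq
    have hR0 : 0 ≤ R i x := sum_nonneg fun pq _ => sq_nonneg _
    have e3 : C * Q / 2 + C / (2 * Q) * R i x = C * ((Q ^ 2 + R i x) / (2 * Q)) := by
      field_simp
    rw [e3]
    have h4 : |a| ≤ C * √(R i x) := by
      refine abs_le_of_sq_le_sq ?_ (by positivity)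
      rw [mul_pow, Real.sq_sqrt hR0, mul_comm]
      exact hcs
    refine (le_abs_self a).trans (h4.trans (mul_le_mul_of_nonneg_left ?_ hC0.le))
    rw [le_div_iff₀ (by positivity)]
    nlinarith [sq_nonneg (√(R i x) - Q), Real.sq_sqrt hR0]
  refine (integral_mono_of_nonneg (ae_of_all _ fun x => sum_nonneg fun pq _ => sq_nonneg _)
    ((integrable_finsetSum _ fun i _ => (iU i).add ((integrable_const _).add
      ((iR i).const_mul _))).div_const (n : ℝ)) (ae_of_all _ key)).trans ?_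
  simp only [Pi.add_apply]
  rw [integral_div, integral_finsetSum _ fun i _ => (iU i).fun_add
    ((integrable_const _).fun_add ((iR i).const_mul _))]
  simp only [fun i => integral_add (iU i) ((integrable_const (C * Q / 2)).fun_add
    ((iR i).const_mul (C / (2 * Q)))), fun i => integral_add (integrable_const (μ := μ) (C * Q / 2))
    ((iR i).const_mul (C / (2 * Q))), integral_const, integral_const_mul, probReal_univ, one_smul]
  rw [div_le_iff₀ hn', sum_add_distrib, sum_add_distrib, ← mul_sum]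
  have h1 : ∑ i, ∫ x, U i x ∂μ ≤ ∑ _i : Fin n, C * Sb := sum_le_sum fun i _ =>
    (le_abs_self _).trans (site_orth hβ hε hP i (vrow β r P i) (cr i) hC0
      (sum_vrow_sq β r P hr i) (vrow_invariant β r P i))
  have h2 : ∑ i, ∫ x, R i x ∂μ ≤ 8 / ε * C ^ 2 := vres_rows hε hP hn
  have h3 := mul_le_mul_of_nonneg_left h2 (show 0 ≤ C / (2 * Q) by positivity)
  have h4 : C / (2 * Q) * (8 / ε * C ^ 2) = C * Q / 2 * n := by
    have hs : Q ^ 2 = 8 / (ε * n) * C ^ 2 := by
      rw [hQ, mul_pow, Real.sq_sqrt (by positivity)]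
    field_simp at hs ⊢
    linarith
  simp only [sum_const, card_univ, Fintype.card_fin, nsmul_eq_mul] at h1 ⊢
  have h5 : C * Q * n = C ^ 2 * √(8 / (ε * n)) * n := by rw [hQ]; ring
  nlinarith

end Vale.Agent.P146.Chaos
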