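import Vale.Agent.P146.Chaos.RankOne

/-! # P146: observables of one site, bounds and continuity -/

namespace Vale.Agent.P146.Chaos

open Finset MeasureTheory ProbabilityTheory
open Vale.Agent.P150 Vale.Agent.P150.Slow

variable {n : ℕ}

/-- squared overlap of two disorders -/
noncomputable def ovl (β : ℝ) (g h : Ed n → ℝ) : ℝ := ip (w β g) (w β h)

/-- squared overlap seen from one site -/
noncomputable def asite (β : ℝ) (i : Fin n) (g h : Ed n → ℝ) : ℝ :=
  (∑ j, col β i g j * col β i h j) / n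

/-- bilinear pairing -/
noncomputable def bil {α : Type*} [Fintype α] (V : α → α → ℝ) (u v : α → ℝ) : ℝ :=
  ip u fun p => ip (V p) v

/-- row `i` of a disorder -/
def rown (i : Fin n) (g : Ed n → ℝ) (l : Fin n) : ℝ := g (row i l)

/-- partially refresh row `i` -/
noncomputable def rmix (i : Fin n) (s : ℝ) (g : Ed n → ℝ) (d : Fin n → ℝ) : Ed n → ℝ :=
  ins i g (√s • rown i g + √(1 - s) • d)

lemma ins_ins (i : Fin n) (g : Ed n → ℝ) (y y' : Fin n → ℝ) :
    ins i (ins i g y) y' = ins i g y' := ovr_ovr (row_injective i) _ _ _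

lemma rown_ins (i : Fin n) (g : Ed n → ℝ) (y : Fin n → ℝ) : rown i (ins i g y) = y :=
  funext fun l => ovr_apply (row_injective i) g y l

lemma rmix_ins (i : Fin n) (s : ℝ) (g : Ed n → ℝ) (y d : Fin n → ℝ) :
    rmix i s (ins i g y) d = ins i g (√s • y + √(1 - s) • d) := by
  rw [rmix, rown_ins, ins_ins]

lemma chi_ins (β : ℝ) (i : Fin n) (g o : Ed n → ℝ) (y : Fin n → ℝ) :
    chi β i g (ins i o y) = chi β i g o := by simp only [chi, ins_ins]

section Continuity

variable {α : Type*} [TopologicalSpace α] (β : ℝ) (i : Fin n)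

lemma cont_ins {f : α → Ed n → ℝ} {y : α → Fin n → ℝ} (hf : Continuous f) (hy : Continuous y) :
    Continuous fun a => ins i (f a) (y a) :=
  (continuous_ovr (row_injective i)).comp (hf.prodMk hy)

lemma cont_ip {ι : Type*} [Fintype ι] {f g : α → ι → ℝ} (hf : Continuous f) (hg : Continuous g) :
    Continuous fun a => ip (f a) (g a) :=
  continuous_finsetSum _ fun p _ =>
    ((continuous_apply p).comp hf).mul ((continuous_apply p).comp hg)

variable {f g : α → Ed n → ℝ}

lemma cont_avg (hf : Continuous f) (F : Cfg n → ℝ) : Continuous fun a => avg β (f a) F :=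
  (continuous_avg β F).comp hf

lemma cont_w (hf : Continuous f) : Continuous fun a => w β (f a) :=
  continuous_pi fun p => (nice_w β p).continuous.comp hf

lemma cont_wq (hf : Continuous f) : Continuous fun a => wq β i (f a) :=
  continuous_pi fun p => continuous_const.mul ((nice_w β p).continuous.comp hf)

lemma cont_col (hf : Continuous f) (j : Fin n) : Continuous fun a => col β i (f a) j :=
  cont_avg β hf _

lemma cont_uu (hf : Continuous f) : Continuous fun a => uu β i (f a) :=
  continuous_pi fun p => continuous_const.mul (((nice_w β p).continuous.comp hf).sub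
    (((cont_col β i hf p.1).mul (cont_col β i hf p.2)).div_const _))

lemma cont_chi (hf : Continuous f) (hg : Continuous g) :
    Continuous fun a => chi β i (f a) (g a) := by
  have h := cont_wq β i (cont_ins i hg (continuous_const (y := (0 : Fin n → ℝ))))
  refine (cont_ip h (cont_wq β i hf)).sub (continuous_finsetSum _ fun p _ => ?_)
  exact ((continuous_apply p).comp h).mul ((continuous_const.mul
    ((cont_col β i hf p.1).mul (cont_col β i hf p.2))).div_const _)

lemma cont_ovl (hf : Continuous f) (hg : Continuous g) : Continuous fun a => ovl β (f a) (g a) :=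
  cont_ip (cont_w β hf) (cont_w β hg)

lemma cont_asite (hf : Continuous f) (hg : Continuous g) :
    Continuous fun a => asite β i (f a) (g a) :=
  (continuous_finsetSum _ fun j _ => (cont_col β i hf j).mul (cont_col β i hg j)).div_const _

lemma cont_bil {ι : Type*} [Fintype ι] (V : ι → ι → ℝ) {u v : α → ι → ℝ} (hu : Continuous u)
    (hv : Continuous v) : Continuous fun a => bil V (u a) (v a) :=
  cont_ip hu (continuous_pi fun _ => cont_ip continuous_const hv)

lemma cont_rmix {s : α → ℝ} {d : α → Fin n → ℝ} (hs : Continuous s) (hf : Continuous f)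
    (hd : Continuous d) : Continuous fun a => rmix i (s a) (f a) (d a) := by
  refine cont_ins i hf (((Real.continuous_sqrt.comp hs).smul ?_).add
    ((Real.continuous_sqrt.comp (continuous_const.sub hs)).smul hd))
  exact continuous_pi fun l => (continuous_apply _).comp hf

end Continuity

/-! ### bounds -/

variable (β : ℝ) (i : Fin n) (g h : Ed n → ℝ)

lemma abs_ip_le_one {α : Type*} [Fintype α] {u v : α → ℝ} (hu : ip u u ≤ 1) (hv : ip v v ≤ 1) :
    |ip u v| ≤ 1 :=
  (abs_ip_le u v).trans (mul_le_one₀ (Real.sqrt_le_one.2 hu) (Real.sqrt_nonneg _)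
    (Real.sqrt_le_one.2 hv))

lemma abs_col_le (j : Fin n) : |col β i g j| ≤ 1 :=
  abs_avg_le β g fun x => by rw [abs_mul, abs_sp, abs_sp, one_mul]

lemma col_self : col β i g i = 1 := by simp [col, sp_sq, avg_const]

lemma abs_asite_le : |asite β i g h| ≤ 1 := by
  have hn : (0 : ℝ) < n := by exact_mod_cast i.pos
  rw [asite, abs_div, Nat.abs_cast, div_le_one hn]
  calc |∑ j, col β i g j * col β i h j| ≤ ∑ _j : Fin n, (1 : ℝ) :=
        (abs_sum_le_sum_abs _ _).trans (sum_le_sum fun j _ => by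
          rw [abs_mul]
          exact mul_le_one₀ (abs_col_le β i g j) (abs_nonneg _) (abs_col_le β i h j))
    _ = n := by simp

lemma abs_ovl_le : |ovl β g h| ≤ 1 := abs_ip_le_one (ip_w_self_le β g) (ip_w_self_le β h)

lemma sum_asite (hn : 0 < n) : (∑ k, asite β k g h) / n = ovl β g h := by
  have h1 : (n : ℝ) ≠ 0 := by positivity
  simp only [asite, ovl, ip, w, col, sum_div, Fintype.sum_prod_type]
  refine sum_congr rfl fun a _ => sum_congr rfl fun c _ => ?_
  field_simp

lemma ovl_nonneg : 0 ≤ ovl β g h := by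
  have e : ovl β g h = ∑ a, pw β g a * avg β h (fun x => ((∑ j, sp a j * sp x j) / n) ^ 2) := by
    have hq : ∀ a, avg β h (fun x => ((∑ j, sp a j * sp x j) / n) ^ 2) =
        ∑ p : Ed n, sp a p.1 * sp a p.2 / n * w β h p := by
      intro a
      have e1 : (fun x : Cfg n => ((∑ j, sp a j * sp x j) / n) ^ 2) =
          fun x => ∑ p : Ed n, sp a p.1 * sp a p.2 / n * (n : ℝ)⁻¹ * (sp x p.1 * sp x p.2) := by
        funext x
        rw [div_pow, sq, sum_mul_sum, Fintype.sum_prod_type, sum_div]
        refine sum_congr rfl fun j _ => ?_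
        rw [sum_div]
        exact sum_congr rfl fun k _ => by ring
      rw [e1, avg_sum]
      refine sum_congr rfl fun p _ => ?_
      rw [avg_const_mul, w]; ring
    simp only [hq, mul_sum]
    rw [sum_comm, ovl, ip]
    refine sum_congr rfl fun p _ => ?_
    rw [w, avg_eq_sum, sum_div, sum_mul]
    exact sum_congr rfl fun a _ => by ring
  rw [e]
  exact sum_nonneg fun a _ => mul_nonneg (pw_nonneg β g a) (avg_nonneg _ _ fun x => sq_nonneg _)

lemma ip_wq_nonneg : 0 ≤ ip (wq β i h) (wq β i g) := by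
  rw [wq_eq_mat β h i, ip_mat β g i _ _ (tv_self i)]
  exact sum_nonneg fun a _ => mul_nonneg (pw_nonneg β h a)
    (avg_nonneg _ _ fun x => mul_self_nonneg _)

lemma cq_bounds : 0 ≤ cq β i (wq β i h) g ∧ cq β i (wq β i h) g ≤ ip (wq β i h) (wq β i g) := by
  rw [wq_eq_mat β h i, ip_mat β g i _ _ (tv_self i), cq_mat β g i _ _ (tv_self i)]
  have e : ∀ a : Cfg n, avg β g (fun x => avg β g fun x' =>
      sp x i * sp x' i * (ov (tv i a) x * ov (tv i a) x')) =
      avg β g (fun x => sp x i * ov (tv i a) x) ^ 2 := by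
    intro a
    have h1 : ∀ x x', sp x i * sp x' i * (ov (tv i a) x * ov (tv i a) x') =
        (sp x i * ov (tv i a) x) * (sp x' i * ov (tv i a) x') := fun x x' => by ring
    simp only [h1, avg_const_mul]
    simp only [mul_comm _ (avg β g fun x' => sp x' i * ov (tv i a) x'), avg_const_mul, sq]
  simp only [e]
  refine ⟨sum_nonneg fun a _ => mul_nonneg (pw_nonneg β h a) (sq_nonneg _),
    sum_le_sum fun a _ => mul_le_mul_of_nonneg_left ?_ (pw_nonneg β h a)⟩
  have h2 := avg_cauchy β g (fun x => sp x i) (fun x => ov (tv i a) x)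
  simp only [sq, sp_sq, avg_const, Real.sqrt_one, one_mul] at h2
  rw [← sq_abs]
  calc |avg β g fun x => sp x i * ov (tv i a) x| ^ 2
      ≤ √(avg β g fun x => ov (tv i a) x * ov (tv i a) x) ^ 2 :=
        pow_le_pow_left₀ (abs_nonneg _) h2 2
    _ = _ := Real.sq_sqrt (avg_nonneg _ _ fun x => mul_self_nonneg _)

lemma chi_nonneg : 0 ≤ chi β i g h := sub_nonneg.2 (cq_bounds β i g _).2

lemma chi_le : chi β i g h ≤ ip (wq β i (ins i h 0)) (wq β i g) :=
  sub_le_self _ (cq_bounds β i g _).1

lemma abs_chi_le : |chi β i g h| ≤ 1 := by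
  rw [abs_of_nonneg (chi_nonneg β i g h)]
  exact (chi_le β i g h).trans ((le_abs_self _).trans
    (abs_ip_le_one (ip_wq_self_le β _ i) (ip_wq_self_le β g i)))

lemma ip_uu_self_le : ip (uu β i g) (uu β i g) ≤ 4 := by
  have hn : (0 : ℝ) < n := by exact_mod_cast i.pos
  have hb : ∀ p, |uu β i g p| ≤ 2 / n := by
    intro p
    rw [uu, abs_mul, abs_of_nonneg (msk_nonneg i p)]
    refine (mul_le_of_le_one_left (abs_nonneg _) (msk_le_one i p)).trans ?_
    refine (abs_sub _ _).trans ?_
    rw [abs_div, Nat.abs_cast, show (2 : ℝ) / n = (n : ℝ)⁻¹ + 1 / n by ring]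
    refine add_le_add (abs_w_le β g p) (div_le_div_of_nonneg_right ?_ hn.le)
    rw [abs_mul]
    exact mul_le_one₀ (abs_col_le β i g _) (abs_nonneg _) (abs_col_le β i g _)
  refine (sum_le_sum (g := fun _ : Ed n => (2 / (n : ℝ)) * (2 / n)) fun p _ => ?_).trans ?_
  · rw [← abs_mul_abs_self (uu β i g p)]
    exact mul_self_le_mul_self (abs_nonneg _) (hb p)
  · simp only [sum_const, card_univ, Fintype.card_prod, Fintype.card_fin, nsmul_eq_mul]
    push_cast
    field_simp
    norm_num

lemma abs_ip_uu_le : |ip (uu β i g) (uu β i h)| ≤ 4 := by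
  refine (abs_ip_le _ _).trans ?_
  have e : √(4 : ℝ) = 2 := by rw [show (4 : ℝ) = 2 ^ 2 by norm_num, Real.sqrt_sq two_pos.le]
  have h1 := Real.sqrt_le_sqrt (ip_uu_self_le β i g)
  have h2 := Real.sqrt_le_sqrt (ip_uu_self_le β i h)
  rw [e] at h1 h2
  have := mul_le_mul h1 h2 (Real.sqrt_nonneg _) two_pos.le
  linarith

lemma ip_comm {α : Type*} [Fintype α] (u v : α → ℝ) : ip u v = ip v u :=
  sum_congr rfl fun _ _ => mul_comm _ _

lemma abs_ip_mask_le {Z : Ed n → ℝ} (hZ : ip Z Z ≤ 1) :
    |ip Z (w β g) - ip Z (wq β i g)| ≤ √(2 / n) := by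
  have hn : (0 : ℝ) < n := by exact_mod_cast i.pos
  have e : ip Z (w β g) - ip Z (wq β i g) = ip Z (fun p => (1 - msk i p) * w β g p) := by
    simp only [ip, wq, ← sum_sub_distrib]
    exact sum_congr rfl fun p _ => by ring
  rw [e]
  refine (abs_ip_le _ _).trans ((mul_le_of_le_one_left (Real.sqrt_nonneg _)
    (Real.sqrt_le_one.2 hZ)).trans (Real.sqrt_le_sqrt ?_))
  calc ∑ p : Ed n, (1 - msk i p) * w β g p * ((1 - msk i p) * w β g p)
      ≤ ∑ p : Ed n, ((if p.1 = i then (n : ℝ)⁻¹ ^ 2 else 0) +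
          if p.2 = i then (n : ℝ)⁻¹ ^ 2 else 0) := sum_le_sum fun p _ => by
        have hw := mul_self_le_mul_self (abs_nonneg _) (abs_w_le β g p)
        rw [abs_mul_abs_self, ← sq ((n : ℝ)⁻¹), inv_pow] at hw
        have hp : 0 ≤ ((n : ℝ)⁻¹) ^ 2 := sq_nonneg _
        unfold msk
        by_cases h1 : p.1 = i <;> by_cases h2 : p.2 = i <;> simp [h1, h2] <;> nlinarith
    _ = _ := by
        rw [sum_add_distrib, Fintype.sum_prod_type, Fintype.sum_prod_type_right]
        simp
        field_simp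
        ring

variable {α : Type*} [Fintype α] {V : α → α → ℝ}

lemma ip_mulVec_le (hV : ∑ p, ip (V p) (V p) ≤ 1) {v : α → ℝ} (hv : ip v v ≤ 1) :
    ip (fun p => ip (V p) v) (fun p => ip (V p) v) ≤ 1 := by
  refine le_trans (sum_le_sum fun p _ => ?_) hV
  have h := abs_ip_le (V p) v
  have h1 : |ip (V p) v| ≤ √(ip (V p) (V p)) :=
    h.trans (mul_le_of_le_one_right (Real.sqrt_nonneg _) (Real.sqrt_le_one.2 hv))
  calc ip (V p) v * ip (V p) v = |ip (V p) v| * |ip (V p) v| := (abs_mul_abs_self _).symm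
    _ ≤ √(ip (V p) (V p)) * √(ip (V p) (V p)) := mul_self_le_mul_self (abs_nonneg _) h1
    _ = _ := Real.mul_self_sqrt (sum_nonneg fun q _ => mul_self_nonneg _)

lemma sum_swap_le (hV : ∑ p, ip (V p) (V p) ≤ 1) :
    ∑ p, ip (fun q => V q p) (fun q => V q p) ≤ 1 := by
  refine le_trans (le_of_eq ?_) hV
  simp only [ip]
  exact sum_comm

lemma bil_swap (u v : α → ℝ) : bil V u v = bil (fun p q => V q p) v u := by
  simp only [bil, ip, mul_sum]
  rw [sum_comm]
  exact sum_congr rfl fun p _ => sum_congr rfl fun q _ => by ring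

lemma abs_bil_le (hV : ∑ p, ip (V p) (V p) ≤ 1) {u v : α → ℝ} (hu : ip u u ≤ 1)
    (hv : ip v v ≤ 1) : |bil V u v| ≤ 1 := abs_ip_le_one hu (ip_mulVec_le hV hv)

end Vale.Agent.P146.Chaos
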