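import Vale.Agent.P146.Chaos.Gibbs

/-! # P146: row sensitivity of smoothed functions of linear systems -/

namespace Vale.Agent.P146.Chaos

open Finset MeasureTheory ProbabilityTheory
open Vale.Agent.P150 Vale.Agent.P150.Slow

variable {n : ℕ}

/-- positions of row `i` in the bases -/
def rows3 (i : Fin n) (p : Fin 3 × Fin n) : Fin 3 × Ed n := (p.1, row i p.2)

lemma rows3_injective (i : Fin n) : Function.Injective (rows3 i) := fun p q h => by
  simp only [rows3, Prod.mk.injEq] at h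
  exact Prod.ext h.1 (row_injective i h.2)

variable {M : Type*} [Fintype M]

/-- systems over three sources -/
noncomputable def sysv (k : M → Fin 3 → ℝ) (rr : M → ℝ) (x : Fin 3 × Ed n → ℝ)
    (z : M × Ed n → ℝ) : M × Ed n → ℝ :=
  fun p => √(rr p.1) * comb k x p.1 p.2 + √(1 - rr p.1) * z p

/-- a function of the systems averaged over the fresh parts -/
noncomputable def smoothed (k : M → Fin 3 → ℝ) (rr : M → ℝ) (F : (M × Ed n → ℝ) → ℝ)
    (x : Fin 3 × Ed n → ℝ) : ℝ := ∫ z, F (sysv k rr x z) ∂stdPi (M × Ed n)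

/-- the part coming from the sources -/
noncomputable def srcL (k : M → Fin 3 → ℝ) (rr : M → ℝ) :
    (Fin 3 × Ed n → ℝ) →L[ℝ] (M × Ed n → ℝ) :=
  ContinuousLinearMap.pi fun p => √(rr p.1) •
    ∑ j, k p.1 j • ContinuousLinearMap.proj (j, p.2)

/-- the fresh part -/
noncomputable def freshL (rr : M → ℝ) : (M × Ed n → ℝ) →L[ℝ] (M × Ed n → ℝ) :=
  ContinuousLinearMap.pi fun p => √(1 - rr p.1) • ContinuousLinearMap.proj p

omit [Fintype M] in
lemma sysv_eq (k : M → Fin 3 → ℝ) (rr : M → ℝ) (x : Fin 3 × Ed n → ℝ) (z : M × Ed n → ℝ) :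
    sysv k rr x z = srcL k rr x + freshL rr z := by
  funext p
  simp [sysv, srcL, freshL, comb]

lemma continuous_sysv (k : M → Fin 3 → ℝ) (rr : M → ℝ) :
    Continuous fun p : (Fin 3 × Ed n → ℝ) × (M × Ed n → ℝ) => sysv k rr p.1 p.2 := by
  simp only [sysv_eq]
  fun_prop

omit [Fintype M] in
lemma continuous_sysv_left (k : M → Fin 3 → ℝ) (rr : M → ℝ) (x : Fin 3 × Ed n → ℝ) :
    Continuous fun z : M × Ed n → ℝ => sysv k rr x z := by
  simp only [sysv_eq]
  fun_prop

omit [Fintype M] in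
lemma continuous_sysv_right (k : M → Fin 3 → ℝ) (rr : M → ℝ) (z : M × Ed n → ℝ) :
    Continuous fun x : Fin 3 × Ed n → ℝ => sysv k rr x z := by
  simp only [sysv_eq]
  fun_prop

/-- the derivative in the sources -/
noncomputable def dsrc (k : M → Fin 3 → ℝ) (rr : M → ℝ) (F : (M × Ed n → ℝ) → ℝ)
    (x : Fin 3 × Ed n → ℝ) (z : M × Ed n → ℝ) : (Fin 3 × Ed n → ℝ) →L[ℝ] ℝ :=
  (fderiv ℝ F (sysv k rr x z)).comp (srcL k rr)

lemma continuous_dsrc_left (k : M → Fin 3 → ℝ) (rr : M → ℝ) {F : (M × Ed n → ℝ) → ℝ}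
    (hF : Nice F) (x : Fin 3 × Ed n → ℝ) : Continuous fun z => dsrc k rr F x z :=
  (hF.continuous_fderiv.comp (continuous_sysv_left k rr x)).clm_comp continuous_const

lemma continuous_dsrc_right (k : M → Fin 3 → ℝ) (rr : M → ℝ) {F : (M × Ed n → ℝ) → ℝ}
    (hF : Nice F) (z : M × Ed n → ℝ) : Continuous fun x => dsrc k rr F x z :=
  (hF.continuous_fderiv.comp (continuous_sysv_right k rr z)).clm_comp continuous_const

lemma norm_dsrc_le (k : M → Fin 3 → ℝ) (rr : M → ℝ) {F : (M × Ed n → ℝ) → ℝ} {B : ℝ}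
    (hB : ∀ y, ‖fderiv ℝ F y‖ ≤ B) (x : Fin 3 × Ed n → ℝ) (z : M × Ed n → ℝ) :
    ‖dsrc k rr F x z‖ ≤ B * ‖srcL (n := n) k rr‖ :=
  (ContinuousLinearMap.opNorm_comp_le _ _).trans
    (mul_le_mul_of_nonneg_right (hB _) (norm_nonneg _))

/-- Derivative of a smoothed function. -/
lemma hasFDerivAt_smoothed (k : M → Fin 3 → ℝ) (rr : M → ℝ) {F : (M × Ed n → ℝ) → ℝ}
    (hF : Nice F) (x : Fin 3 × Ed n → ℝ) :
    HasFDerivAt (smoothed k rr F) (∫ z, dsrc k rr F x z ∂stdPi (M × Ed n)) x := by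
  obtain ⟨B, hB⟩ := hF.bdd
  have hm : ∀ y, AEStronglyMeasurable (fun z => F (sysv k rr y z)) (stdPi (M × Ed n)) := fun y =>
    (hF.continuous.comp (continuous_sysv_left k rr y)).aestronglyMeasurable
  have hi : Integrable (fun z => F (sysv k rr x z)) (stdPi (M × Ed n)) :=
    integrable_bdd (hF.continuous.comp (continuous_sysv_left k rr x)) fun z => (hB _).1
  have hd : ∀ z y, HasFDerivAt (fun y => F (sysv k rr y z)) (dsrc k rr F y z) y := fun z y => by
    have e : (fun y => F (sysv k rr y z)) = fun y => F (srcL k rr y + freshL rr z) :=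
      funext fun y => by rw [sysv_eq]
    rw [e, dsrc, sysv_eq]
    exact (hF.differentiable _).hasFDerivAt.comp y ((srcL k rr).hasFDerivAt.add_const _)
  exact hasFDerivAt_integral_of_dominated_of_fderiv_le (F := fun x z => F (sysv k rr x z))
    (F' := dsrc k rr F) (bound := fun _ => B * ‖srcL (n := n) k rr‖) Filter.univ_mem
    (Filter.Eventually.of_forall hm) hi
    (continuous_dsrc_left k rr hF x).aestronglyMeasurable
    (ae_of_all _ fun z y _ => norm_dsrc_le k rr (fun y => (hB y).2) y z)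
    (integrable_const _) (ae_of_all _ fun z y _ => hd z y)

/-- Smoothed functions are nice. -/
lemma nice_smoothed (k : M → Fin 3 → ℝ) (rr : M → ℝ) {F : (M × Ed n → ℝ) → ℝ} (hF : Nice F) :
    Nice (smoothed k rr F) := by
  obtain ⟨B, hB⟩ := hF.bdd
  have hn := fun x => norm_dsrc_le k rr (fun y => (hB y).2) x
  refine ⟨contDiff_one_iff_hasFDerivAt.2 ⟨_, ?_, hasFDerivAt_smoothed k rr hF⟩,
    max B (B * ‖srcL (n := n) k rr‖), fun x => ⟨?_, ?_⟩⟩
  · exact continuous_of_dominated (bound := fun _ => B * ‖srcL (n := n) k rr‖)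
      (fun x => (continuous_dsrc_left k rr hF x).aestronglyMeasurable)
      (fun x => ae_of_all _ (hn x)) (integrable_const _)
      (ae_of_all _ (continuous_dsrc_right k rr hF))
  · refine le_trans ?_ (le_max_left _ _)
    have h := norm_integral_le_of_norm_le_const (μ := stdPi (M × Ed n))
      (f := fun z => F (sysv k rr x z)) (C := B) (ae_of_all _ fun z => (hB _).1)
    simpa [smoothed] using h
  · refine le_trans ?_ (le_max_right _ _)
    rw [(hasFDerivAt_smoothed k rr hF x).fderiv]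
    have h := norm_integral_le_of_norm_le_const (μ := stdPi (M × Ed n)) (ae_of_all _ (hn x))
    simpa using h

variable [DecidableEq M]

lemma srcL_single (k : M → Fin 3 → ℝ) (rr : M → ℝ) (j : Fin 3) (e : Ed n) :
    srcL k rr (Pi.single (j, e) 1) =
      ∑ S, (√(rr S) * k S j) • Pi.single (M := fun _ : M × Ed n => ℝ) (S, e) 1 := by
  funext p
  simp [srcL, Pi.single_apply, Prod.ext_iff, ite_and, Finset.sum_apply]

omit [Fintype M] in
lemma freshL_single (rr : M → ℝ) (p : M × Ed n) :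
    freshL rr (Pi.single p 1) = √(1 - rr p.1) • Pi.single p 1 := by
  funext q
  by_cases h : q = p
  · subst h; simp [freshL]
  · simp [freshL, Pi.single_eq_of_ne h]

lemma pd_smoothed (k : M → Fin 3 → ℝ) (rr : M → ℝ) {F : (M × Ed n → ℝ) → ℝ} (hF : Nice F)
    (x : Fin 3 × Ed n → ℝ) (j : Fin 3) (e : Ed n) :
    pd (smoothed k rr F) x (j, e) =
      ∑ S, √(rr S) * k S j * ∫ z, pd F (sysv k rr x z) (S, e) ∂stdPi (M × Ed n) := by
  obtain ⟨B, hB⟩ := hF.bdd
  have hi : Integrable (fun z => dsrc k rr F x z) (stdPi (M × Ed n)) :=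
    (integrable_const (B * ‖srcL (n := n) k rr‖)).mono'
      (continuous_dsrc_left k rr hF x).aestronglyMeasurable
      (ae_of_all _ fun z => norm_dsrc_le k rr (fun y => (hB y).2) x z)
  have hj : ∀ S, Integrable (fun z => √(rr S) * k S j * pd F (sysv k rr x z) (S, e))
      (stdPi (M × Ed n)) := fun S => (integrable_bdd
    ((continuous_pd hF _).comp (continuous_sysv_left k rr x))
    fun z => abs_pd_le (fun x => (hB x).2) _ _).const_mul _
  rw [pd, (hasFDerivAt_smoothed k rr hF x).fderiv, ContinuousLinearMap.integral_apply hi]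
  simp only [dsrc, ContinuousLinearMap.comp_apply, srcL_single, map_sum, map_smul, smul_eq_mul]
  show ∫ z, ∑ S, √(rr S) * k S j * pd F (sysv k rr x z) (S, e) ∂stdPi (M × Ed n) = _
  rw [integral_finsetSum _ fun S _ => hj S]
  exact sum_congr rfl fun S _ => integral_const_mul _ _

/-- The gradient of a smoothed function, by Stein and Bessel. -/
lemma grad_smoothed_le (k : M → Fin 3 → ℝ) (rr : M → ℝ) {ε : ℝ} (hε : 0 < ε)
    (hk : ∀ S, ∑ j, k S j ^ 2 = 1) (h0 : ∀ S, 0 ≤ rr S) (h1 : ∀ S, rr S ≤ 1 - ε)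
    {F : (M × Ed n → ℝ) → ℝ} (hF : Nice F) (x : Fin 3 × Ed n → ℝ) :
    ∑ q, pd (smoothed k rr F) x q ^ 2 ≤
      (Fintype.card M : ℝ) / ε * smoothed k rr (fun u => F u ^ 2) x := by
  set I : M × Ed n → ℝ := fun p => ∫ z, pd F (sysv k rr x z) p ∂stdPi (M × Ed n) with hI
  have hsb : ∑ p : M × Ed n, (1 - rr p.1) * I p ^ 2 ≤ smoothed k rr (fun u => F u ^ 2) x := by
    have hG := hF.comp_affine (freshL rr) (srcL k rr x)
    have hs : ∀ z, sysv k rr x z = freshL rr z + srcL k rr x := fun z => by rw [sysv_eq, add_comm]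
    have hpd : ∀ z p, pd (fun z => F (freshL rr z + srcL k rr x)) z p =
        √(1 - rr p.1) * pd F (sysv k rr x z) p := by
      intro z p
      have hd : HasFDerivAt (fun z => F (freshL rr z + srcL k rr x))
          ((fderiv ℝ F (freshL rr z + srcL k rr x)).comp (freshL rr)) z :=
        (hF.differentiable _).hasFDerivAt.comp z ((freshL rr).hasFDerivAt.add_const _)
      rw [pd, hd.fderiv, ContinuousLinearMap.comp_apply, freshL_single, map_smul, smul_eq_mul,
        hs, pd]
    have h := stein_bessel hG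
    simp only [hpd, integral_const_mul, mul_pow] at h
    simp only [← hs] at h
    refine le_trans (le_of_eq (sum_congr rfl fun p _ => ?_)) h
    rw [Real.sq_sqrt (by linarith [h1 p.1])]
  calc ∑ q, pd (smoothed k rr F) x q ^ 2
      = ∑ j, ∑ e, (∑ S, √(rr S) * k S j * I (S, e)) ^ 2 := by
        rw [Fintype.sum_prod_type]
        simp only [pd_smoothed k rr hF, hI]
    _ ≤ ∑ j, ∑ e, (Fintype.card M : ℝ) * ∑ S, (√(rr S) * k S j * I (S, e)) ^ 2 :=
        sum_le_sum fun j _ => sum_le_sum fun e _ => sq_sum_le_card_mul_sum_sq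
    _ = (Fintype.card M : ℝ) * ∑ S, ∑ e, (∑ j, k S j ^ 2) * (rr S * I (S, e) ^ 2) := by
        simp only [mul_pow, Real.sq_sqrt (h0 _), ← mul_sum, sum_mul]
        congr 1
        rw [sum_comm (γ := M), sum_comm]
        refine sum_congr rfl fun S _ => ?_
        rw [sum_comm]
        exact sum_congr rfl fun e _ => sum_congr rfl fun j _ => by ring
    _ ≤ (Fintype.card M : ℝ) / ε * ∑ p : M × Ed n, (1 - rr p.1) * I p ^ 2 := by
        rw [div_mul_eq_mul_div, mul_div_assoc, Fintype.sum_prod_type, Finset.sum_div]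
        refine mul_le_mul_of_nonneg_left (sum_le_sum fun S _ => ?_) (Nat.cast_nonneg _)
        rw [Finset.sum_div]
        refine sum_le_sum fun e _ => ?_
        rw [hk S, one_mul, le_div_iff₀ hε]
        nlinarith [mul_nonneg (sq_nonneg (I (S, e)))
          (show 0 ≤ 1 - rr S - rr S * ε by nlinarith [h0 S, h1 S])]
    _ ≤ _ := mul_le_mul_of_nonneg_left hsb (by positivity)

omit [Fintype M] [DecidableEq M] in
/-- Poincaré on refreshed coordinates. -/
lemma refresh_var_le {ι κ : Type*} [Fintype ι] [Fintype κ] [DecidableEq ι] [DecidableEq κ]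
    {V : (ι → ℝ) → ℝ} (hV : Nice V) {j : κ → ι} (hj : Function.Injective j) :
    ∫ x, (V x - ∫ y, V (ovr j x y) ∂stdPi κ) ^ 2 ∂stdPi ι ≤
      ∑ k, ∫ x, pd V x (j k) ^ 2 ∂stdPi ι := by
  obtain ⟨B, hB⟩ := hV.bdd
  set m : (ι → ℝ) → ℝ := fun x => ∫ y, V (ovr j x y) ∂stdPi κ with hm
  have hmc : Continuous m := continuous_of_dominated (bound := fun _ => B)
    (fun x => (hV.continuous.comp ((continuous_ovr hj).comp
      (continuous_const.prodMk continuous_id))).aestronglyMeasurable)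
    (fun x => ae_of_all _ fun y => (hB _).1) (integrable_const _)
    (ae_of_all _ fun y => hV.continuous.comp ((continuous_ovr hj).comp
      (continuous_id.prodMk continuous_const)))
  have hmb : ∀ x, |m x| ≤ B := fun x => by
    have h := norm_integral_le_of_norm_le_const (μ := stdPi κ)
      (f := fun y => V (ovr j x y)) (C := B) (ae_of_all _ fun z => (hB _).1)
    simpa using h
  have hq : ∀ x, |(V x - m x) ^ 2| ≤ (2 * B) ^ 2 := fun x => by
    rw [abs_pow]
    exact pow_le_pow_left₀ (abs_nonneg _)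
      ((abs_sub _ _).trans (by linarith [(hB x).1, hmb x])) 2
  have hp : ∀ k x, |pd V x (j k) ^ 2| ≤ B ^ 2 := fun k x => by
    rw [abs_pow]
    exact pow_le_pow_left₀ (abs_nonneg _) (abs_pd_le (fun x => (hB x).2) x _) 2
  have hpo : ∀ k, Integrable (fun p : (ι → ℝ) × (κ → ℝ) => pd V (ovr j p.1 p.2) (j k) ^ 2)
      ((stdPi ι).prod (stdPi κ)) := fun k =>
    integrable_bdd (((continuous_pd hV _).pow 2).comp (continuous_ovr hj)) fun p => hp k _
  have hqo : Integrable (fun p : (ι → ℝ) × (κ → ℝ) =>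
      (V (ovr j p.1 p.2) - m (ovr j p.1 p.2)) ^ 2) ((stdPi ι).prod (stdPi κ)) :=
    integrable_bdd (((hV.continuous.sub hmc).pow 2).comp (continuous_ovr hj)) fun p => hq _
  rw [← integral_ovr hj (F := fun x => (V x - m x) ^ 2) ((hV.continuous.sub hmc).pow 2),
    sum_congr rfl fun k _ =>
      (integral_ovr hj (F := fun x => pd V x (j k) ^ 2) ((continuous_pd hV _).pow 2)).symm,
    ← integral_finsetSum _ fun k _ => hpo k, integral_prod _ hqo,
    integral_prod _ (integrable_finsetSum _ fun k _ => hpo k)]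
  refine integral_mono hqo.integral_prod_left
    (integrable_finsetSum _ fun k _ => hpo k).integral_prod_left fun g => ?_
  let L : (κ → ℝ) →L[ℝ] (ι → ℝ) := (ovrL hj).comp (ContinuousLinearMap.inr ℝ _ _)
  have hL : ∀ y, ovr j g y = L y + ovr j g 0 := fun y => by
    show ovr j g y = ovr j 0 y + ovr j g 0
    rw [← ovr_add hj, zero_add, add_zero]
  have hfun : (fun y => V (ovr j g y)) = fun y => V (L y + ovr j g 0) :=
    funext fun y => by rw [hL y]
  have hG : Nice fun y => V (ovr j g y) := hfun ▸ hV.comp_affine L (ovr j g 0)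
  have hpd : ∀ y k, pd (fun y => V (ovr j g y)) y k = pd V (ovr j g y) (j k) := by
    intro y k
    have hd : HasFDerivAt (fun y => V (ovr j g y)) ((fderiv ℝ V (ovr j g y)).comp L) y := by
      rw [hfun, hL y]
      exact (hV.differentiable _).hasFDerivAt.comp y (L.hasFDerivAt.add_const _)
    rw [pd, hd.fderiv, ContinuousLinearMap.comp_apply, pd]
    congr 1
    show ovr j 0 (Pi.single k 1) = _
    funext e
    by_cases h : ∃ k', j k' = e
    · obtain ⟨k', rfl⟩ := h
      simp [ovr_apply hj, Pi.single_apply, hj.eq_iff]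
    · push Not at h
      rw [ovr_of_not _ _ h, Pi.single_apply, if_neg fun hh => h k hh.symm]
      rfl
  have i1 : Integrable (fun y => V (ovr j g y) ^ 2) (stdPi κ) :=
    integrable_bdd (hG.continuous.pow 2) (B := B ^ 2) fun y => by
      rw [abs_pow]; exact pow_le_pow_left₀ (abs_nonneg _) (hB _).1 2
  have i2 : Integrable (fun y => V (ovr j g y)) (stdPi κ) :=
    integrable_bdd hG.continuous fun y => (hB _).1
  have hg : ∀ y, m (ovr j g y) = m g := fun y => by simp only [hm, ovr_ovr hj]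
  have he : ∫ y, (V (ovr j g y) - m (ovr j g y)) ^ 2 ∂stdPi κ =
      ∫ y, V (ovr j g y) ^ 2 ∂stdPi κ - (∫ y, V (ovr j g y) ∂stdPi κ) ^ 2 := by
    simp only [hg, sub_sq]
    rw [integral_add (i1.sub' ((i2.const_mul 2).mul_const _)) (integrable_const _),
      integral_sub i1 ((i2.const_mul 2).mul_const _), integral_mul_const, integral_const_mul,
      integral_const, probReal_univ, one_smul]
    simp only [hm]
    ring
  show ∫ y, (V (ovr j g y) - m (ovr j g y)) ^ 2 ∂stdPi κ ≤ _
  rw [he]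
  refine (poincare hG).trans (le_of_eq ?_)
  simp only [hpd]
  exact (integral_finsetSum _ fun k _ => integrable_bdd
    (((continuous_pd hV _).pow 2).comp
      ((continuous_ovr hj).comp (continuous_const.prodMk continuous_id)))
    fun y => hp k _).symm

omit [Fintype M] [DecidableEq M] in
/-- Every edge lies in at most two rows. -/
lemma sum_rows_le {f : Ed n → ℝ} (hf : ∀ e, 0 ≤ f e) :
    ∑ i, ∑ l, f (row i l) ≤ 2 * ∑ e, f e := by
  have h : ∀ i l, f (row i l) ≤ f (i, l) + f (l, i) := fun i l => by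
    simp only [row, mk']
    split_ifs
    · exact le_add_of_nonneg_right (hf _)
    · exact le_add_of_nonneg_left (hf _)
  refine (sum_le_sum fun i _ => sum_le_sum fun l _ => h i l).trans (le_of_eq ?_)
  simp only [sum_add_distrib, Fintype.sum_prod_type]
  rw [sum_comm (f := fun i l => f (l, i))]
  ring

omit [Fintype M] [DecidableEq M] in
/-- Refreshing rows costs at most twice the gradient. -/
lemma rows_var_le {V : (Fin 3 × Ed n → ℝ) → ℝ} (hV : Nice V) :
    ∑ i : Fin n, ∫ x, (V x - ∫ y, V (ovr (rows3 i) x y) ∂stdPi (Fin 3 × Fin n)) ^ 2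
        ∂stdPi (Fin 3 × Ed n)
      ≤ 2 * ∫ x, ∑ q, pd V x q ^ 2 ∂stdPi (Fin 3 × Ed n) := by
  obtain ⟨B, hB⟩ := hV.bdd
  have hi : ∀ q, Integrable (fun x => pd V x q ^ 2) (stdPi (Fin 3 × Ed n)) :=
    fun q => integrable_bdd ((continuous_pd hV q).pow 2) (B := B ^ 2) fun x => by
      rw [abs_pow]; exact pow_le_pow_left₀ (abs_nonneg _) (abs_pd_le (fun x => (hB x).2) x q) 2
  set P : Fin 3 × Ed n → ℝ := fun q => ∫ x, pd V x q ^ 2 ∂stdPi (Fin 3 × Ed n) with hP
  have h0 : ∀ q, 0 ≤ P q := fun q => integral_nonneg fun x => sq_nonneg _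
  have h1 : ∀ i : Fin n, ∫ x, (V x - ∫ y, V (ovr (rows3 i) x y) ∂stdPi (Fin 3 × Fin n)) ^ 2
      ∂stdPi (Fin 3 × Ed n) ≤ ∑ p : Fin 3 × Fin n, P (rows3 i p) :=
    fun i => refresh_var_le hV (rows3_injective i)
  have h2 : ∫ x, ∑ q, pd V x q ^ 2 ∂stdPi (Fin 3 × Ed n) = ∑ c : Fin 3, ∑ e, P (c, e) := by
    rw [integral_finsetSum _ fun q _ => hi q]
    exact Fintype.sum_prod_type _
  rw [h2, mul_sum]
  refine (sum_le_sum fun i _ => h1 i).trans ?_
  simp only [Fintype.sum_prod_type (f := fun p : Fin 3 × Fin n => P (rows3 _ p))]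
  rw [sum_comm]
  exact sum_le_sum fun c _ => sum_rows_le fun e => h0 (c, e)

omit [DecidableEq M] in
/-- **Row sensitivity of smoothed functions.** -/
theorem smooth_rows (k : M → Fin 3 → ℝ) (rr : M → ℝ) {ε : ℝ} (hε : 0 < ε)
    (hk : ∀ S, ∑ j, k S j ^ 2 = 1) (h0 : ∀ S, 0 ≤ rr S) (h1 : ∀ S, rr S ≤ 1 - ε)
    {F : (M × Ed n → ℝ) → ℝ} (hF : Nice F) :
    Nice (smoothed k rr F) ∧
    ∑ i : Fin n, ∫ x, (smoothed k rr F x -
        ∫ y, smoothed k rr F (ovr (rows3 i) x y) ∂stdPi (Fin 3 × Fin n)) ^ 2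
          ∂stdPi (Fin 3 × Ed n)
      ≤ 2 * (Fintype.card M : ℝ) / ε *
        ∫ x, ∫ z, F (sysv k rr x z) ^ 2 ∂stdPi (M × Ed n) ∂stdPi (Fin 3 × Ed n) := by
  classical
  have hV := nice_smoothed (n := n) k rr hF
  refine ⟨hV, (rows_var_le hV).trans ?_⟩
  have hS : Nice (smoothed k rr fun u => F u ^ 2) :=
    nice_smoothed k rr (by simpa only [sq] using hF.mul hF)
  obtain ⟨B, hB⟩ := hV.bdd
  obtain ⟨C, hC⟩ := hS.bdd
  have hi : Integrable (fun x => ∑ q, pd (smoothed k rr F) x q ^ 2) (stdPi (Fin 3 × Ed n)) :=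
    integrable_finsetSum _ fun q _ => integrable_bdd ((continuous_pd hV q).pow 2) (B := B ^ 2)
      fun x => by
        rw [abs_pow]; exact pow_le_pow_left₀ (abs_nonneg _) (abs_pd_le (fun x => (hB x).2) x q) 2
  have h := integral_mono hi ((integrable_bdd hS.continuous fun x => (hC x).1).const_mul _)
    fun x => grad_smoothed_le k rr hε hk h0 h1 hF x
  rw [integral_const_mul] at h
  refine (mul_le_mul_of_nonneg_left h zero_le_two).trans (le_of_eq ?_)
  simp only [smoothed]
  ring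

end Vale.Agent.P146.Chaos
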