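import Vale.Agent.P146.Chaos.Laws
import Vale.Agent.P146.Chaos.Smooth

/-! # P146: the residual of one site, tested against functions of the other rows -/

namespace Vale.Agent.P146.Chaos

open Finset MeasureTheory ProbabilityTheory
open Vale.Agent.P150 Vale.Agent.P150.Slow

set_option linter.unusedSectionVars false

variable {n : ℕ}

/-- uniform law on the unit interval -/
noncomputable def unitI : Measure ℝ := volume.restrict (Set.Ioc 0 1)

instance : IsProbabilityMeasure unitI := ⟨by simp [unitI]⟩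

lemma ae_unitI : ∀ᵐ s ∂unitI, s ∈ Set.Ioc (0 : ℝ) 1 := ae_restrict_mem measurableSet_Ioc

/-- auxiliary randomness -/
noncomputable def aux (n : ℕ) : Measure (ℝ × (Fin 2 × Fin n → ℝ)) :=
  unitI.prod (stdPi (Fin 2 × Fin n))

instance : IsProbabilityMeasure (aux n) := by unfold aux; infer_instance

/-- the bracket of site `i`, as a function of four systems -/
noncomputable def site (β r : ℝ) (i : Fin n) (o : ℝ × (Fin 2 × Fin n → ℝ))
    (u : Fin 4 × Ed n → ℝ) : ℝ :=
  β ^ 2 * (ovl β (blk 0 u) (blk 1 u) *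
      chi β i (rmix i o.1 (blk 0 u) fun l => o.2 (0, l)) (blk 2 u) *
      chi β i (rmix i o.1 (blk 1 u) fun l => o.2 (1, l)) (blk 3 u)) -
    r⁻¹ * (ovl β (blk 0 u) (blk 2 u) * ovl β (blk 1 u) (blk 3 u) * asite β i (blk 0 u) (blk 1 u))

/-- the matrix observable of site `i` -/
noncomputable def ymat (β r : ℝ) (i : Fin n) (o : ℝ × (Fin 2 × Fin n → ℝ))
    (u : Fin 4 × Ed n → ℝ) (pq : Ed n × Ed n) : ℝ :=
  w β (blk 0 u) pq.1 * w β (blk 1 u) pq.2 * site β r i o u

lemma nice_ymat (β r : ℝ) (i : Fin n) (o : ℝ × (Fin 2 × Fin n → ℝ)) (pq : Ed n × Ed n) :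
    Nice fun u => ymat β r i o u pq :=
  have a := fun S : Fin 4 => aff_blk (n := n) S
  ((nice_w_aff β (a 0) pq.1).mul (nice_w_aff β (a 1) pq.2)).mul
    (((((nice_ovl β (a 0) (a 1)).mul (nice_chi β i (aff_rmix i o.1 _ (a 0)) (a 2))).mul
      (nice_chi β i (aff_rmix i o.1 _ (a 1)) (a 3))).const_mul (β ^ 2)).sub
    ((((nice_ovl β (a 0) (a 2)).mul (nice_ovl β (a 1) (a 3))).mul
      (nice_asite β i (a 0) (a 1))).const_mul r⁻¹))

lemma cont_site (β r : ℝ) (i : Fin n) {α : Type*} [TopologicalSpace α]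
    {o : α → ℝ × (Fin 2 × Fin n → ℝ)} {u : α → Fin 4 × Ed n → ℝ} (ho : Continuous o)
    (hu : Continuous u) : Continuous fun a => site β r i (o a) (u a) := by
  have hb := fun S : Fin 4 => (cont_blk (n := n) S).comp hu
  have hd : ∀ k : Fin 2, Continuous fun a => fun l => (o a).2 (k, l) := fun k =>
    continuous_pi fun l => (continuous_apply (k, l)).comp (continuous_snd.comp ho)
  exact (continuous_const.mul (((cont_ovl β (hb 0) (hb 1)).mul
    (cont_chi β i (cont_rmix i (continuous_fst.comp ho) (hb 0) (hd 0)) (hb 2))).mul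
    (cont_chi β i (cont_rmix i (continuous_fst.comp ho) (hb 1) (hd 1)) (hb 3)))).sub
    (continuous_const.mul (((cont_ovl β (hb 0) (hb 2)).mul (cont_ovl β (hb 1) (hb 3))).mul
      (cont_asite β i (hb 0) (hb 1))))

lemma cont_ymat (β r : ℝ) (i : Fin n) {α : Type*} [TopologicalSpace α]
    {o : α → ℝ × (Fin 2 × Fin n → ℝ)} {u : α → Fin 4 × Ed n → ℝ} (ho : Continuous o)
    (hu : Continuous u) : Continuous fun a => ymat β r i (o a) (u a) := by
  refine continuous_pi fun pq => ?_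
  exact (((continuous_apply pq.1).comp (cont_w β ((cont_blk 0).comp hu))).mul
    ((continuous_apply pq.2).comp (cont_w β ((cont_blk 1).comp hu)))).mul (cont_site β r i ho hu)

lemma abs_site_le (β : ℝ) {r : ℝ} (hr : 0 < r) (i : Fin n) (o : ℝ × (Fin 2 × Fin n → ℝ))
    (u : Fin 4 × Ed n → ℝ) : |site β r i o u| ≤ β ^ 2 + r⁻¹ := by
  refine (abs_sub _ _).trans (add_le_add ?_ ?_)
  · rw [abs_mul, abs_of_nonneg (sq_nonneg β), abs_mul, abs_mul]
    refine mul_le_of_le_one_right (sq_nonneg β) ?_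
    exact mul_le_one₀ (mul_le_one₀ (abs_ovl_le β _ _) (abs_nonneg _) (abs_chi_le β i _ _))
      (abs_nonneg _) (abs_chi_le β i _ _)
  · rw [abs_mul, abs_of_pos (inv_pos.2 hr), abs_mul, abs_mul]
    refine mul_le_of_le_one_right (inv_nonneg.2 hr.le) ?_
    exact mul_le_one₀ (mul_le_one₀ (abs_ovl_le β _ _) (abs_nonneg _) (abs_ovl_le β _ _))
      (abs_nonneg _) (abs_asite_le β i _ _)

lemma sum_ymat_sq (β r : ℝ) (i : Fin n) (o : ℝ × (Fin 2 × Fin n → ℝ)) (u : Fin 4 × Ed n → ℝ) :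
    ∑ pq, ymat β r i o u pq ^ 2 =
      ip (w β (blk 0 u)) (w β (blk 0 u)) * ip (w β (blk 1 u)) (w β (blk 1 u)) *
        site β r i o u ^ 2 := by
  simp only [ip, ymat]
  rw [Fintype.sum_prod_type, sum_mul_sum, sum_mul]
  refine sum_congr rfl fun p _ => ?_
  rw [sum_mul]
  exact sum_congr rfl fun q _ => by ring

lemma abs_ymat_le (β : ℝ) {r : ℝ} (hr : 0 < r) (i : Fin n) (o : ℝ × (Fin 2 × Fin n → ℝ))
    (u : Fin 4 × Ed n → ℝ) :
    ∑ pq, ymat β r i o u pq ^ 2 ≤ (β ^ 2 + r⁻¹) ^ 2 := by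
  rw [sum_ymat_sq]
  refine (mul_le_of_le_one_left (sq_nonneg _) (mul_le_one₀ (ip_w_self_le β _)
    (sum_nonneg fun p _ => mul_self_nonneg _) (ip_w_self_le β _))).trans ?_
  rw [← sq_abs]
  exact pow_le_pow_left₀ (abs_nonneg _) (abs_site_le β hr i o u) 2

lemma abs_ymat_apply_le (β : ℝ) {r : ℝ} (hr : 0 < r) (i : Fin n)
    (o : ℝ × (Fin 2 × Fin n → ℝ)) (u : Fin 4 × Ed n → ℝ) (pq : Ed n × Ed n) :
    |ymat β r i o u pq| ≤ β ^ 2 + r⁻¹ :=
  abs_le_of_sq_le_sq ((single_le_sum (f := fun pq => ymat β r i o u pq ^ 2)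
    (fun q _ => sq_nonneg _) (mem_univ pq)).trans (abs_ymat_le β hr i o u)) (by positivity)

attribute [local irreducible] ymat site

/-- the configuration of four systems over three sources -/
structure Conf where
  k : Fin 4 → Fin 3 → ℝ
  rr : Fin 4 → ℝ

/-- admissible configurations -/
structure Conf.Ok (P : Conf) (ε r : ℝ) : Prop where
  hk : ∀ S, ∑ j, P.k S j ^ 2 = 1
  h0 : ∀ S, 0 ≤ P.rr S
  h1 : ∀ S, P.rr S ≤ 1 - ε
  hr : √(P.rr 0) * √(P.rr 1) * ∑ j, P.k 0 j * P.k 1 j = r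
  hr0 : 0 < r
  hr1 : r ≤ 1

variable (β r : ℝ) (P : Conf)

/-- contribution of site `i` to the residual -/
noncomputable def vsite (i : Fin n) (x : Fin 3 × Ed n → ℝ) (pq : Ed n × Ed n) : ℝ :=
  ∫ o, ∫ z, ymat β r i o (sysv P.k P.rr x z) pq ∂stdPi (Fin 4 × Ed n) ∂aux n

lemma cont_sysv {α : Type*} [TopologicalSpace α] {x : α → Fin 3 × Ed n → ℝ}
    {z : α → Fin 4 × Ed n → ℝ} (hx : Continuous x) (hz : Continuous z) :
    Continuous fun a => sysv P.k P.rr (x a) (z a) := by
  refine continuous_pi fun p => ?_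
  unfold sysv comb
  fun_prop

lemma cont_vsite (hr : 0 < r) (i : Fin n) (pq : Ed n × Ed n) :
    Continuous fun x => vsite β r P i x pq := by
  unfold vsite
  refine cont_int (F := fun p : (Fin 3 × Ed n → ℝ) × (ℝ × (Fin 2 × Fin n → ℝ)) =>
    ∫ z, ymat β r i p.2 (sysv P.k P.rr p.1 z) pq ∂stdPi (Fin 4 × Ed n)) ?_ (B := β ^ 2 + r⁻¹) ?_
  · exact cont_int (F := fun p : ((Fin 3 × Ed n → ℝ) × (ℝ × (Fin 2 × Fin n → ℝ))) ×
      (Fin 4 × Ed n → ℝ) => ymat β r i p.1.2 (sysv P.k P.rr p.1.1 p.2) pq)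
      ((continuous_apply pq).comp (cont_ymat β r i (continuous_snd.comp continuous_fst)
        (cont_sysv P (continuous_fst.comp continuous_fst) continuous_snd)))
      fun p => abs_ymat_apply_le β hr i _ _ pq
  · intro p
    refine abs_integral_le_integral_abs.trans ((integral_mono_of_nonneg
      (ae_of_all _ fun q => abs_nonneg _) (integrable_const (β ^ 2 + r⁻¹))
      (ae_of_all _ fun q => abs_ymat_apply_le β hr i _ _ pq)).trans (by simp))

/-- Jensen -/
lemma sq_integral_le {α : Type*} [MeasurableSpace α] {μ : Measure α} [IsProbabilityMeasure μ]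
    {f : α → ℝ} (hf : Integrable f μ) (hf2 : Integrable (fun a => f a ^ 2) μ) :
    (∫ a, f a ∂μ) ^ 2 ≤ ∫ a, f a ^ 2 ∂μ := by
  set c := ∫ a, f a ∂μ
  have h := integral_nonneg (μ := μ) (f := fun a => (f a - c) ^ 2) fun a => sq_nonneg _
  have e : (fun a => (f a - c) ^ 2) = fun a => f a ^ 2 - 2 * c * f a + c ^ 2 := by
    funext a; ring
  have i1 : Integrable (fun a => f a ^ 2 - 2 * c * f a) μ := hf2.sub (hf.const_mul _)
  rw [e, integral_add i1 (integrable_const _), integral_sub hf2 (hf.const_mul _),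
    integral_const_mul, integral_const] at h
  simp at h
  nlinarith

lemma sum_vsite_sq (hr : 0 < r) (i : Fin n) (x : Fin 3 × Ed n → ℝ) :
    ∑ pq, vsite β r P i x pq ^ 2 ≤ (β ^ 2 + r⁻¹) ^ 2 := by
  set μ := (aux n).prod (stdPi (Fin 4 × Ed n))
  set f := fun pq (q : (ℝ × (Fin 2 × Fin n → ℝ)) × (Fin 4 × Ed n → ℝ)) =>
    ymat β r i q.1 (sysv P.k P.rr x q.2) pq with hf
  have hc : ∀ pq, Continuous (f pq) := fun pq => (continuous_apply pq).comp
    (cont_ymat β r i continuous_fst (cont_sysv P continuous_const continuous_snd))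
  have hi : ∀ pq, Integrable (f pq) μ := fun pq =>
    integrable_bdd2 (hc pq) fun q => abs_ymat_apply_le β hr i _ _ pq
  have hi2 : ∀ pq, Integrable (fun q => f pq q ^ 2) μ := fun pq =>
    integrable_bdd2 ((hc pq).pow 2) (B := (β ^ 2 + r⁻¹) ^ 2) fun q => by
      rw [abs_pow]
      exact pow_le_pow_left₀ (abs_nonneg _) (abs_ymat_apply_le β hr i _ _ pq) 2
  have e : ∀ pq, vsite β r P i x pq = ∫ q, f pq q ∂μ := fun pq => (integral_prod _ (hi pq)).symm
  simp only [e]
  calc ∑ pq, (∫ q, f pq q ∂μ) ^ 2 ≤ ∑ pq, ∫ q, f pq q ^ 2 ∂μ :=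
        sum_le_sum fun pq _ => sq_integral_le (hi pq) (hi2 pq)
    _ = ∫ q, ∑ pq, f pq q ^ 2 ∂μ := (integral_finsetSum _ fun pq _ => hi2 pq).symm
    _ ≤ ∫ _q, (β ^ 2 + r⁻¹) ^ 2 ∂μ := integral_mono_of_nonneg
        (ae_of_all _ fun q => sum_nonneg fun pq _ => sq_nonneg _) (integrable_const _)
        (ae_of_all _ fun q => abs_ymat_le β hr i q.1 (sysv P.k P.rr x q.2))
    _ = _ := by simp

/-- rows of the systems and of the sources -/
def rows4 (i : Fin n) (p : Fin 4 × Fin n) : Fin 4 × Ed n := (p.1, row i p.2)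

lemma rows4_injective (i : Fin n) : Function.Injective (rows4 i) := fun a b h => by
  simp only [rows4, Prod.ext_iff] at h
  exact Prod.ext h.1 (row_injective i (Prod.ext h.2.1 h.2.2))

/-- randomness of one row -/
abbrev RowSp (n : ℕ) := (Fin 3 × Fin n → ℝ) × (Fin 2 × Fin n → ℝ) × (Fin 4 × Fin n → ℝ)

/-- the rows of the systems -/
noncomputable def rowY (S : Fin 4) (θ : RowSp n) (l : Fin n) : ℝ :=
  √(P.rr S) * ∑ j, P.k S j * θ.1 (j, l) + √(1 - P.rr S) * θ.2.2 (S, l)

lemma blk_sysv_ovr (i : Fin n) (S : Fin 4) (x : Fin 3 × Ed n → ℝ) (z : Fin 4 × Ed n → ℝ)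
    (y : Fin 3 × Fin n → ℝ) (d : Fin 2 × Fin n → ℝ) (y' : Fin 4 × Fin n → ℝ) :
    blk S (sysv P.k P.rr (ovr (rows3 i) x y) (ovr (rows4 i) z y')) =
      ins i (sys (P.rr S) (comb P.k x S) (blk S z)) (rowY P S (y, d, y')) := by
  funext e
  by_cases h : ∃ l, row i l = e
  · obtain ⟨l, rfl⟩ := h
    rw [ins, ovr_apply (row_injective i)]
    have e3 : ∀ j, ovr (rows3 i) x y (j, row i l) = y (j, l) := fun j =>
      ovr_apply (rows3_injective i) x y (j, l)
    have e4 : ovr (rows4 i) z y' (S, row i l) = y' (S, l) :=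
      ovr_apply (rows4_injective i) z y' (S, l)
    simp only [blk, sysv, comb, rowY, e3, e4]
  · push Not at h
    rw [ins, ovr_of_not _ _ h]
    have e3 : ∀ j, ovr (rows3 i) x y (j, e) = x (j, e) := fun j =>
      ovr_of_not _ _ fun p hp => h p.2 (congrArg Prod.snd hp)
    have e4 : ovr (rows4 i) z y' (S, e) = z (S, e) :=
      ovr_of_not _ _ fun p hp => h p.2 (congrArg Prod.snd hp)
    simp only [blk, sysv, comb, sys, e3, e4, Pi.add_apply, Pi.smul_apply, smul_eq_mul]

/-- the rows of the smoothed systems -/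
noncomputable def rowYs (k : Fin 2) (p : ℝ × RowSp n) : Fin n → ℝ :=
  √p.1 • rowY P (Fin.castLE (by norm_num) k) p.2 + √(1 - p.1) • fun l => p.2.2.1 (k, l)

/-- law of the randomness of one row -/
noncomputable def rowLaw (n : ℕ) : Measure (RowSp n) :=
  (stdPi (Fin 3 × Fin n)).prod ((stdPi (Fin 2 × Fin n)).prod (stdPi (Fin 4 × Fin n)))

instance : IsProbabilityMeasure (rowLaw n) := by unfold rowLaw; infer_instance

lemma cont_rowY (S : Fin 4) : Continuous (rowY (n := n) P S) :=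
  continuous_pi fun l => by unfold rowY; fun_prop

lemma cont_rowYs (k : Fin 2) : Continuous (rowYs (n := n) P k) := by
  refine ((Real.continuous_sqrt.comp continuous_fst).smul
    ((cont_rowY P _).comp continuous_snd)).add
    ((Real.continuous_sqrt.comp (continuous_const.sub continuous_fst)).smul ?_)
  exact continuous_pi fun l => by fun_prop

/-- the coefficients of the rows -/
noncomputable def rowC (S : Fin 4) : Fin 3 ⊕ Fin 2 ⊕ Fin 4 → ℝ :=
  Sum.elim (fun j => √(P.rr S) * P.k S j)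
    (Sum.elim (fun _ => 0) fun T => if T = S then √(1 - P.rr S) else 0)

/-- the coefficients of the smoothed rows -/
noncomputable def rowCs (s : ℝ) (k : Fin 2) : Fin 3 ⊕ Fin 2 ⊕ Fin 4 → ℝ :=
  fun m => √s * rowC P (Fin.castLE (by norm_num) k) m +
    √(1 - s) * Sum.elim (fun _ => (0 : ℝ)) (Sum.elim (fun T => if T = k then 1 else 0) fun _ => 0) m

/-- the sources of one row -/
def rowT (φ : (Fin 3 ⊕ Fin 2 ⊕ Fin 4) × Fin n → ℝ) : RowSp n :=
  ((splitMap φ).1, splitMap (splitMap φ).2)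

lemma mp_rowT : MeasurePreserving (rowT (n := n)) (stdPi ((Fin 3 ⊕ Fin 2 ⊕ Fin 4) × Fin n))
    (rowLaw n) :=
  ((MeasurePreserving.id _).prod mp_split).comp mp_split

lemma rowY_eq (S : Fin 4) (φ : (Fin 3 ⊕ Fin 2 ⊕ Fin 4) × Fin n → ℝ) :
    rowY P S (rowT φ) = fun l => ∑ m, rowC P S m * φ (m, l) := by
  funext l
  simp [rowY, rowT, splitMap, rowC, Fintype.sum_sum_type, mul_sum, mul_assoc]

lemma rowYs_eq (s : ℝ) (k : Fin 2) (φ : (Fin 3 ⊕ Fin 2 ⊕ Fin 4) × Fin n → ℝ) :
    rowYs P k (s, rowT φ) = fun l => ∑ m, rowCs P s k m * φ (m, l) := by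
  funext l
  simp only [rowYs, Pi.add_apply, Pi.smul_apply, smul_eq_mul, rowY_eq, rowCs, add_mul,
    sum_add_distrib, mul_assoc, ← mul_sum]
  congr 1
  simp [rowT, splitMap, Fintype.sum_sum_type]

lemma rowC_dot (S T : Fin 4) : ∑ m, rowC P S m * rowC P T m =
    √(P.rr S) * √(P.rr T) * ∑ j, P.k S j * P.k T j +
      if S = T then √(1 - P.rr S) * √(1 - P.rr S) else 0 := by
  simp only [rowC, Fintype.sum_sum_type, Sum.elim_inl, Sum.elim_inr, mul_zero, sum_const_zero,
    zero_add, mul_sum]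
  congr 1
  · exact sum_congr rfl fun j _ => by ring
  · by_cases h : S = T
    · subst h; simp
    · simp [h, Ne.symm h]

lemma row_laws {ε r : ℝ} (hP : P.Ok ε r) (hε : 0 < ε) :
    (∀ S, MeasurePreserving (rowY P S) (rowLaw n) (stdPi (Fin n))) ∧
    (∀ F : (Fin n → ℝ) × (Fin n → ℝ) → ℝ, Continuous F →
      ∫ θ, F (rowY P 0 θ, rowY P 1 θ) ∂rowLaw n =
        ∫ q, F (q.1, rot r q.1 q.2) ∂(stdPi (Fin n)).prod (stdPi (Fin n))) ∧
    ∀ s ∈ Set.Icc (0 : ℝ) 1, ∀ F : (Fin n → ℝ) × (Fin n → ℝ) → ℝ, Continuous F →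
      ∫ θ, F (rowYs P 0 (s, θ), rowYs P 1 (s, θ)) ∂rowLaw n =
        ∫ q, F (q.1, rot (r * s) q.1 q.2) ∂(stdPi (Fin n)).prod (stdPi (Fin n)) := by
  have hsq : ∀ S, ∑ m, rowC P S m ^ 2 = 1 := fun S => by
    have h := rowC_dot P S S
    simp only [← sq, if_true, hP.hk] at h
    rw [h, Real.sq_sqrt (hP.h0 S), Real.sq_sqrt (by linarith [hP.h1 S]), mul_one]
    ring
  refine ⟨fun S => mp_of_integral (cont_rowY P S) fun F hF => ?_, fun F hF => ?_,
    fun s hs F hF => ?_⟩
  · rw [← integral_of_mp mp_rowT (F := fun θ => F (rowY P S θ)) (hF.comp (cont_rowY P S))]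
    simp only [rowY_eq]
    exact integral_of_mp (mp_comb_eval (fun (_ : Unit) => rowC P S) () (hsq S)) hF
  · rw [← integral_of_mp mp_rowT (F := fun θ => F (rowY P 0 θ, rowY P 1 θ))
      (hF.comp ((cont_rowY P 0).prodMk (cont_rowY P 1)))]
    simp only [rowY_eq]
    refine integral_comb_pair (fun k => rowC P (Fin.castLE (by norm_num) k))
      (pow_le_one₀ hP.hr0.le hP.hr1) (fun S => hsq _) ?_ hF
    show ∑ m, rowC P 0 m * rowC P 1 m = r
    rw [rowC_dot, if_neg (by decide), add_zero, hP.hr]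
  · rw [← integral_of_mp mp_rowT (F := fun θ => F (rowYs P 0 (s, θ), rowYs P 1 (s, θ)))
      (hF.comp (((cont_rowYs P 0).comp (continuous_const.prodMk continuous_id)).prodMk
        ((cont_rowYs P 1).comp (continuous_const.prodMk continuous_id))))]
    simp only [rowYs_eq]
    have hu : (r * s) ^ 2 ≤ 1 :=
      pow_le_one₀ (mul_nonneg hP.hr0.le hs.1) (mul_le_one₀ hP.hr1 hs.1 hs.2)
    have hd : ∀ k l : Fin 2, ∑ m, rowCs P s k m * rowCs P s l m =
        s * (∑ m, rowC P (Fin.castLE (by norm_num) k) m * rowC P (Fin.castLE (by norm_num) l) m) +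
          if k = l then 1 - s else 0 := by
      intro k l
      set e : Fin 2 → Fin 3 ⊕ Fin 2 ⊕ Fin 4 → ℝ := fun k =>
        Sum.elim (fun _ => 0) (Sum.elim (fun T => if T = k then 1 else 0) fun _ => 0) with he
      have e1 := Real.mul_self_sqrt hs.1
      have e2 := Real.mul_self_sqrt (show (0 : ℝ) ≤ 1 - s by linarith [hs.2])
      have hx : ∀ (S : Fin 4) (j : Fin 2) m, rowC P S m * e j m = 0 := by
        rintro S j (m | m | m) <;> simp [rowC, he]
      have hm : ∀ m, rowCs P s k m * rowCs P s l m =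
          s * (rowC P (Fin.castLE (by norm_num) k) m * rowC P (Fin.castLE (by norm_num) l) m) +
            (1 - s) * (e k m * e l m) := fun m => by
        show (√s * _ + √(1 - s) * e k m) * (√s * _ + √(1 - s) * e l m) = _
        linear_combination (rowC P (Fin.castLE (by norm_num) k) m *
          rowC P (Fin.castLE (by norm_num) l) m) * e1 + e k m * e l m * e2 +
          √s * √(1 - s) * hx (Fin.castLE (by norm_num) k) l m +
          √s * √(1 - s) * hx (Fin.castLE (by norm_num) l) k m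
      rw [sum_congr rfl fun m _ => hm m, sum_add_distrib, ← mul_sum, ← mul_sum]
      congr 1
      by_cases h : k = l
      · subst h; simp [he, Fintype.sum_sum_type]
      · simp [he, Fintype.sum_sum_type, h, Ne.symm h]
    refine integral_comb_pair (rowCs P s) hu (fun k => ?_) ?_ hF
    · have e := hsq (Fin.castLE (by norm_num) k)
      simp only [sq] at e ⊢
      rw [hd, if_pos rfl, e]
      ring
    · rw [hd, if_neg (by decide), add_zero]
      show s * ∑ m, rowC P 0 m * rowC P 1 m = r * s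
      rw [rowC_dot, if_neg (by decide), add_zero, hP.hr]
      ring

/-- **The residual of site `i` is orthogonal to functions of the other rows.** -/
theorem site_orth {β r ε : ℝ} (hβ : 0 < β) (hε : 0 < ε) {P : Conf} (hP : P.Ok ε r) (i : Fin n)
    (V : (Fin 3 × Ed n → ℝ) → Ed n × Ed n → ℝ) (hV : Continuous V) {B : ℝ} (hB : 0 < B)
    (hVB : ∀ x, ∑ pq, V x pq ^ 2 ≤ B ^ 2) (hVi : ∀ x y, V (ovr (rows3 i) x y) = V x) :
    |∫ x, ∑ pq, V x pq * vsite β r P i x pq ∂stdPi (Fin 3 × Ed n)| ≤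
      B * (β ^ 2 * (14 * (kap β n ε + √(2 / n)) + 208 * √(kap β n ε)) +
        r⁻¹ * (6 * (kap β n ε + √(2 / n)) + 1 / n)) := by
  have hr0 := hP.hr0
  set Bd := β ^ 2 * (14 * (kap β n ε + √(2 / n)) + 208 * √(kap β n ε)) +
    r⁻¹ * (6 * (kap β n ε + √(2 / n)) + 1 / n) with hBd
  set C0 := β ^ 2 + r⁻¹ with hC0
  have hC00 : 0 ≤ C0 := by positivity
  set Φ := fun (o : ℝ × (Fin 2 × Fin n → ℝ)) (x : Fin 3 × Ed n → ℝ) (z : Fin 4 × Ed n → ℝ) =>
    ∑ pq, V x pq * ymat β r i o (sysv P.k P.rr x z) pq with hΦ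
  have cΦ : Continuous fun p : (ℝ × (Fin 2 × Fin n → ℝ)) × (Fin 3 × Ed n → ℝ) ×
      (Fin 4 × Ed n → ℝ) => Φ p.1 p.2.1 p.2.2 := by
    refine continuous_finsetSum _ fun pq _ => ?_
    exact ((continuous_apply pq).comp (hV.comp (continuous_fst.comp continuous_snd))).mul
      ((continuous_apply pq).comp (cont_ymat β r i continuous_fst (cont_sysv P
        (continuous_fst.comp continuous_snd) (continuous_snd.comp continuous_snd))))
  have bΦ : ∀ o x z, |Φ o x z| ≤ B * C0 := fun o x z => by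
    refine abs_le_of_sq_le_sq ?_ (by positivity)
    refine (sum_mul_sq_le_sq_mul_sq univ _ _).trans ?_
    rw [mul_pow]
    exact mul_le_mul (hVB x) (abs_ymat_le β hr0 i o _) (sum_nonneg fun pq _ => sq_nonneg _)
      (sq_nonneg _)
  -- as an integral of Φ
  have e1 : ∀ x, ∑ pq, V x pq * vsite β r P i x pq =
      ∫ o, ∫ z, Φ o x z ∂stdPi (Fin 4 × Ed n) ∂aux n := by
    intro x
    have hc : ∀ pq, Continuous fun q : (ℝ × (Fin 2 × Fin n → ℝ)) × (Fin 4 × Ed n → ℝ) =>
        ymat β r i q.1 (sysv P.k P.rr x q.2) pq := fun pq => (continuous_apply pq).comp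
      (cont_ymat β r i continuous_fst (cont_sysv P continuous_const continuous_snd))
    have hz : ∀ o pq, Integrable (fun z => ymat β r i o (sysv P.k P.rr x z) pq)
        (stdPi (Fin 4 × Ed n)) := fun o pq => integrable_bdd
      ((hc pq).comp (continuous_const.prodMk continuous_id)) fun z =>
        abs_ymat_apply_le β hr0 i o _ pq
    have ho : ∀ pq, Integrable (fun o => ∫ z, ymat β r i o (sysv P.k P.rr x z) pq
        ∂stdPi (Fin 4 × Ed n)) (aux n) := fun pq =>
      (integrable_bdd2 (μ := aux n) (ν := stdPi (Fin 4 × Ed n)) (hc pq)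
        fun q => abs_ymat_apply_le β hr0 i q.1 _ pq).integral_prod_left
    simp only [vsite, hΦ]
    rw [show (∫ o, ∫ z, ∑ pq, V x pq * ymat β r i o (sysv P.k P.rr x z) pq
      ∂stdPi (Fin 4 × Ed n) ∂aux n) = ∫ o, ∑ pq, V x pq * ∫ z, ymat β r i o (sysv P.k P.rr x z) pq
      ∂stdPi (Fin 4 × Ed n) ∂aux n from integral_congr_ae (ae_of_all _ fun o => by
        simp only
        rw [integral_finsetSum _ fun pq _ => (hz o pq).const_mul _]
        exact sum_congr rfl fun pq _ => integral_const_mul _ _),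
      integral_finsetSum _ fun pq _ => (ho pq).const_mul _]
    exact sum_congr rfl fun pq _ => (integral_const_mul _ _).symm
  simp only [e1]
  -- split the row off
  have cH : Continuous fun x => ∫ o, ∫ z, Φ o x z ∂stdPi (Fin 4 × Ed n) ∂aux n := by
    refine cont_int (F := fun p : (Fin 3 × Ed n → ℝ) × (ℝ × (Fin 2 × Fin n → ℝ)) =>
      ∫ z, Φ p.2 p.1 z ∂stdPi (Fin 4 × Ed n)) ?_ (B := B * C0) fun p => ?_
    · exact cont_int (F := fun p : ((Fin 3 × Ed n → ℝ) × (ℝ × (Fin 2 × Fin n → ℝ))) ×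
        (Fin 4 × Ed n → ℝ) => Φ p.1.2 p.1.1 p.2)
        (cΦ.comp ((continuous_snd.comp continuous_fst).prodMk
          ((continuous_fst.comp continuous_fst).prodMk continuous_snd))) fun p => bΦ _ _ _
    · exact abs_integral_le_integral_abs.trans ((integral_mono_of_nonneg
        (ae_of_all _ fun q => abs_nonneg _) (integrable_const (B * C0))
        (ae_of_all _ fun q => bΦ _ _ _)).trans (by simp))
  have bH : ∀ x, |∫ o, ∫ z, Φ o x z ∂stdPi (Fin 4 × Ed n) ∂aux n| ≤ B * C0 := fun x =>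
    abs_integral_le_integral_abs.trans ((integral_mono_of_nonneg
      (ae_of_all _ fun q => abs_nonneg _) (integrable_const (B * C0)) (ae_of_all _ fun o =>
        abs_integral_le_integral_abs.trans ((integral_mono_of_nonneg
          (ae_of_all _ fun q => abs_nonneg _) (integrable_const (B * C0))
          (ae_of_all _ fun q => bΦ _ _ _)).trans (by simp)))).trans (by simp))
  rw [← integral_ovr (rows3_injective i) cH,
    integral_prod _ (integrable_bdd2 (f := fun p : (Fin 3 × Ed n → ℝ) × (Fin 3 × Fin n → ℝ) =>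
      ∫ o, ∫ z, Φ o (ovr (rows3 i) p.1 p.2) z ∂stdPi (Fin 4 × Ed n) ∂aux n)
      (cH.comp (continuous_ovr (rows3_injective i))) fun p => bH _)]
  refine abs_integral_le_integral_abs.trans ((integral_mono_of_nonneg
    (ae_of_all _ fun x => abs_nonneg _) (integrable_const (B * Bd))
    (ae_of_all _ fun x => ?_)).trans (by simp))
  -- the identity for fixed sources off the row
  set Vm : Ed n → Ed n → ℝ := fun p q => V x (p, q) / B with hVm
  have hVm1 : ∑ p, ip (Vm p) (Vm p) ≤ 1 := by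
    have e : ∑ p, ip (Vm p) (Vm p) = (∑ pq, V x pq ^ 2) / B ^ 2 := by
      simp only [hVm, ip, Fintype.sum_prod_type (f := fun pq => V x pq ^ 2), sum_div]
      exact sum_congr rfl fun p _ => sum_congr rfl fun q _ => by ring
    rw [e, div_le_one (by positivity)]
    exact hVB x
  obtain ⟨hmp, hpair, hs⟩ := row_laws (n := n) P hP hε
  have hI := ident_row (rowLaw n) hβ i (fun S => comb P.k x S) P.rr hε hP.h0 hP.h1 (rowY P)
    (cont_rowY P) hmp (rowYs P) (cont_rowYs P) hr0 hP.hr1 hpair hs hVm1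
  set g := fun (S : Fin 4) (Y : RowSp n → Fin n → ℝ) (q : RowSp n × (Fin 4 × Ed n → ℝ)) =>
    gS i (comb P.k x S) (P.rr S) S Y q with hg
  set T1 := fun (s : ℝ) (q : RowSp n × (Fin 4 × Ed n → ℝ)) =>
    bil Vm (w β (g 0 (rowY P 0) q)) (w β (g 1 (rowY P 1) q)) *
      ovl β (g 0 (rowY P 0) q) (g 1 (rowY P 1) q) *
      chi β i (g 0 (fun θ => rowYs P 0 (s, θ)) q) (g 2 (rowY P 2) q) *
      chi β i (g 1 (fun θ => rowYs P 1 (s, θ)) q) (g 3 (rowY P 3) q) with hT1
  set T2 := fun q : RowSp n × (Fin 4 × Ed n → ℝ) =>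
    bil Vm (w β (g 0 (rowY P 0) q)) (w β (g 1 (rowY P 1) q)) *
      ovl β (g 0 (rowY P 0) q) (g 2 (rowY P 2) q) * ovl β (g 1 (rowY P 1) q) (g 3 (rowY P 3) q) *
      asite β i (g 0 (rowY P 0) q) (g 1 (rowY P 1) q) with hT2
  set G : ℝ × (RowSp n × (Fin 4 × Ed n → ℝ)) → ℝ := fun p =>
    Φ (p.1, p.2.1.2.1) (ovr (rows3 i) x p.2.1.1) (ovr (rows4 i) p.2.2 p.2.1.2.2) with hG
  have hGbc : BC G := by
    refine ⟨cΦ.comp (((continuous_fst.prodMk ((continuous_fst.comp continuous_snd).comp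
      (continuous_fst.comp continuous_snd)))).prodMk
      (((continuous_ovr (rows3_injective i)).comp (continuous_const.prodMk
        (continuous_fst.comp (continuous_fst.comp continuous_snd)))).prodMk
      ((continuous_ovr (rows4_injective i)).comp ((continuous_snd.comp continuous_snd).prodMk
        (continuous_snd.comp (continuous_snd.comp (continuous_fst.comp continuous_snd))))))),
      B * C0, fun p => bΦ _ _ _⟩
  have hlhs : ∫ y, ∫ o, ∫ z, Φ o (ovr (rows3 i) x y) z ∂stdPi (Fin 4 × Ed n) ∂aux n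
      ∂stdPi (Fin 3 × Fin n) =
      ∫ s, ∫ q, G (s, q) ∂(rowLaw n).prod (stdPi (Fin 4 × Ed n)) ∂unitI := by
    rw [rowLaw, ← reorder5 unitI (stdPi (Fin 3 × Fin n)) (stdPi (Fin 2 × Fin n))
      (stdPi (Fin 4 × Ed n)) (stdPi (Fin 4 × Fin n)) hGbc]
    refine integral_congr_ae (ae_of_all _ fun y => integral_congr_ae (ae_of_all _ fun o => ?_))
    have hc : Continuous fun z => Φ o (ovr (rows3 i) x y) z :=
      cΦ.comp (continuous_const.prodMk (continuous_const.prodMk continuous_id))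
    simp only
    rw [← integral_ovr (rows4_injective i) hc]
    exact BC.prod_eq (f := fun p : (Fin 4 × Ed n → ℝ) × (Fin 4 × Fin n → ℝ) =>
      Φ o (ovr (rows3 i) x y) (ovr (rows4 i) p.1 p.2))
      ⟨hc.comp (continuous_ovr (rows4_injective i)), B * C0, fun p => bΦ _ _ _⟩
  have hGval : ∀ s q, G (s, q) = B * (β ^ 2 * T1 s q - r⁻¹ * T2 q) := by
    rintro s ⟨⟨y, d, y'⟩, z⟩
    have hb : ∀ S, blk S (sysv P.k P.rr (ovr (rows3 i) x y) (ovr (rows4 i) z y')) =
        g S (rowY P S) ((y, d, y'), z) := fun S => blk_sysv_ovr P i S x z y d y'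
    have hm : ∀ (k : Fin 2) (S : Fin 4), Fin.castLE (by norm_num) k = S →
        rmix i s (g S (rowY P S) ((y, d, y'), z)) (fun l => d (k, l)) =
          g S (fun θ => rowYs P k (s, θ)) ((y, d, y'), z) := by
      rintro k S rfl
      simp only [hg, gS, rmix_ins, rowYs]
    simp only [hG, hΦ, hVi]
    simp only [ymat, site, hb, hm 0 0 rfl, hm 1 1 rfl]
    set g0' := g 0 (rowY P 0) ((y, d, y'), z)
    set g1' := g 1 (rowY P 1) ((y, d, y'), z)
    have ebil : ∑ pq : Ed n × Ed n, V x pq * (w β g0' pq.1 * w β g1' pq.2) =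
        B * bil Vm (w β g0') (w β g1') := by
      simp only [bil, ip, hVm, mul_sum, Fintype.sum_prod_type
        (f := fun pq : Ed n × Ed n => V x pq * (w β g0' pq.1 * w β g1' pq.2))]
      refine sum_congr rfl fun p _ => sum_congr rfl fun q _ => ?_
      field_simp
    simp only [← mul_assoc (V x _)] at ebil ⊢
    rw [← sum_mul, ebil]
    simp only [hT1, hT2]
    ring
  have iT1 : ∀ s, Integrable (T1 s) ((rowLaw n).prod (stdPi (Fin 4 × Ed n))) ∧
      Integrable T2 ((rowLaw n).prod (stdPi (Fin 4 × Ed n))) := by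
    intro s
    have cg : ∀ S Y, Continuous Y → Continuous (g S Y) := fun S Y hY =>
      cont_gS i (comb P.k x S) S hY
    have cY := fun S => cg S _ (cont_rowY P S)
    have cs := fun (k : Fin 2) (S : Fin 4) => cg S _ ((cont_rowYs P k).comp
      (continuous_const.prodMk continuous_id) : Continuous fun θ => rowYs P k (s, θ))
    have hb := fun q => abs_bil_le hVm1 (ip_w_self_le β (g 0 (rowY P 0) q))
      (ip_w_self_le β (g 1 (rowY P 1) q))
    refine ⟨integrable_bdd2 ((((cont_bil Vm (cont_w β (cY 0)) (cont_w β (cY 1))).mul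
      (cont_ovl β (cY 0) (cY 1))).mul (cont_chi β i (cs 0 0) (cY 2))).mul
      (cont_chi β i (cs 1 1) (cY 3))) (B := 1) fun q => ?_,
      integrable_bdd2 ((((cont_bil Vm (cont_w β (cY 0)) (cont_w β (cY 1))).mul
      (cont_ovl β (cY 0) (cY 2))).mul (cont_ovl β (cY 1) (cY 3))).mul
      (cont_asite β i (cY 0) (cY 1))) (B := 1) fun q => ?_⟩
    all_goals show |_ * _ * _ * _| ≤ (1 : ℝ)
    all_goals rw [abs_mul, abs_mul, abs_mul]
    · exact mul_le_one₀ (mul_le_one₀ (mul_le_one₀ (hb q) (abs_nonneg _) (abs_ovl_le β _ _))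
        (abs_nonneg _) (abs_chi_le β i _ _)) (abs_nonneg _) (abs_chi_le β i _ _)
    · exact mul_le_one₀ (mul_le_one₀ (mul_le_one₀ (hb q) (abs_nonneg _) (abs_ovl_le β _ _))
        (abs_nonneg _) (abs_ovl_le β _ _)) (abs_nonneg _) (abs_asite_le β i _ _)
  have e2 : ∀ s, ∫ q, G (s, q) ∂(rowLaw n).prod (stdPi (Fin 4 × Ed n)) =
      B * (β ^ 2 * ∫ q, T1 s q ∂(rowLaw n).prod (stdPi (Fin 4 × Ed n))) -
        B * (r⁻¹ * ∫ q, T2 q ∂(rowLaw n).prod (stdPi (Fin 4 × Ed n))) := fun s => by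
    simp only [hGval, mul_sub]
    rw [integral_sub (((iT1 s).1.const_mul _).const_mul _) (((iT1 s).2.const_mul _).const_mul _),
      integral_const_mul, integral_const_mul, integral_const_mul, integral_const_mul]
  have iS : Integrable (fun s => B * (β ^ 2 * ∫ q, T1 s q
      ∂(rowLaw n).prod (stdPi (Fin 4 × Ed n)))) unitI := by
    have e : (fun s => B * (β ^ 2 * ∫ q, T1 s q ∂(rowLaw n).prod (stdPi (Fin 4 × Ed n)))) =
        fun s => (∫ q, G (s, q) ∂(rowLaw n).prod (stdPi (Fin 4 × Ed n))) +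
          B * (r⁻¹ * ∫ q, T2 q ∂(rowLaw n).prod (stdPi (Fin 4 × Ed n))) :=
      funext fun s => by rw [e2]; ring
    rw [e]
    exact (BC.integrable (μ := unitI) (BC.int hGbc)).add (integrable_const _)
  show |∫ y, ∫ o, ∫ z, Φ o (ovr (rows3 i) x y) z ∂stdPi (Fin 4 × Ed n) ∂aux n
    ∂stdPi (Fin 3 × Fin n)| ≤ B * Bd
  rw [hlhs]
  simp only [e2]
  rw [integral_sub iS (integrable_const _), integral_const, probReal_univ, one_smul,
    integral_const_mul, integral_const_mul, ← mul_sub, abs_mul, abs_of_pos hB]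
  refine mul_le_mul_of_nonneg_left ?_ hB.le
  rw [unitI, ← intervalIntegral.integral_of_le zero_le_one]
  exact hI

end Vale.Agent.P146.Chaos
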