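import Vale.Agent.P146.Chaos.Interp

/-! # P146: overriding coordinates, linear systems of Gaussian vectors -/

namespace Vale.Agent.P146.Chaos

open Finset MeasureTheory ProbabilityTheory
open Vale.Agent.P150.Slow

variable {ι κ : Type*} [Fintype ι] [Fintype κ] [DecidableEq ι] [DecidableEq κ]

/-- overwrite the coordinates in the range of `j` -/
noncomputable def ovr (j : κ → ι) (g : ι → ℝ) (y : κ → ℝ) : ι → ℝ := Function.extend j y g

omit [Fintype ι] [Fintype κ] [DecidableEq ι] [DecidableEq κ] in
lemma ovr_apply {j : κ → ι} (hj : Function.Injective j) (g : ι → ℝ) (y : κ → ℝ) (k : κ) :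
    ovr j g y (j k) = y k := hj.extend_apply _ _ _

omit [Fintype ι] [Fintype κ] [DecidableEq ι] [DecidableEq κ] in
lemma ovr_of_not {j : κ → ι} (g : ι → ℝ) (y : κ → ℝ) {e : ι} (h : ∀ k, j k ≠ e) :
    ovr j g y e = g e := Function.extend_apply' _ _ _ fun ⟨k, hk⟩ => h k hk

omit [Fintype ι] [DecidableEq ι] [DecidableEq κ] [Fintype κ] in
lemma ovr_add {j : κ → ι} (hj : Function.Injective j) (g g' : ι → ℝ) (y y' : κ → ℝ) :
    ovr j (g + g') (y + y') = ovr j g y + ovr j g' y' := by
  funext e
  by_cases h : ∃ k, j k = e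
  · obtain ⟨k, rfl⟩ := h
    simp [ovr_apply hj]
  · push Not at h
    simp [ovr_of_not _ _ h]

omit [Fintype ι] [DecidableEq ι] [DecidableEq κ] [Fintype κ] in
lemma ovr_smul {j : κ → ι} (hj : Function.Injective j) (c : ℝ) (g : ι → ℝ) (y : κ → ℝ) :
    ovr j (c • g) (c • y) = c • ovr j g y := by
  funext e
  by_cases h : ∃ k, j k = e
  · obtain ⟨k, rfl⟩ := h
    simp [ovr_apply hj]
  · push Not at h
    simp [ovr_of_not _ _ h]

omit [Fintype ι] [DecidableEq ι] [DecidableEq κ] [Fintype κ] in
lemma ovr_sys {j : κ → ι} (hj : Function.Injective j) (r : ℝ) (b z : ι → ℝ) (p q : κ → ℝ) :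
    ovr j (sys r b z) (sys r p q) = sys r (ovr j b p) (ovr j z q) := by
  simp only [sys, ovr_add hj, ovr_smul hj]

omit [Fintype ι] [DecidableEq ι] [DecidableEq κ] [Fintype κ] in
lemma ovr_ovr {j : κ → ι} (hj : Function.Injective j) (g : ι → ℝ) (y y' : κ → ℝ) :
    ovr j (ovr j g y) y' = ovr j g y' := by
  funext e
  by_cases h : ∃ k, j k = e
  · obtain ⟨k, rfl⟩ := h
    simp [ovr_apply hj]
  · push Not at h
    simp [ovr_of_not _ _ h]

/-- overriding as a linear map -/
noncomputable def ovrL {j : κ → ι} (hj : Function.Injective j) :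
    ((ι → ℝ) × (κ → ℝ)) →L[ℝ] (ι → ℝ) :=
  LinearMap.toContinuousLinearMap
    { toFun := fun p => ovr j p.1 p.2
      map_add' := fun p q => ovr_add hj _ _ _ _
      map_smul' := fun c p => ovr_smul hj c _ _ }

omit [DecidableEq ι] [DecidableEq κ] in
@[simp] lemma ovrL_apply {j : κ → ι} (hj : Function.Injective j) (p : (ι → ℝ) × (κ → ℝ)) :
    ovrL hj p = ovr j p.1 p.2 := rfl

omit [DecidableEq ι] [DecidableEq κ] in
lemma continuous_ovr {j : κ → ι} (hj : Function.Injective j) :
    Continuous fun p : (ι → ℝ) × (κ → ℝ) => ovr j p.1 p.2 := (ovrL hj).continuous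

/-- Refreshing the coordinates in the range of `j` preserves the law. -/
theorem mp_ovr {j : κ → ι} (hj : Function.Injective j) :
    MeasurePreserving (fun p : (ι → ℝ) × (κ → ℝ) => ovr j p.1 p.2)
      ((stdPi ι).prod (stdPi κ)) (stdPi ι) := by
  refine ⟨(continuous_ovr hj).measurable, ?_⟩
  have hm := mp_sum (ι := ι) (κ := κ)
  let P1 : (ι ⊕ κ → ℝ) →L[ℝ] (ι → ℝ) := ContinuousLinearMap.pi fun i => .proj (Sum.inl i)
  let P2 : (ι ⊕ κ → ℝ) →L[ℝ] (κ → ℝ) := ContinuousLinearMap.pi fun i => .proj (Sum.inr i)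
  let L : (ι ⊕ κ → ℝ) →L[ℝ] (ι → ℝ) := (ovrL hj).comp (P1.prod P2)
  have e := map_eq_of_cov L (.id ℝ (ι → ℝ)) fun φ => by
    have e1 : ∀ e, L (Pi.single (Sum.inl e) 1) =
        if e ∈ univ.image j then 0 else Pi.single e 1 := by
      intro e
      have : L (Pi.single (Sum.inl e) 1) = ovr j (Pi.single e 1) 0 := by
        simp only [L, ContinuousLinearMap.comp_apply, ContinuousLinearMap.prod_apply, ovrL_apply]
        congr 1 <;> funext k <;> simp [P1, P2, Pi.single_apply]
      rw [this]
      funext e'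
      by_cases h : ∃ k, j k = e'
      · obtain ⟨k, rfl⟩ := h
        rw [ovr_apply hj]
        split_ifs with he
        · simp
        · rw [Pi.single_apply, if_neg fun hh => he (mem_image.2 ⟨k, mem_univ _, hh⟩)]
          rfl
      · push Not at h
        rw [ovr_of_not _ _ h]
        split_ifs with he
        · obtain ⟨k, -, rfl⟩ := mem_image.1 he
          rw [Pi.single_apply, if_neg fun hh => h k hh.symm]; rfl
        · rfl
    have e2 : ∀ k, L (Pi.single (Sum.inr k) 1) = Pi.single (j k) 1 := by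
      intro k
      have : L (Pi.single (Sum.inr k) 1) = ovr j 0 (Pi.single k 1) := by
        simp only [L, ContinuousLinearMap.comp_apply, ContinuousLinearMap.prod_apply, ovrL_apply]
        congr 1 <;> funext k <;> simp [P1, P2, Pi.single_apply]
      rw [this]
      funext e'
      by_cases h : ∃ k', j k' = e'
      · obtain ⟨k', rfl⟩ := h
        rw [ovr_apply hj, Pi.single_apply, Pi.single_apply]
        simp [hj.eq_iff]
      · push Not at h
        rw [ovr_of_not _ _ h, Pi.single_apply, if_neg fun hh => h k hh.symm]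
        rfl
    simp only [Fintype.sum_sum_type, e1, e2, ContinuousLinearMap.id_apply]
    rw [← sum_image (g := j) (f := fun e => φ (Pi.single e 1) ^ 2) fun a _ b _ h => hj h,
      ← sum_sdiff (subset_univ (univ.image j)) (f := fun e => φ (Pi.single e 1) ^ 2)]
    congr 1
    rw [← sum_sdiff (subset_univ (univ.image j))]
    rw [sum_eq_zero (s := univ.image j) fun e he => by simp [he], add_zero]
    exact sum_congr rfl fun e he => by rw [if_neg (mem_sdiff.1 he).2]
  rw [← hm.map_eq, Measure.map_map (continuous_ovr hj).measurable hm.measurable]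
  calc Measure.map ((fun p : (ι → ℝ) × (κ → ℝ) => ovr j p.1 p.2) ∘
        fun g : ι ⊕ κ → ℝ => (g ∘ Sum.inl, g ∘ Sum.inr)) (stdPi (ι ⊕ κ))
      = (stdPi (ι ⊕ κ)).map L := rfl
    _ = (stdPi ι).map (ContinuousLinearMap.id ℝ (ι → ℝ)) := e
    _ = stdPi ι := Measure.map_id

/-- integral form of `mp_ovr` -/
lemma integral_ovr {j : κ → ι} (hj : Function.Injective j) {F : (ι → ℝ) → ℝ} (hF : Continuous F) :
    ∫ p, F (ovr j p.1 p.2) ∂(stdPi ι).prod (stdPi κ) = ∫ g, F g ∂stdPi ι := by
  have h := mp_ovr (ι := ι) hj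
  have e := integral_map (μ := (stdPi ι).prod (stdPi κ)) h.measurable.aemeasurable
    (f := F) hF.aestronglyMeasurable
  rw [h.map_eq] at e
  exact e.symm

variable {K M : Type*} [Fintype K] [Fintype M] [DecidableEq K] [DecidableEq M]

/-- systems obtained from independent sources with coefficients `c` -/
noncomputable def comb (c : M → K → ℝ) (x : K × ι → ℝ) : M → ι → ℝ :=
  fun S e => ∑ k, c S k * x (k, e)

/-- the same as a linear map -/
noncomputable def combL (c : M → K → ℝ) : (K × ι → ℝ) →L[ℝ] (M → ι → ℝ) :=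
  ContinuousLinearMap.pi fun S => ContinuousLinearMap.pi fun e =>
    ∑ k, c S k • ContinuousLinearMap.proj (k, e)

omit [Fintype ι] [DecidableEq ι] [Fintype M] [DecidableEq K] [DecidableEq M] in
lemma combL_apply (c : M → K → ℝ) (x : K × ι → ℝ) : combL c x = comb c x := by
  funext S e
  simp [combL, comb]

omit [Fintype ι] [DecidableEq ι] [Fintype M] [DecidableEq K] [DecidableEq M] in
@[fun_prop] lemma continuous_comb (c : M → K → ℝ) : Continuous (comb (ι := ι) c) := by
  unfold comb; fun_prop

omit [DecidableEq M] in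
lemma combL_single (d : M → K → ℝ) (p : K × ι) (S : M) :
    combL (ι := ι) d (Pi.single p 1) S = d S p.1 • Pi.single p.2 1 := by
  funext e
  rw [combL_apply, comb]
  simp [Pi.single_apply, Prod.ext_iff, ite_and]

lemma combL_cov (d : M → K → ℝ) (φ : StrongDual ℝ (M → ι → ℝ)) :
    ∑ p : K × ι, φ (combL d (Pi.single p 1)) ^ 2 =
      ∑ e : ι, ∑ S, ∑ T, (∑ k, d S k * d T k) *
        (φ (Pi.single S (Pi.single e 1)) * φ (Pi.single T (Pi.single e 1))) := by
  have e1 : ∀ p : K × ι, φ (combL d (Pi.single p 1)) =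
      ∑ S, d S p.1 * φ (Pi.single S (Pi.single p.2 1)) := by
    intro p
    have h : combL d (Pi.single p 1) =
        ∑ S, d S p.1 • Pi.single (M := fun _ : M => ι → ℝ) S (Pi.single p.2 1) := by
      funext T
      rw [combL_single, Finset.sum_apply, sum_eq_single T]
      · simp
      · intro S _ hS
        simp [Pi.single_apply, Ne.symm hS]
      · simp
    simp only [h, map_sum, map_smul, smul_eq_mul]
  simp only [e1, sq, sum_mul_sum, Fintype.sum_prod_type]
  rw [sum_comm]
  refine sum_congr rfl fun e _ => ?_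
  rw [sum_comm]
  refine sum_congr rfl fun S _ => ?_
  rw [sum_comm]
  refine sum_congr rfl fun T _ => ?_
  rw [sum_mul]
  exact sum_congr rfl fun k _ => by ring

/-- The law of `comb` depends only on the covariance. -/
theorem integral_comb {K' : Type*} [Fintype K'] [DecidableEq K'] {E : Type*} [NormedAddCommGroup E]
    [NormedSpace ℝ E] (c : M → K → ℝ) (c' : M → K' → ℝ)
    (h : ∀ S T, ∑ k, c S k * c T k = ∑ k, c' S k * c' T k)
    {F : (M → ι → ℝ) → E} (hF : Continuous F) :
    ∫ x, F (comb c x) ∂stdPi (K × ι) = ∫ x, F (comb c' x) ∂stdPi (K' × ι) := by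
  have e := map_eq_of_cov (combL (ι := ι) c) (combL c') fun φ => by rw [combL_cov c φ, combL_cov c' φ]; simp only [h]
  have h1 := integral_map (μ := stdPi (K × ι)) (combL (ι := ι) c).continuous.measurable.aemeasurable
    (f := F) hF.aestronglyMeasurable
  rw [e, integral_map (combL (ι := ι) c').continuous.measurable.aemeasurable
    hF.aestronglyMeasurable] at h1
  simp only [combL_apply] at h1
  exact h1.symm

/-- a system with unit variance has standard law -/
theorem mp_comb_eval (c : M → K → ℝ) (S : M) (h : ∑ k, c S k ^ 2 = 1) :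
    MeasurePreserving (fun x : K × ι → ℝ => comb c x S) (stdPi (K × ι)) (stdPi ι) := by
  refine ⟨(by fun_prop : Continuous fun x : K × ι → ℝ => comb c x S).measurable, ?_⟩
  let L : (K × ι → ℝ) →L[ℝ] (ι → ℝ) := (ContinuousLinearMap.proj S).comp (combL c)
  have hL : ∀ x, L x = comb c x S := fun x => by simp [L, combL_apply]
  have e := map_eq_of_cov L (.id ℝ (ι → ℝ)) fun φ => by
    have e1 : ∀ p : K × ι, L (Pi.single p 1) = c S p.1 • Pi.single p.2 1 := by
      intro p
      funext e
      rw [hL, comb]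
      simp [Pi.single_apply, Prod.ext_iff, ite_and]
    simp only [e1, map_smul, smul_eq_mul, mul_pow, Fintype.sum_prod_type, ← mul_sum, ← sum_mul, h,
      one_mul, ContinuousLinearMap.id_apply]
  rw [show (fun x : K × ι → ℝ => comb c x S) = ⇑L from (funext hL).symm, e]
  exact Measure.map_id

end Vale.Agent.P146.Chaos
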