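import Vale.Agent.P146.Chaos.Gibbs

/-! # P146: row insensitivity and weak rank one, averaged over the noise of one system -/

namespace Vale.Agent.P146.Chaos

open Finset MeasureTheory ProbabilityTheory
open Vale.Agent.P150 Vale.Agent.P150.Slow

variable {n : ℕ} {M : Type} [Fintype M] [DecidableEq M]

/-- the bound on averaged thermal variances -/
noncomputable def v0 (β : ℝ) (n : ℕ) (ε : ℝ) : ℝ :=
  Real.exp (β ^ 2 / 2) * √(2 / (β ^ 2 * n * ε))

/-- the row sensitivity -/
noncomputable def kap (β : ℝ) (n : ℕ) (ε : ℝ) : ℝ := Real.exp (β ^ 2) * √(v0 β n ε)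

lemma v0_pos {β : ℝ} (hβ : 0 < β) (hn : 0 < n) {ε : ℝ} (hε : 0 < ε) : 0 < v0 β n ε := by
  have : (0 : ℝ) < n := by exact_mod_cast hn
  unfold v0; positivity

lemma integrable_bdd2 {α γ : Type*} [TopologicalSpace α] [MeasurableSpace α] [TopologicalSpace γ]
    [MeasurableSpace γ] [OpensMeasurableSpace (α × γ)] {μ : Measure α} {ν : Measure γ}
    [IsFiniteMeasure μ] [IsFiniteMeasure ν] {f : α × γ → ℝ} (hf : Continuous f) {B : ℝ}
    (hB : ∀ x, |f x| ≤ B) : Integrable f (μ.prod ν) :=
  (integrable_const B).mono' hf.aestronglyMeasurable (ae_of_all _ hB)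

lemma integral_fresh_le {β : ℝ} (hβ : 0 < β) (i : Fin n) (b : Ed n → ℝ) {r ε : ℝ} (h0 : 0 ≤ r)
    (hε : 0 < ε) (hr : r ≤ 1 - ε) (Z : Ed n → ℝ) :
    ∫ v, gvar β (ins i (sys r b v) 0) (quad i Z) ∂stdPi (Ed n) ≤ ip Z Z * v0 β n ε := by
  have hn : (0 : ℝ) < n := by exact_mod_cast i.pos
  have hZ : 0 ≤ ip Z Z := sum_nonneg fun p _ => mul_self_nonneg _
  set G : (Ed n → ℝ) → ℝ := fun g => gvar β g (quad i Z) with hG
  have hGc : Continuous G := by
    simp only [hG, gvar_eq]
    exact (continuous_avg β _).sub ((continuous_avg β _).mul (continuous_avg β _))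
  set B := √(ip Z Z) with hB
  have hq : ∀ x, |quad i Z x| ≤ B := fun x => abs_quad_le i le_rfl x
  have hGb : ∀ g, |G g| ≤ (B + B) ^ 2 := fun g => by
    rw [abs_of_nonneg (gvar_nonneg _ _ _)]
    refine (avg_mono _ _ fun x => ?_).trans (avg_const _ _ _).le
    rw [← sq_abs]
    exact pow_le_pow_left₀ (abs_nonneg _)
      ((abs_sub _ _).trans (add_le_add (hq x) (abs_avg_le _ _ hq))) 2
  have hcins : Continuous fun p : (Ed n → ℝ) × (Fin n → ℝ) => ins i p.1 p.2 :=
    continuous_ovr (row_injective i)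
  have hcs : ∀ b : Ed n → ℝ, Continuous fun v => sys r b v := fun b =>
    (continuous_sys r).comp (continuous_const.prodMk continuous_id)
  -- one fresh row
  have h1 : ∀ v, gvar β (ins i (sys r b v) 0) (quad i Z) ≤
      Real.exp (β ^ 2 / 2) * ∫ y, G (ins i (sys r b v) y) ∂stdPi (Fin n) := fun v =>
    gvar_zero_le_integral β _ i _ (fun x => quad_flp i Z x) hq
  have hi2 : Integrable (fun p : (Ed n → ℝ) × (Fin n → ℝ) => G (ins i (sys r b p.1) p.2))
      ((stdPi (Ed n)).prod (stdPi (Fin n))) :=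
    integrable_bdd2 (hGc.comp (hcins.comp (((hcs b).comp continuous_fst).prodMk continuous_snd)))
      fun p => hGb _
  refine (integral_mono (integrable_bdd ((show Continuous fun v => gvar β (ins i (sys r b v) 0)
      (quad i Z) from hGc.comp (hcins.comp ((hcs b).prodMk continuous_const)))) fun v => hGb _)
    (hi2.integral_prod_left.const_mul _) h1).trans ?_
  rw [integral_const_mul, ← integral_prod _ hi2, v0, mul_left_comm]
  refine mul_le_mul_of_nonneg_left ?_ (Real.exp_pos _).le
  -- split the fresh row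
  have h3 : ∀ v, ∫ y, G (ins i (sys r b v) y) ∂stdPi (Fin n) =
      ∫ q, G (sys r (ins i b q.1) (ins i v q.2)) ∂(stdPi (Fin n)).prod (stdPi (Fin n)) := by
    intro v
    have h := integral_merge (ι := Fin n) (√r) (√(1 - r)) 1
      (by rw [Real.sq_sqrt h0, Real.sq_sqrt (by linarith)]; ring)
      (F := fun y => G (ins i (sys r b v) y))
      (hGc.comp (hcins.comp (continuous_const.prodMk continuous_id)))
    simp only [one_smul] at h
    rw [← h]
    refine integral_congr_ae (ae_of_all _ fun q => ?_)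
    show G (ins i (sys r b v) (sys r q.1 q.2)) = _
    rw [ins, ovr_sys (row_injective i)]
    rfl
  rw [integral_prod _ hi2, funext h3]
  set K : (Ed n → ℝ) × ((Fin n → ℝ) × (Fin n → ℝ)) → ℝ := fun q =>
    G (sys r (ins i b q.2.1) (ins i q.1 q.2.2)) with hK
  have hKc : Continuous K := hGc.comp ((continuous_sys r).comp
    (((hcins.comp (continuous_const.prodMk (continuous_fst.comp continuous_snd)))).prodMk
      (hcins.comp (continuous_fst.prodMk (continuous_snd.comp continuous_snd)))))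
  have hiK : Integrable K ((stdPi (Ed n)).prod ((stdPi (Fin n)).prod (stdPi (Fin n)))) :=
    integrable_bdd2 hKc fun p => hGb _
  show ∫ v, ∫ q, K (v, q) ∂_ ∂_ ≤ _
  rw [← integral_prod _ hiK, ← integral_prod_swap]
  show ∫ q, (K ∘ Prod.swap) q ∂_ ≤ _
  rw [integral_prod _ hiK.swap]
  have h4 : ∀ q : (Fin n → ℝ) × (Fin n → ℝ), Continuous fun v : Ed n → ℝ => K (v, q) := fun q =>
    hKc.comp (continuous_id.prodMk continuous_const)
  simp only [Function.comp_apply, Prod.swap_prod_mk]
  have hi3 : Integrable (fun q => ∫ v, K (v, q) ∂stdPi (Ed n))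
      ((stdPi (Fin n)).prod (stdPi (Fin n))) := hiK.integral_prod_right
  rw [integral_prod _ hi3]
  calc ∫ p, ∫ q, ∫ v, K (v, (p, q)) ∂stdPi (Ed n) ∂stdPi (Fin n) ∂stdPi (Fin n)
      = ∫ p, ∫ z, G (sys r (ins i b p) z) ∂stdPi (Ed n) ∂stdPi (Fin n) := by
        refine integral_congr_ae (ae_of_all _ fun p => ?_)
        have hc : Continuous fun z => G (sys r (ins i b p) z) := hGc.comp (hcs _)
        simp only
        rw [← integral_ovr (row_injective i) hc]
        have hi4 : Integrable (fun u : (Ed n → ℝ) × (Fin n → ℝ) =>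
            G (sys r (ins i b p) (ins i u.1 u.2))) ((stdPi (Ed n)).prod (stdPi (Fin n))) :=
          integrable_bdd2 (hc.comp hcins) fun u => hGb _
        exact ((integral_prod _ hi4).trans (integral_integral_swap hi4)).symm
    _ ≤ ∫ _p, ip Z Z * √(2 / (β ^ 2 * n * ε)) ∂stdPi (Fin n) := by
        refine integral_mono_of_nonneg (ae_of_all _ fun p => integral_nonneg fun z =>
          gvar_nonneg _ _ _) (integrable_const _) (ae_of_all _ fun p => ?_)
        refine (integral_gvar_quad_le β i hβ _ h0 (by linarith) Z).trans ?_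
        refine mul_le_mul_of_nonneg_left (Real.sqrt_le_sqrt ?_) hZ
        refine div_le_div_of_nonneg_left two_pos.le (by positivity) ?_
        exact mul_le_mul_of_nonneg_left (by linarith) (by positivity)
    _ = _ := by simp

/-- the noise of system `S` -/
def blk (S : M) (z : M × Ed n → ℝ) : Ed n → ℝ := fun e => z (S, e)

lemma inj_blk (S : M) : Function.Injective fun e : Ed n => (S, e) := fun a b h => by simpa using h

/-- refresh the noise of system `S` -/
noncomputable def upd (S : M) (z : M × Ed n → ℝ) (v : Ed n → ℝ) : M × Ed n → ℝ :=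
  ovr (fun e => (S, e)) z v

lemma blk_upd_self (S : M) (z : M × Ed n → ℝ) (v : Ed n → ℝ) : blk S (upd S z v) = v :=
  funext fun e => ovr_apply (inj_blk S) z v e

lemma blk_upd_ne {S T : M} (h : T ≠ S) (z : M × Ed n → ℝ) (v : Ed n → ℝ) :
    blk T (upd S z v) = blk T z :=
  funext fun e => ovr_of_not z v fun e' he => h (congrArg Prod.fst he).symm

section Core

variable {Θ : Type} [TopologicalSpace Θ] [MeasurableSpace Θ] [BorelSpace Θ]
  [SecondCountableTopology Θ] (P : Measure Θ) [IsProbabilityMeasure P]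
  {C : Type*} [Fintype C]

/-- the disorder of system `S` -/
noncomputable def gS (i : Fin n) (b : Ed n → ℝ) (r : ℝ) (S : M) (y : Θ → Fin n → ℝ)
    (q : Θ × (M × Ed n → ℝ)) : Ed n → ℝ := ins i (sys r b (blk S q.2)) (y q.1)

/-- **Row insensitivity, averaged over the noise of one system.** -/
theorem core_bound {β : ℝ} (hβ : 0 < β) (i : Fin n) (b : Ed n → ℝ) {r ε : ℝ} (h0 : 0 ≤ r)
    (hε : 0 < ε) (hr : r ≤ 1 - ε) (S : M) {y : Θ → Fin n → ℝ} (hy : Continuous y)
    (hmp : MeasurePreserving y P (stdPi (Fin n))) (W : C → Θ × (M × Ed n → ℝ) → ℝ)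
    (Z : C → Θ × (M × Ed n → ℝ) → Ed n → ℝ) (hWc : ∀ c, Continuous (W c))
    (hZc : ∀ c, Continuous (Z c)) (hW0 : ∀ c q, 0 ≤ W c q) (hW1 : ∀ q, ∑ c, W c q ≤ 1)
    {B : ℝ} (hB0 : 0 < B) (hZB : ∀ c q, ip (Z c q) (Z c q) ≤ B)
    (hWi : ∀ c θ z v, W c (θ, upd S z v) = W c (θ, z))
    (hZi : ∀ c θ z v, Z c (θ, upd S z v) = Z c (θ, z))
    {F : Θ × (M × Ed n → ℝ) → ℝ} (hF : Continuous F) (hF0 : ∀ q, 0 ≤ F q)
    (hFle : ∀ q, F q ≤ √(tlt2 β (sys r b (blk S q.2)) i (y q.1)) *
      ∑ c, W c q * √(gvar β (ins i (sys r b (blk S q.2)) 0) (quad i (Z c q)))) :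
    ∫ q, F q ∂P.prod (stdPi (M × Ed n)) ≤ kap β n ε * √B := by
  set μ := P.prod (stdPi (M × Ed n)) with hμ
  set rest : Θ × (M × Ed n → ℝ) → Ed n → ℝ := fun q => sys r b (blk S q.2) with hrest
  have hrc : Continuous rest := by
    have : Continuous fun q : Θ × (M × Ed n → ℝ) => blk S q.2 :=
      (continuous_pi fun e => continuous_apply (S, e)).comp continuous_snd
    exact (continuous_sys r).comp (continuous_const.prodMk this)
  have hcins : Continuous fun p : (Ed n → ℝ) × (Fin n → ℝ) => ins i p.1 p.2 :=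
    continuous_ovr (row_injective i)
  set T : Θ × (M × Ed n → ℝ) → ℝ := fun q => tlt2 β (rest q) i (y q.1) with hT
  set V : Θ × (M × Ed n → ℝ) → ℝ := fun q =>
    ∑ c, W c q * gvar β (ins i (rest q) 0) (quad i (Z c q)) with hV
  -- the variance part
  have hVc : Continuous V := by
    refine continuous_finsetSum _ fun c _ => (hWc c).mul ?_
    have hg : Continuous fun q => ins i (rest q) 0 := hcins.comp (hrc.prodMk continuous_const)
    have ha : ∀ f : Θ × (M × Ed n → ℝ) → Cfg n → ℝ, (∀ x, Continuous fun q => f q x) →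
        Continuous fun q => avg β (ins i (rest q) 0) (f q) := by
      intro f hf
      unfold avg av en
      exact Continuous.div (by fun_prop) (by fun_prop) fun q => (part_pos (cpl n β) _).ne'
    have hq : ∀ x, Continuous fun q => quad i (Z c q) x := fun x => by
      unfold quad
      have := hZc c
      fun_prop
    simp only [gvar_eq]
    exact (ha _ fun x => (hq x).mul (hq x)).sub ((ha _ hq).mul (ha _ hq))
  have hVb : ∀ q, |V q| ≤ (√B + √B) ^ 2 := by
    intro q
    have hgv : ∀ c, gvar β (ins i (rest q) 0) (quad i (Z c q)) ≤ (√B + √B) ^ 2 := fun c => by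
      have hq : ∀ x, |quad i (Z c q) x| ≤ √B := fun x =>
        abs_quad_le i (Real.sqrt_le_sqrt (hZB c q)) x
      refine (avg_mono _ _ fun x => ?_).trans (avg_const _ _ _).le
      rw [← sq_abs]
      exact pow_le_pow_left₀ (abs_nonneg _)
        ((abs_sub _ _).trans (add_le_add (hq x) (abs_avg_le _ _ hq))) 2
    rw [abs_of_nonneg (sum_nonneg fun c _ => mul_nonneg (hW0 c q) (gvar_nonneg _ _ _))]
    calc V q ≤ ∑ c, W c q * (√B + √B) ^ 2 :=
          sum_le_sum fun c _ => mul_le_mul_of_nonneg_left (hgv c) (hW0 c q)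
      _ ≤ _ := by rw [← sum_mul]; exact mul_le_of_le_one_left (by positivity) (hW1 q)
  have hiV : Integrable V μ := integrable_bdd2 hVc hVb
  have hVint : ∫ q, V q ∂μ ≤ v0 β n ε * B := by
    rw [hμ, integral_prod _ hiV]
    refine (integral_mono_of_nonneg (ae_of_all _ fun θ => integral_nonneg fun z =>
      sum_nonneg fun c _ => mul_nonneg (hW0 c _) (gvar_nonneg _ _ _)) (integrable_const (v0 β n ε * B))
      (ae_of_all _ fun θ => ?_)).trans (by simp)
    show ∫ z, V (θ, z) ∂stdPi (M × Ed n) ≤ v0 β n ε * B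
    have hc : Continuous fun z => V (θ, z) := hVc.comp (continuous_const.prodMk continuous_id)
    rw [← integral_ovr (inj_blk S) hc]
    have hi : Integrable (fun u : (M × Ed n → ℝ) × (Ed n → ℝ) => V (θ, upd S u.1 u.2))
        ((stdPi (M × Ed n)).prod (stdPi (Ed n))) :=
      integrable_bdd2 (hc.comp (continuous_ovr (inj_blk S))) fun u => hVb _
    refine (integral_prod _ hi).trans_le ((integral_mono_of_nonneg (ae_of_all _ fun z =>
      integral_nonneg fun v => sum_nonneg fun c _ => mul_nonneg (hW0 c _) (gvar_nonneg _ _ _))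
      (integrable_const (v0 β n ε * B)) (ae_of_all _ fun z => ?_)).trans (by simp))
    simp only [hV, hrest, blk_upd_self, hWi, hZi]
    have hint : ∀ c, Integrable (fun v => gvar β (ins i (sys r b v) 0) (quad i (Z c (θ, z))))
        (stdPi (Ed n)) := by
      intro c
      refine integrable_bdd (B := (√B + √B) ^ 2) ?_ fun v => ?_
      · simp only [gvar_eq]
        have ha : ∀ f, Continuous fun v => avg β (ins i (sys r b v) 0) f := fun f =>
          (continuous_avg β f).comp (hcins.comp (((continuous_sys r).comp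
            (continuous_const.prodMk continuous_id)).prodMk continuous_const))
        exact (ha _).sub ((ha _).mul (ha _))
      · have hq : ∀ x, |quad i (Z c (θ, z)) x| ≤ √B := fun x =>
          abs_quad_le i (Real.sqrt_le_sqrt (hZB c _)) x
        rw [abs_of_nonneg (gvar_nonneg _ _ _)]
        refine (avg_mono _ _ fun x => ?_).trans (avg_const _ _ _).le
        rw [← sq_abs]
        exact pow_le_pow_left₀ (abs_nonneg _)
          ((abs_sub _ _).trans (add_le_add (hq x) (abs_avg_le _ _ hq))) 2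
    rw [integral_finsetSum _ fun c _ => (hint c).const_mul _]
    have hv := (v0_pos hβ i.pos hε).le
    calc ∑ c, ∫ v, W c (θ, z) * gvar β (ins i (sys r b v) 0) (quad i (Z c (θ, z))) ∂stdPi (Ed n)
        ≤ ∑ c, W c (θ, z) * (v0 β n ε * B) := sum_le_sum fun c _ => by
          rw [integral_const_mul]
          refine mul_le_mul_of_nonneg_left ?_ (hW0 c _)
          refine (integral_fresh_le hβ i b h0 hε hr _).trans ?_
          rw [mul_comm]
          exact mul_le_mul_of_nonneg_left (hZB c _) hv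
      _ ≤ _ := by rw [← sum_mul]; exact mul_le_of_le_one_left (by positivity) (hW1 _)
  -- the tilt part
  have hTc : Continuous T := by
    simp only [hT, tlt2]
    have hg : Continuous fun q => ins i (rest q) 0 := hcins.comp (hrc.prodMk continuous_const)
    have ht : ∀ x, Continuous fun q : Θ × (M × Ed n → ℝ) => tilt β i (y q.1) x := fun x => by
      unfold tilt; fun_prop
    unfold avg av en
    exact Continuous.div (by fun_prop) (by fun_prop) fun q => (part_pos (cpl n β) _).ne'
  have hT0 : ∀ q, 0 ≤ T q := fun q => avg_nonneg _ _ fun x => sq_nonneg _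
  have hTs : ∀ z, Integrable (fun θ => T (θ, z)) P ∧ ∫ θ, T (θ, z) ∂P ≤ Real.exp (2 * β ^ 2) := by
    intro z
    have h := integral_tlt2_le β (sys r b (blk S z)) i
    refine ⟨hmp.integrable_comp_of_integrable h.1, ?_⟩
    have e := integral_map (μ := P) hmp.measurable.aemeasurable
      (f := fun v => tlt2 β (sys r b (blk S z)) i v) (hmp.map_eq ▸ h.1.aestronglyMeasurable)
    rw [hmp.map_eq] at e
    exact e.symm.trans_le h.2
  have hiT : Integrable T μ := by
    rw [hμ, integrable_prod_iff' hTc.aestronglyMeasurable]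
    refine ⟨ae_of_all _ fun z => (hTs z).1, ?_⟩
    refine (integrable_const (Real.exp (2 * β ^ 2))).mono'
      ((hTc.norm.comp continuous_swap).aestronglyMeasurable (μ := (stdPi (M × Ed n)).prod P)).integral_prod_right' (ae_of_all _ fun z => ?_)
    simp only [Real.norm_eq_abs, abs_of_nonneg (hT0 _)]
    rw [abs_of_nonneg (integral_nonneg fun θ => hT0 _)]
    exact (hTs z).2
  have hTint : ∫ q, T q ∂μ ≤ Real.exp (2 * β ^ 2) := by
    rw [hμ, integral_prod_symm _ hiT]
    exact (integral_mono hiT.integral_prod_right (integrable_const _) fun z => (hTs z).2).trans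
      (by simp)
  -- combine
  have hv := v0_pos hβ i.pos hε
  set l := √(v0 β n ε * B) / Real.exp (β ^ 2) with hl
  have hl0 : 0 < l := by positivity
  have hp : ∀ q, F q ≤ l / 2 * T q + 1 / (2 * l) * V q := by
    intro q
    refine (hFle q).trans ?_
    have hC : ∑ c, W c q * √(gvar β (ins i (rest q) 0) (quad i (Z c q))) ≤ √(V q) := by
      refine Real.le_sqrt_of_sq_le ?_
      refine (sum_sq_le_sum_mul_sum_of_sq_le_mul univ (fun c _ => hW0 c q)
        (fun c _ => mul_nonneg (hW0 c q) (gvar_nonneg _ _ _)) fun c _ => le_of_eq ?_).trans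
        (mul_le_of_le_one_left (sum_nonneg fun c _ => mul_nonneg (hW0 c q) (gvar_nonneg _ _ _))
          (hW1 q))
      rw [mul_pow, Real.sq_sqrt (gvar_nonneg _ _ _)]; ring
    refine (mul_le_mul_of_nonneg_left hC (Real.sqrt_nonneg _)).trans ?_
    have hV0 : 0 ≤ V q := sum_nonneg fun c _ => mul_nonneg (hW0 c q) (gvar_nonneg _ _ _)
    set a := √(T q) with ha
    set c := √(V q) with hc
    have ha2 : a * a = T q := Real.mul_self_sqrt (hT0 q)
    have hc2 : c * c = V q := Real.mul_self_sqrt hV0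
    show a * c ≤ _
    rw [← ha2, ← hc2]
    have key : 0 ≤ (l * a - c) ^ 2 / (2 * l) := by positivity
    have e : l / 2 * (a * a) + 1 / (2 * l) * (c * c) = a * c + (l * a - c) ^ 2 / (2 * l) := by
      field_simp
      ring
    linarith
  refine (integral_mono_of_nonneg (ae_of_all _ hF0) ((hiT.const_mul _).add (hiV.const_mul _))
    (ae_of_all _ hp)).trans ?_
  simp only [Pi.add_apply]
  rw [integral_add (hiT.const_mul _) (hiV.const_mul _), integral_const_mul, integral_const_mul]
  refine (add_le_add (mul_le_mul_of_nonneg_left hTint (by positivity))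
    (mul_le_mul_of_nonneg_left hVint (by positivity))).trans (le_of_eq ?_)
  have e2 : Real.exp (2 * β ^ 2) = Real.exp (β ^ 2) * Real.exp (β ^ 2) := by
    rw [← Real.exp_add]; ring_nf
  have hs : √(v0 β n ε * B) * √(v0 β n ε * B) = v0 β n ε * B :=
    Real.mul_self_sqrt (by positivity)
  rw [hl, e2, kap, mul_assoc, ← Real.sqrt_mul hv.le]
  set s := √(v0 β n ε * B) with hsd
  rw [← hs]
  have hs0 : 0 < s := Real.sqrt_pos.2 (by positivity)
  field_simp
  ring

end Core

/-! ### weak rank one -/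

/-- overlap with a vector -/
noncomputable def ov (τ : Fin n → ℝ) (x : Cfg n) : ℝ := (∑ j, τ j * sp x j) / n

/-- the rank one test matrix -/
noncomputable def r1 (τ ω : Fin n → ℝ) (p : Ed n) : ℝ := τ p.1 * ω p.2 / n

lemma quad_r1 {i : Fin n} {τ ω : Fin n → ℝ} (hτ : τ i = 0) (hω : ω i = 0) (x : Cfg n) :
    quad i (r1 τ ω) x = ov τ x * ov ω x := by
  simp only [quad, ov, div_mul_div_comm, sum_mul_sum, sum_div, Fintype.sum_prod_type]
  refine sum_congr rfl fun a _ => sum_congr rfl fun c _ => ?_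
  have h : msk i (a, c) * (τ a * ω c) = τ a * ω c := by
    unfold msk
    simp only
    split_ifs with h
    · rcases h with rfl | rfl <;> simp [hτ, hω]
    · ring
  rw [r1]
  calc τ a * ω c / n * (msk i (a, c) * (sp x a * sp x c) / n)
      = msk i (a, c) * (τ a * ω c) * (sp x a * sp x c) / (n * n) := by ring
    _ = _ := by rw [h]; ring

lemma ip_r1_le {τ ω : Fin n → ℝ} (hτ : ∑ j, τ j ^ 2 ≤ 2 * n) (hω : ∑ j, ω j ^ 2 ≤ 2 * n) :
    ip (r1 τ ω) (r1 τ ω) ≤ 4 := by
  have e : ip (r1 τ ω) (r1 τ ω) = (∑ j, τ j ^ 2) / n * ((∑ j, ω j ^ 2) / n) := by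
    simp only [ip, r1, div_mul_div_comm, sum_mul_sum, sum_div, Fintype.sum_prod_type]
    refine sum_congr rfl fun a _ => sum_congr rfl fun c _ => ?_
    ring
  rw [e]
  rcases Nat.eq_zero_or_pos n with rfl | hn
  · simp
  have hn' : (0 : ℝ) < n := by exact_mod_cast hn
  have h2 : ∀ {a : ℝ}, a ≤ 2 * n → a / n ≤ 2 := fun h => by rwa [div_le_iff₀ hn']
  nlinarith [h2 hτ, h2 hω, div_nonneg (sum_nonneg fun j (_ : j ∈ univ) => sq_nonneg (τ j)) hn'.le,
    div_nonneg (sum_nonneg fun j (_ : j ∈ univ) => sq_nonneg (ω j)) hn'.le]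

lemma abs_ov_le {τ : Fin n → ℝ} (hτ : ∑ j, τ j ^ 2 ≤ 2 * n) (x : Cfg n) : |ov τ x| ≤ 2 := by
  rcases Nat.eq_zero_or_pos n with rfl | hn
  · simp [ov]
  have hn' : (0 : ℝ) < n := by exact_mod_cast hn
  rw [ov, abs_div, Nat.abs_cast, div_le_iff₀ hn']
  refine abs_le_of_sq_le_sq ?_ (by positivity)
  refine (sum_mul_sq_le_sq_mul_sq univ τ (sp x)).trans ?_
  have h1 : ∑ j, sp x j ^ 2 = n := by simp [sq, sp_sq]
  rw [h1]
  nlinarith

/-- **Weak rank one** for one pair of test vectors. -/
theorem rank_one {β : ℝ} (g : Ed n → ℝ) {i : Fin n} {τ ω : Fin n → ℝ} (hτ0 : τ i = 0)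
    (hω0 : ω i = 0) (hτ : ∑ j, τ j ^ 2 ≤ 2 * n) (hω : ∑ j, ω j ^ 2 ≤ 2 * n) :
    avg β g (fun x => avg β g fun x' => |ov τ x * ov τ x' * avg β g (fun s => ov ω s * ov ω s)
        - avg β g (fun s => ov τ s * ov τ s) * (ov ω x * ov ω x')|) ≤
      4 * √(gvar β g (quad i (r1 ω ω))) + 8 * √(gvar β g (quad i (r1 τ ω))) +
        4 * √(gvar β g (quad i (r1 τ τ))) := by
  set M2 := avg β g (fun s => ov ω s * ov ω s) with hM
  set m2 := avg β g (fun s => ov τ s * ov τ s) with hm
  set mm := avg β g (fun s => ov τ s * ov ω s) with hmm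
  set dW : Cfg n → ℝ := fun x => |ov ω x * ov ω x - M2| with hdW
  set dX : Cfg n → ℝ := fun x => |ov τ x * ov ω x - mm| with hdX
  set dT : Cfg n → ℝ := fun x => |ov τ x * ov τ x - m2| with hdT
  have a := abs_ov_le hτ
  have b := abs_ov_le hω
  have key : ∀ x x', |ov τ x * ov τ x' * M2 - m2 * (ov ω x * ov ω x')| ≤
      4 * dW x + 4 * (dX x + dX x') + 4 * dT x' := by
    intro x x'
    have e : ov τ x * ov τ x' * M2 - m2 * (ov ω x * ov ω x') =
        ov τ x * ov τ x' * (M2 - ov ω x * ov ω x) +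
        ((ov τ x * ov ω x - mm) - (ov τ x' * ov ω x' - mm)) * (ov ω x * ov τ x') +
        ov ω x * ov ω x' * (ov τ x' * ov τ x' - m2) := by ring
    rw [e]
    refine (abs_add_le _ _).trans (add_le_add ((abs_add_le _ _).trans (add_le_add ?_ ?_)) ?_)
    · rw [abs_mul, abs_mul, abs_sub_comm]
      refine mul_le_mul_of_nonneg_right ?_ (abs_nonneg _)
      nlinarith [a x, a x', abs_nonneg (ov τ x), abs_nonneg (ov τ x')]
    · rw [abs_mul, mul_comm]
      refine mul_le_mul ?_ (abs_sub (ov τ x * ov ω x - mm) (ov τ x' * ov ω x' - mm)) (abs_nonneg _) (by norm_num)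
      rw [abs_mul]; nlinarith [b x, a x', abs_nonneg (ov ω x), abs_nonneg (ov τ x')]
    · rw [abs_mul, abs_mul]
      refine mul_le_mul_of_nonneg_right ?_ (abs_nonneg _)
      nlinarith [b x, b x', abs_nonneg (ov ω x), abs_nonneg (ov ω x')]
  refine (avg_mono _ _ fun x => avg_mono _ _ fun x' => key x x').trans ?_
  simp only [avg_add, avg_const_mul, avg_const]
  have hd : ∀ σ ρ : Fin n → ℝ, σ i = 0 → ρ i = 0 →
      avg β g (fun x => |ov σ x * ov ρ x - avg β g fun s => ov σ s * ov ρ s|) ≤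
        √(gvar β g (quad i (r1 σ ρ))) := by
    intro σ ρ hσ hρ
    refine (avg_abs_le_sqrt β g _).trans (le_of_eq ?_)
    rw [show quad i (r1 σ ρ) = fun x => ov σ x * ov ρ x from funext (quad_r1 hσ hρ)]
    simp only [gvar, sq_abs]
  have h1 := hd ω ω hω0 hω0
  have h2 := hd τ ω hτ0 hω0
  have h3 := hd τ τ hτ0 hτ0
  simp only [hdW, hdX, hdT, hM, hm, hmm]
  linarith

end Vale.Agent.P146.Chaos
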